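import Mathlib

/-! P319: a zero free half plane gives a small prime on which a character is not one. -/

noncomputable section
open Complex MeasureTheory Filter Topology Set Asymptotics Metric
open DirichletCharacter ArithmeticFunction

namespace Vale.Agent.P319

variable {q : ℕ} [NeZero q] {χ : DirichletCharacter ℂ q}

theorem block (hχ : χ ≠ 1) (m : ℕ) : ∑ i ∈ Finset.range q, χ ((m + i : ℕ) : ZMod q) = 0 := by
  have h1 : ∑ i ∈ Finset.range q, χ ((m + i : ℕ) : ZMod q) = ∑ a : ZMod q, χ (m + a) := by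
    refine Finset.sum_nbij' (fun k => (k : ZMod q)) ZMod.val (by simp) (fun a _ => ?_)
      (fun a ha => ?_) (by simp) (fun a _ => by push_cast; rfl)
    · simpa using ZMod.val_lt a
    · exact ZMod.val_cast_of_lt (by simpa using ha)
  rw [h1]
  exact (Equiv.sum_comp (Equiv.addLeft (m : ZMod q)) fun a => χ a).trans
    (MulChar.sum_eq_zero_of_ne_one hχ)

theorem psum (hχ : χ ≠ 1) (n : ℕ) : ‖∑ k ∈ Finset.Icc 1 n, χ k‖ ≤ q := by
  rw [← Finset.Ico_add_one_right_eq_Icc, Finset.sum_Ico_eq_sum_range, Nat.add_sub_cancel]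
  induction n using Nat.strong_induction_on with
  | _ n ih =>
    rcases lt_or_ge n q with h | h
    · refine (norm_sum_le_of_le _ fun i _ => χ.norm_le_one _).trans ?_
      simpa using h.le
    · obtain ⟨m, rfl⟩ := Nat.exists_eq_add_of_le' h
      rw [Finset.sum_range_add]
      simp only [← add_assoc]
      rw [block hχ, add_zero]
      exact ih m (by have := NeZero.pos q; omega)

theorem Lbound : ∃ C : ℝ, 0 < C ∧ ∀ (q : ℕ) [NeZero q] (χ : DirichletCharacter ℂ q), χ ≠ 1 →
    ∀ s : ℂ, 1 / 2 ≤ s.re → ‖s‖ ≤ 4 → ‖LFunction χ s‖ ≤ C * q := by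
  have i0 : IntegrableOn (fun t : ℝ => t ^ (-(3 / 2) : ℝ)) (Ioi 1) :=
    integrableOn_Ioi_rpow_of_lt (by norm_num) one_pos
  have p0 : 0 ≤ ∫ t in Ioi (1 : ℝ), t ^ (-(3 / 2) : ℝ) :=
    setIntegral_nonneg measurableSet_Ioi fun t ht => Real.rpow_nonneg (by linarith [mem_Ioi.1 ht]) _
  refine ⟨4 * (∫ t in Ioi (1 : ℝ), t ^ (-(3 / 2) : ℝ)) + 1, by positivity, fun q _ χ hχ s hs hs' => ?_⟩
  set S : ℝ → ℂ := fun t => ∑ k ∈ Finset.Icc 1 ⌊t⌋₊, χ k with hS
  have Sm : Measurable S := (measurable_from_top (f := fun n : ℕ => ∑ k ∈ Finset.Icc 1 n, χ k)).comp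
    Nat.measurable_floor
  have Sb : ∀ t, ‖S t‖ ≤ q := fun t => psum hχ _
  have S0 : ∀ t, t < 1 → S t = 0 := fun t ht => by simp [hS, Nat.floor_eq_zero.2 ht]
  have e1 : ∀ z : ℂ, mellin S (-z) = ∫ t in Ioi (1 : ℝ), S t * (t : ℂ) ^ (-(z + 1)) := fun z => by
    rw [mellin, ← integral_Ici_eq_integral_Ioi (x := (1 : ℝ)),
      setIntegral_eq_of_subset_of_forall_sdiff_eq_zero measurableSet_Ioi
        (Ici_subset_Ioi.2 one_pos) fun t ht => by rw [S0 t (not_le.1 ht.2), smul_zero]]
    refine setIntegral_congr_fun measurableSet_Ici fun t _ => ?_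
    simp only [smul_eq_mul]
    rw [mul_comm]; congr 2; ring
  have op : IsOpen {s : ℂ | 0 < s.re} := isOpen_lt continuous_const continuous_re
  have d1 : DifferentiableOn ℂ (fun z => z * mellin S (-z)) {s : ℂ | 0 < s.re} := fun z hz => by
    refine (differentiableAt_id.mul (DifferentiableAt.comp z (g := mellin S) (f := fun s => -s)
      (mellin_differentiableAt_of_isBigO_rpow (a := 0) (b := -(z.re + 1)) ?_ ?_ ?_ ?_ ?_)
      differentiableAt_id.neg)).differentiableWithinAt
    · exact ((locallyIntegrable_const (q : ℝ)).mono Sm.aestronglyMeasurable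
        (.of_forall fun t => by simpa using Sb t)).locallyIntegrableOn _
    · exact IsBigO.of_bound q (.of_forall fun t => by simpa using Sb t)
    · simpa using hz
    · refine IsBigO.of_bound 0 ?_
      filter_upwards [nhdsWithin_le_nhds (Iio_mem_nhds one_pos)] with t ht
      simp [S0 t ht]
    · simp
  have key := AnalyticOnNhd.eqOn_of_preconnected_of_eventuallyEq (𝕜 := ℂ)
    ((differentiable_LFunction hχ).differentiableOn.analyticOnNhd op) (d1.analyticOnNhd op)
    (convex_halfSpace_re_gt 0).isPreconnected (z₀ := 2) (by simp) (by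
      filter_upwards [(isOpen_lt continuous_const continuous_re).mem_nhds
        (show (2 : ℂ) ∈ {s : ℂ | 1 < s.re} by simp)] with z hz
      have hz : 1 < z.re := hz
      rw [LFunction_eq_LSeries _ hz, e1]
      exact LSeries_eq_mul_integral _ le_rfl (by linarith) (LSeriesSummable_of_one_lt_re χ hz)
        (IsBigO.of_bound q (.of_forall fun n => by simpa using psum hχ n)))
    (show s ∈ {s : ℂ | 0 < s.re} by simp only [mem_ofPred_eq]; linarith)
  rw [key]
  simp only
  rw [e1, norm_mul]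
  have b := norm_integral_le_of_norm_le (μ := volume.restrict (Ioi 1))
    (f := fun t : ℝ => S t * (t : ℂ) ^ (-(s + 1))) (i0.const_mul q)
    ((ae_restrict_iff' measurableSet_Ioi).2 (.of_forall fun t ht => by
      have ht : 1 < t := ht
      rw [norm_mul, norm_cpow_eq_rpow_re_of_pos (by linarith)]
      refine mul_le_mul (Sb t) (Real.rpow_le_rpow_of_exponent_le ht.le ?_) (by positivity)
        (by positivity)
      simp; linarith))
  rw [integral_const_mul] at b
  have q0 : (0 : ℝ) ≤ q := q.cast_nonneg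
  nlinarith [mul_le_mul hs' b (norm_nonneg _) (by norm_num)]

/-- bound for a logarithmic derivative -/
theorem logd {h : ℂ → ℂ} {R δ M : ℝ} (hδ : 0 < δ) (hR : 0 < R) (hM : 0 < M)
    (hd : DifferentiableOn ℂ h (ball 0 (R + 2 * δ))) (h0 : ∀ z ∈ ball (0 : ℂ) (R + 2 * δ), h z ≠ 0)
    (hb : ∀ z ∈ ball (0 : ℂ) (R + 2 * δ), ‖h z‖ ≤ Real.exp M * ‖h 0‖) {z : ℂ} (hz : ‖z‖ ≤ R) :
    ‖deriv h z / h z‖ ≤ 2 * M * (R + δ) / δ / δ := by
  have d1 : DifferentiableOn ℂ (fun z => deriv h z / h z) (ball 0 (R + 2 * δ)) :=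
    (hd.deriv isOpen_ball).div hd h0
  obtain ⟨l, l0, hl⟩ := d1.isExactOn_ball.with_val_at 0 0
  have z0 : (0 : ℂ) ∈ ball (0 : ℂ) (R + 2 * δ) := mem_ball_self (by linarith)
  have dl : DifferentiableOn ℂ l (ball 0 (R + 2 * δ)) := fun w hw =>
    (hl w hw).differentiableAt.differentiableWithinAt
  have c : ∀ w ∈ ball (0 : ℂ) (R + 2 * δ), h w * cexp (-l w) = h 0 := fun w hw => by
    have := isOpen_ball.is_const_of_deriv_eq_zero (convex_ball _ _).isPreconnected
      (f := fun w => h w * cexp (-l w)) (hd.mul dl.neg.cexp) (fun x hx => by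
        have a := ((hd x hx).differentiableAt (isOpen_ball.mem_nhds hx)).hasDerivAt.mul
          (hl x hx).neg.cexp
        have := h0 x hx
        rw [show (fun w => h w * cexp (-l w)) = h * fun w => cexp ((-l) w) from rfl, a.deriv]
        simp only [Pi.zero_apply]
        field_simp
        ring) hw z0
    simpa [l0] using this
  have re : MapsTo l (ball 0 (R + 2 * δ)) {z | z.re ≤ M} := fun w hw => by
    have a := congrArg norm (c w hw)
    rw [norm_mul, norm_exp, neg_re] at a
    have b := hb w hw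
    have p := norm_pos_iff.2 (h0 w hw)
    rw [← a, mul_left_comm, ← Real.exp_add, le_mul_iff_one_le_right p, Real.one_le_exp_iff] at b
    show (l w).re ≤ M
    linarith
  have hz' : z ∈ ball (0 : ℂ) (R + 2 * δ) := by rw [mem_ball_zero_iff]; linarith
  rw [← (hl z hz').deriv]
  have sub : closedBall z δ ⊆ ball 0 (R + 2 * δ) :=
    closedBall_subset_ball' (by rw [dist_zero_right]; linarith)
  refine norm_deriv_le_of_forall_mem_sphere_norm_le hδ (dl.diffContOnCl_ball sub) fun w hw => ?_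
  have w1 : ‖w‖ ≤ R + δ := by
    have := norm_sub_norm_le w z
    rw [mem_sphere_iff_norm.1 hw] at this
    linarith
  refine (borelCaratheodory_zero hM dl re (by linarith) (sub (sphere_subset_closedBall hw)) l0).trans ?_
  gcongr
  linarith

/-- three circles -/
theorem circles {ψ : ℂ → ℂ} {R R' a b : ℝ} (hR : 1 < R) (hR' : R < R')
    (hd : DifferentiableOn ℂ ψ (ball 0 R')) (ha : ∀ z, ‖z‖ = 1 / 2 → ‖ψ z‖ ≤ a)
    (hb : ∀ z, ‖z‖ ≤ R → ‖ψ z‖ ≤ b) :
    ‖ψ (-1)‖ ≤ a ^ (1 - Real.log 2 / (Real.log R + Real.log 2)) *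
      b ^ (Real.log 2 / (Real.log R + Real.log 2)) := by
  have l1 : 0 < Real.log R := Real.log_pos hR
  have l2 : 0 < Real.log 2 := Real.log_pos (by norm_num)
  have n1 : ∀ w : ℂ, w.re ≤ Real.log R → ‖cexp w‖ ≤ R := fun w hw => by
    rw [norm_exp, ← Real.exp_log (by linarith : 0 < R)]
    exact Real.exp_le_exp.2 hw
  have := HadamardThreeLines.norm_le_interp_of_mem_verticalClosedStrip' (f := fun w => ψ (cexp w))
    (z := Real.pi * I) (a := a) (b := b) (l := -Real.log 2) (u := Real.log R) (by linarith)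
    (by simp [HadamardThreeLines.verticalClosedStrip, l1.le, l2.le])
    (DifferentiableOn.diffContOnCl (hd.comp differentiable_exp.differentiableOn fun w hw => by
      rw [HadamardThreeLines.verticalStrip, closure_preimage_re, closure_Ioo (by linarith)] at hw
      exact mem_ball_zero_iff.2 ((n1 w hw.2).trans_lt hR')))
    ⟨b, by rintro _ ⟨w, hw, rfl⟩; exact hb _ (n1 w hw.2)⟩
    (fun w hw => ha _ (by
      rw [norm_exp, show w.re = -Real.log 2 from hw, Real.exp_neg, Real.exp_log (by norm_num)]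
      norm_num))
    (fun w hw => hb _ (n1 w (le_of_eq hw)))
  simpa using this

/-- the difference of the logarithmic derivatives is small if `χ` is one on small primes -/
theorem tail : ∃ K : ℝ, 0 < K ∧ ∀ (q : ℕ) [NeZero q] (χ : DirichletCharacter ℂ q) (P : ℕ), 0 < P →
    (∀ l : ℕ, l.Prime → l ≤ P → χ l = 1) → ∀ s : ℂ, 3 / 2 ≤ s.re →
    ‖deriv (LFunction χ) s / LFunction χ s - deriv riemannZeta s / riemannZeta s‖ ≤
      K * (P : ℝ) ^ (-(1 / 4) : ℝ) := by
  have s0 := (LSeriesSummable_vonMangoldt (s := 5 / 4) (by norm_num)).norm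
  refine ⟨2 * (∑' n, ‖LSeries.term (fun n => (vonMangoldt n : ℂ)) (5 / 4) n‖) + 1, by positivity,
    fun q _ χ P hP h s hs => ?_⟩
  have s1 : 1 < s.re := by linarith
  have e1 := LSeries_twist_vonMangoldt_eq χ s1
  have e2 := LSeries_vonMangoldt_eq_deriv_riemannZeta_div s1
  rw [neg_div] at e1 e2
  rw [deriv_LFunction_eq_deriv_LSeries _ s1, LFunction_eq_LSeries _ s1, ← neg_eq_iff_eq_neg.2 e1,
    ← neg_eq_iff_eq_neg.2 e2, neg_sub_neg, LSeries, LSeries,
    ← (LSeriesSummable_vonMangoldt s1).tsum_sub (LSeriesSummable_twist_vonMangoldt χ s1)]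
  have P0 : (0 : ℝ) < P := by exact_mod_cast hP
  refine (tsum_of_norm_bounded ((s0.mul_left 2).mul_right
    ((P : ℝ) ^ (-(1 / 4) : ℝ))).hasSum fun n => ?_).trans ?_
  · rcases eq_or_ne n 0 with rfl | n0
    · simp
    rw [LSeries.term_of_ne_zero n0, LSeries.term_of_ne_zero n0, LSeries.term_of_ne_zero n0,
      ← sub_div, Pi.mul_apply, ← one_sub_mul]
    rcases le_or_gt n P with k | k
    · by_cases pp : IsPrimePow n
      · obtain ⟨l, j, hl, hj, rfl⟩ := (isPrimePow_nat_iff n).1 pp
        rw [Nat.cast_pow (α := ZMod q), map_pow, h l hl ((Nat.le_self_pow hj.ne' l).trans k)]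
        simp only [one_pow, sub_self, zero_mul, zero_div, norm_zero]
        positivity
      · rw [vonMangoldt_apply, if_neg pp]
        simp
    · have n1 : (P : ℝ) ≤ n := by exact_mod_cast k.le
      have n2 : (1 : ℝ) ≤ n := by exact_mod_cast Nat.pos_of_ne_zero n0
      rw [norm_div, norm_div, norm_mul, norm_natCast_cpow_of_pos (Nat.pos_of_ne_zero n0),
        norm_natCast_cpow_of_pos (Nat.pos_of_ne_zero n0), div_eq_mul_inv, div_eq_mul_inv,
        ← Real.rpow_neg (by linarith), ← Real.rpow_neg (by linarith), mul_assoc, mul_assoc, mul_assoc]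
      refine mul_le_mul ((norm_sub_le _ _).trans ?_) (mul_le_mul_of_nonneg_left ?_ (norm_nonneg _))
        (by positivity) zero_le_two
      · rw [norm_one]; linarith [χ.norm_le_one n]
      · refine le_trans ?_ (mul_le_mul_of_nonneg_left
          (Real.rpow_le_rpow_of_nonpos P0 n1 (by norm_num)) (by positivity))
        rw [← Real.rpow_add (by linarith)]
        refine Real.rpow_le_rpow_of_exponent_le n2 ?_
        norm_num; linarith
  · rw [tsum_mul_right, tsum_mul_left]
    gcongr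
    linarith

theorem L2low : ∃ c : ℝ, 0 < c ∧ ∀ (q : ℕ) [NeZero q] (χ : DirichletCharacter ℂ q),
    c ≤ ‖LFunction χ 2‖ := by
  have s0 := (LSeriesSummable_one_iff.2 (show 1 < (2 : ℂ).re by simp)).norm
  set K := ∑' n, ‖LSeries.term 1 (2 : ℂ) n‖ with hK
  have K0 : 0 ≤ K := by positivity
  refine ⟨(K + 1)⁻¹, by positivity, fun q _ χ => ?_⟩
  have e := congrArg norm (LSeries.mul_mu_eq_one χ (s := 2) (by simp))
  rw [norm_mul, norm_one, ← LFunction_eq_LSeries _ (by simp)] at e
  have b : ‖LSeries ((fun n : ℕ => χ n) * fun n : ℕ => (moebius n : ℂ)) 2‖ ≤ K :=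
    tsum_of_norm_bounded s0.hasSum fun n => LSeries.norm_term_le _ (by
      rw [Pi.mul_apply, norm_mul, Pi.one_apply, norm_one]
      refine mul_le_one₀ (χ.norm_le_one _) (norm_nonneg _) ?_
      exact_mod_cast abs_moebius_le_one)
  rw [inv_le_iff_one_le_mul₀ (by positivity)]
  nlinarith [norm_nonneg (LFunction χ 2)]

theorem small {σ : ℝ} (hσ : σ < 1) (hζ : ∀ s : ℂ, σ < s.re → riemannZeta s ≠ 0) :
    ∃ A : ℕ, ∀ (q : ℕ) [NeZero q] (χ : DirichletCharacter ℂ q), χ ≠ 1 →
      (∀ s : ℂ, σ < s.re → LFunction χ s ≠ 0) →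
      ∃ l : ℕ, l.Prime ∧ l ≤ (q.size + 2) ^ A ∧ χ l ≠ 1 := by
  obtain ⟨δ, δ0, δ1, δ2⟩ : ∃ δ : ℝ, 0 < δ ∧ δ ≤ 1 / 8 ∧ σ < 1 - 3 * δ :=
    ⟨min (1 / 8) ((1 - σ) / 4), by have : 0 < 1 - σ := by linarith
                                   positivity, min_le_left _ _,
      by linarith [min_le_right (1 / 8) ((1 - σ) / 4)]⟩
  obtain ⟨C, C0, hC⟩ := Lbound
  obtain ⟨K, K0, hK⟩ := tail
  obtain ⟨c, c0, hc⟩ := L2low
  have re1 : ∀ z : ℂ, ‖z‖ ≤ 1 + 3 * δ → 1 - 3 * δ ≤ (2 + z).re := fun z hz => by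
    have := (abs_le.1 ((abs_re_le_norm z).trans hz)).1
    simp; linarith
  have z1 : ∀ z : ℂ, ‖z‖ ≤ 1 + 3 * δ → riemannZeta₁ (2 + z) ≠ 0 := fun z hz k => by
    rcases eq_or_ne (2 + z) 1 with e | e
    · rw [e, riemannZeta₁_one] at k; exact one_ne_zero k
    · exact hζ _ (by linarith [re1 z hz]) (by rw [riemannZeta_eq_inv_sub_mul e, k, mul_zero])
  have dz : Differentiable ℂ fun z => riemannZeta₁ (2 + z) :=
    differentiable_riemannZeta₁.comp (by fun_prop)
  obtain ⟨D, hD⟩ := (isCompact_closedBall (0 : ℂ) (1 + 3 * δ)).exists_bound_of_continuousOn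
    (f := fun z => riemannZeta₁ 2 / riemannZeta₁ (2 + z))
    (continuousOn_const.div dz.continuous.continuousOn fun z hz => z1 z (by simpa using hz))
  have D0 : 0 ≤ D := (norm_nonneg _).trans (hD 0 (mem_closedBall_self (by linarith)))
  set θ := Real.log 2 / (Real.log (1 + δ) + Real.log 2) with hθ
  have l1 : 0 < Real.log (1 + δ) := Real.log_pos (by linarith)
  have l2 : 0 < Real.log 2 := Real.log_pos (by norm_num)
  have θ0 : 0 < θ := by positivity
  have θ1 : θ < 1 := (div_lt_one (by linarith)).2 (by linarith)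
  set E : ℝ := C * D / c + 1 with hE
  have E1 : 1 ≤ E := by rw [hE]; have : 0 ≤ C * D / c := by positivity
                        linarith
  set F : ℝ := 3 * (2 * E * (1 + δ + δ) / δ / δ) + 1 with hF
  obtain ⟨k1, hk1⟩ := pow_unbounded_of_one_lt F (one_lt_two (α := ℝ))
  obtain ⟨k2, hk2⟩ := pow_unbounded_of_one_lt (2 * K) (one_lt_two (α := ℝ))
  obtain ⟨A, hA⟩ := exists_nat_gt (4 * (k2 + (k1 + 1) * θ / (1 - θ)))
  refine ⟨A, fun q _ χ hχ hL => ?_⟩
  by_contra hcon
  push Not at hcon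
  set X : ℝ := q.size + 2 with hX
  have X2 : 2 ≤ X := by rw [hX]; linarith [(q.size.cast_nonneg : (0 : ℝ) ≤ _)]
  have qX : (q : ℝ) ≤ Real.exp (X - 1) := by
    have a1 : (q : ℝ) ≤ 2 ^ q.size := by exact_mod_cast (Nat.lt_size_self q).le
    have a2 : (2 : ℝ) ^ q.size ≤ Real.exp 1 ^ q.size :=
      pow_le_pow_left₀ zero_le_two (by linarith [Real.add_one_le_exp 1]) _
    rw [← Real.exp_nat_mul] at a2
    exact a1.trans (a2.trans (Real.exp_le_exp.2 (by linarith)))
  have dL : Differentiable ℂ fun z => LFunction χ (2 + z) :=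
    (differentiable_LFunction hχ).comp (by fun_prop)
  set h : ℂ → ℂ := fun z => LFunction χ (2 + z) / riemannZeta₁ (2 + z) with hh
  have bl : ∀ z ∈ ball (0 : ℂ) (1 + δ + 2 * δ), ‖z‖ ≤ 1 + 3 * δ := fun z hz => by
    linarith [mem_ball_zero_iff.1 hz]
  have hd : DifferentiableOn ℂ h (ball 0 (1 + δ + 2 * δ)) :=
    dL.differentiableOn.div dz.differentiableOn fun z hz => z1 z (bl z hz)
  have h0 : ∀ z ∈ ball (0 : ℂ) (1 + δ + 2 * δ), h z ≠ 0 := fun z hz =>
    div_ne_zero (hL _ (by linarith [re1 z (bl z hz)])) (z1 z (bl z hz))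
  have hb : ∀ z ∈ ball (0 : ℂ) (1 + δ + 2 * δ), ‖h z‖ ≤ Real.exp (E * X) * ‖h 0‖ := fun z hz => by
    have a1 := hC q χ hχ (2 + z) (by linarith [re1 z (bl z hz)])
      ((norm_add_le _ _).trans (by rw [norm_ofNat]; linarith [bl z hz]))
    have a2 := hD z (by simpa using bl z hz)
    have a3 := hc q χ
    have a4 := z1 0 (by simp; linarith)
    rw [add_zero] at a4
    have a5 : h z = LFunction χ (2 + z) * (riemannZeta₁ 2 / riemannZeta₁ (2 + z)) / riemannZeta₁ 2 := by
      simp only [hh]; field_simp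
    have a6 : C * q * D ≤ Real.exp (E * X) * c := by
      have b1 : C * D / c ≤ Real.exp (E - 1) := by linarith [Real.add_one_le_exp (E - 1)]
      rw [div_le_iff₀ c0] at b1
      have b2 : Real.exp (E - 1) * Real.exp (X - 1) ≤ Real.exp (E * X) := by
        rw [← Real.exp_add]; exact Real.exp_le_exp.2 (by nlinarith)
      calc C * q * D = C * D * q := by ring
        _ ≤ Real.exp (E - 1) * c * Real.exp (X - 1) := by gcongr
        _ ≤ _ := by nlinarith
    rw [a5]
    simp only [hh, add_zero, norm_div, norm_mul] at a2 ⊢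
    rw [← mul_div_assoc (Real.exp _)]
    refine div_le_div_of_nonneg_right ?_ (norm_nonneg _)
    calc _ ≤ C * q * D := by gcongr
      _ ≤ _ := a6.trans (by gcongr)
  have key := circles (ψ := fun z => (z + 1) * (deriv h z / h z) + 1) (R := 1 + δ)
    (R' := 1 + δ + 2 * δ) (a := X ^ (k2 - A / 4 : ℝ)) (b := X ^ (k1 + 1 : ℝ)) (by linarith)
    (by linarith) (((differentiableOn_id.add_const 1).mul
      ((hd.deriv isOpen_ball).div hd h0)).add_const 1) (fun z hz => ?_) fun z hz => ?_
  · simp only [neg_add_cancel, zero_mul, zero_add, norm_one] at key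
    rw [← hθ, ← Real.rpow_mul (by linarith), ← Real.rpow_mul (by linarith),
      ← Real.rpow_add (by linarith)] at key
    refine absurd key (not_le.2 (Real.rpow_lt_one_of_one_lt_of_neg (by linarith) ?_))
    have : (k1 + 1) * θ / (1 - θ) < A / 4 - k2 := by linarith
    rw [div_lt_iff₀ (by linarith)] at this
    linarith
  · have r : 3 / 2 ≤ (2 + z).re := by
      have := (abs_le.1 ((abs_re_le_norm z).trans hz.le)).1
      simp; linarith
    have s1 : 2 + z ≠ 1 := fun e => by rw [e] at r; norm_num at r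
    have s2 : z + 1 ≠ 0 := fun e => s1 (by linear_combination e)
    have a1 := hK q χ ((q.size + 2) ^ A) (by positivity) hcon (2 + z) r
    have n1 := z1 z (by linarith)
    have n2 := hL (2 + z) (by linarith)
    have e1 : deriv h z = (deriv (LFunction χ) (2 + z) * riemannZeta₁ (2 + z) -
        LFunction χ (2 + z) * deriv riemannZeta₁ (2 + z)) / riemannZeta₁ (2 + z) ^ 2 :=
      ((((differentiable_LFunction hχ) _).hasDerivAt.comp_const_add 2 z).div
        ((differentiable_riemannZeta₁ _).hasDerivAt.comp_const_add 2 z) n1).deriv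
    have e2 : (z + 1) * (deriv h z / h z) + 1 = (z + 1) * (deriv (LFunction χ) (2 + z) /
        LFunction χ (2 + z) - deriv riemannZeta (2 + z) / riemannZeta (2 + z)) := by
      rw [e1, deriv_riemannZeta_eq_neg_inv_sub_sq_mul_add s1, riemannZeta_eq_inv_sub_mul s1,
        show 2 + z - 1 = z + 1 by ring]
      simp only [hh]
      field_simp
      ring
    rw [e2, norm_mul]
    have a2 : ‖z + 1‖ ≤ 2 := (norm_add_le _ _).trans (by rw [norm_one]; linarith)
    refine (mul_le_mul a2 a1 (norm_nonneg _) zero_le_two).trans ?_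
    push_cast
    rw [← hX, ← Real.rpow_natCast X A, ← Real.rpow_mul (by linarith), ← mul_assoc, sub_eq_add_neg,
      Real.rpow_add (by linarith), Real.rpow_natCast,
      show (A : ℝ) * -(1 / 4) = -(A / 4) by ring]
    exact mul_le_mul_of_nonneg_right (hk2.le.trans (pow_le_pow_left₀ zero_le_two X2 _))
      (by positivity)
  · have a1 := logd δ0 (by linarith) (by positivity : 0 < E * X) hd h0 hb hz
    have a2 : ‖z + 1‖ ≤ 3 := (norm_add_le _ _).trans (by rw [norm_one]; linarith)
    refine (norm_add_le _ _).trans ?_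
    rw [norm_mul, norm_one, Real.rpow_add (by linarith), Real.rpow_natCast, Real.rpow_one]
    have a3 := mul_le_mul a2 a1 (norm_nonneg _) (by norm_num)
    have a4 : F ≤ X ^ k1 := hk1.le.trans (pow_le_pow_left₀ zero_le_two X2 _)
    have a5 : 3 * (2 * (E * X) * (1 + δ + δ) / δ / δ) = (F - 1) * X := by rw [hF]; ring
    nlinarith

end Vale.Agent.P319
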