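import Mathlib

/-!
Polynomial factorization over prime fields: definitions used in the statements.
-/

namespace Vale.Agent.P319

open Polynomial

/-- The polynomial over `ZMod p` with the given coefficient list, constant term first. -/
noncomputable def toPoly (p : ℕ) (l : List ℕ) : (ZMod p)[X] :=
  l.foldr (fun (a : ℕ) g => C (a : ZMod p) + X * g) 0

/-- `out` is a complete factorization of `f`: a constant followed by monic irreducible factors,
listed with multiplicity, whose product is `f`. -/
def IsFactorization (p : ℕ) (f : (ZMod p)[X]) (out : List (List ℕ)) : Prop :=
  ∃ (c : ℕ) (L : List (List ℕ)), out = [c] :: L ∧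
    f = C (c : ZMod p) * (L.map (toPoly p)).prod ∧
    ∀ g ∈ L, (toPoly p g).Monic ∧ Irreducible (toPoly p g)

/-- Self-delimiting binary code of a list: each item is preceded by `1`, the end is `0`. -/
def codeList {α : Type} (f : α → List Bool) (l : List α) : List Bool :=
  (l.flatMap fun a => true :: f a) ++ [false]

/-- Code of a bit. -/
def codeBit (b : Bool) : List Bool := if b then [true, false, false] else [false]

/-- Code of a natural number: the list of its binary digits. -/
def codeNat (n : ℕ) : List Bool := codeList codeBit n.bits

/-- Code of a list of natural numbers. -/
def codeNats (w : List ℕ) : List Bool := codeList codeNat w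

/-- Code of a list of lists of natural numbers. -/
def codeLists (S : List (List ℕ)) : List Bool := codeList codeNats S

end Vale.Agent.P319
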