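import Vale.Agent.P319.Sqrt
import Vale.Agent.P319.Defs

/-! P319: factoring polynomials of degree at most two from a short list holding a nonresidue. -/

namespace Vale.Agent.P319

open Vale.Agent.Lib.H24.T Vale.Agent.P338.PTX Polynomial

variable {α : Type} [Enc α]

/-- inverse modulo `m + 1` -/
def minv (m a : ℕ) : ℕ := pm (m + 1) a (m - 1)

/-- root test -/
def isRt (m a b c r : ℕ) : Bool := decide ((a + b * r + c * r * r) % (m + 1) = 0)

/-- root candidates -/
def cand (m a b c : ℕ) (gs : List ℕ) : List ℕ :=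
  0 :: 1 :: (0 :: gs.map (sqr m (b * b + m * (4 * a * c)))).map fun s => (m * b + s) * minv m (2 * c)

/-- the factorization of `a + b X + c X ^ 2` modulo `m + 1` -/
def quad (m a b c : ℕ) (gs : List ℕ) : List (List ℕ) :=
  if c % (m + 1) = 0 then
    if b % (m + 1) = 0 then [[a]] else [[b], [a * minv m b, 1]]
  else lcase ((cand m a b c gs).filter (isRt m a b c)) [[c], [a * minv m c, b * minv m c, 1]]
    fun r _ => [[c], [m * r, 1], [b * minv m c + r, 1]]

/-- a list of length `l.length ^ A` -/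
def un (l : List Bool) : ℕ → List Bool
  | 0 => [false]
  | A + 1 => l.flatMap fun _ => un l A

/-- the algorithm -/
def alg (A : ℕ) (w : List ℕ) : List (List ℕ) :=
  quad (w.getD 0 0 - 1) (w.getD 1 0) (w.getD 2 0) (w.getD 3 0)
    (List.range (false :: un (false :: false :: (w.getD 0 0).bits) A).length)

theorem length_un (l : List Bool) (A : ℕ) : (un l A).length = l.length ^ A := by
  induction A with
  | zero => rfl
  | succ A ih => simp [un, ih, pow_succ']

theorem pt_un {l : α → List Bool} (hl : PT l) (A : ℕ) : PT fun x => un (l x) A := by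
  induction A with
  | zero => exact PT.const _
  | succ A ih => exact PT.flatMap (g := fun x _ => un (l x) A) hl (ih.comp PT.id.fst)

theorem pt_minv {m a : α → ℕ} (hm : PT m) (ha : PT a) : PT fun x => minv (m x) (a x) :=
  pt_pm hm ha hm.pred

theorem pt_l2 {β : Type} [Enc β] {a b : α → β} (ha : PT a) (hb : PT b) : PT fun x => [a x, b x] :=
  ha.cons (hb.cons (PT.const []))

theorem pt_l1 {β : Type} [Enc β] {a : α → β} (ha : PT a) : PT fun x => [a x] :=
  ha.cons (PT.const [])

theorem pt_cand {m a b c : α → ℕ} {gs : α → List ℕ} (hm : PT m) (ha : PT a) (hb : PT b) (hc : PT c)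
    (hg : PT gs) : PT fun x => cand (m x) (a x) (b x) (c x) (gs x) := by
  have hd := (hb.mul hb).add (hm.mul (((PT.const 4).mul ha).mul hc))
  have h1 := PT.map (g := fun x => sqr (m x) (b x * b x + m x * (4 * a x * c x))) hg
    (pt_sqr (hm.comp PT.id.fst) (hd.comp PT.id.fst) PT.id.snd)
  exact (PT.const 0).cons ((PT.const 1).cons (PT.map
    (g := fun x s => (m x * b x + s) * minv (m x) (2 * c x)) ((PT.const 0).cons h1)
    ((((hm.mul hb).comp PT.id.fst).add PT.id.snd).mul
      ((pt_minv hm ((PT.const 2).mul hc)).comp PT.id.fst))))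

theorem pt_quad {m a b c : α → ℕ} {gs : α → List ℕ} (hm : PT m) (ha : PT a) (hb : PT b) (hc : PT c)
    (hg : PT gs) : PT fun x => quad (m x) (a x) (b x) (c x) (gs x) := by
  have ic := pt_minv hm hc
  have h1 := PT.filter (g := fun x => isRt (m x) (a x) (b x) (c x)) (pt_cand hm ha hb hc hg)
    ((mod (((ha.comp PT.id.fst).add ((hb.comp PT.id.fst).mul PT.id.snd)).add
      (((hc.comp PT.id.fst).mul PT.id.snd).mul PT.id.snd)) (hm.succ.comp PT.id.fst)).eq (PT.const 0))
  exact PT.ite ((mod hc hm.succ).eq (PT.const 0))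
    (PT.ite ((mod hb hm.succ).eq (PT.const 0)) (pt_l1 (pt_l1 ha))
      (pt_l2 (pt_l1 hb) (pt_l2 (ha.mul (pt_minv hm hb)) (PT.const 1))))
    (PT.lcase (g := fun x r _ => [[c x], [m x * r, 1], [b x * minv (m x) (c x) + r, 1]]) h1
      (pt_l2 (pt_l1 hc) ((ha.mul ic).cons (pt_l2 (hb.mul ic) (PT.const 1))))
      (((pt_l1 hc).comp PT.id.fst).cons (pt_l2
        (pt_l2 ((hm.comp PT.id.fst).mul PT.id.snd.fst) (PT.const 1))
        (pt_l2 (((hb.mul ic).comp PT.id.fst).add PT.id.snd.fst) (PT.const 1)))))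

theorem pt_alg (A : ℕ) : PT (alg A) := by
  have h : ∀ i, PT fun w : List ℕ => w.getD i 0 := fun i =>
    PT.getD PT.id (PT.const i) (PT.const 0)
  exact pt_quad (h 0).pred (h 1) (h 2) (h 3) (PT.range_length ((PT.const false).cons
    (pt_un ((PT.const false).cons ((PT.const false).cons (h 0).bits)) A)))

theorem coeff_toPoly (p : ℕ) (l : List ℕ) (i : ℕ) : (toPoly p l).coeff i = (l.getD i 0 : ℕ) := by
  induction l generalizing i with
  | nil => simp [toPoly]
  | cons a l ih =>
    have : toPoly p (a :: l) = C (a : ZMod p) + X * toPoly p l := rfl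
    rw [this]
    cases i with
    | zero => simp
    | succ i => simp [coeff_X_mul, ih]

theorem lin (p : ℕ) [Fact p.Prime] (a : ℕ) : toPoly p [a, 1] = X + C (a : ZMod p) := by
  simp [toPoly, add_comm]

theorem lin_ok (p : ℕ) [Fact p.Prime] (a : ℕ) :
    (toPoly p [a, 1]).Monic ∧ Irreducible (toPoly p [a, 1]) := by
  rw [lin]
  refine ⟨monic_X_add_C _, ?_⟩
  simpa using irreducible_X_sub_C (-(a : ZMod p))

theorem cast_minv (m a : ℕ) [hp : Fact (m + 1).Prime] : (minv m a : ZMod (m + 1)) * a = if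
    (a : ZMod (m + 1)) = 0 then 0 else 1 := by
  have := hp.out.two_le
  split_ifs with h
  · simp [h]
  · rw [minv, cast_pm, ← pow_succ, show m - 1 + 1 = m + 1 - 1 by omega]
    exact ZMod.pow_card_sub_one_eq_one h

theorem two_cases : ∀ y : ZMod 2, y = 0 ∨ y = 1 := by decide

theorem quad_spec (m a b c : ℕ) (gs : List ℕ) [hp : Fact (m + 1).Prime]
    (hg : (m + 1) % 4 = 1 → ∃ g ∈ gs, ¬ IsSquare (g : ZMod (m + 1))) (h0 : 0 ∈ gs)
    (f : (ZMod (m + 1))[X]) (hf : f = C (a : ZMod (m + 1)) + C (b : ZMod (m + 1)) * X +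
      C (c : ZMod (m + 1)) * X ^ 2) : IsFactorization (m + 1) f (quad m a b c gs) := by
  have hm : (m : ZMod (m + 1)) = -1 := eq_neg_of_add_eq_zero_left (by
    exact_mod_cast ZMod.natCast_self (m + 1))
  have z : ∀ x : ℕ, x % (m + 1) = 0 ↔ (x : ZMod (m + 1)) = 0 := fun x => by
    rw [ZMod.natCast_eq_zero_iff, Nat.dvd_iff_mod_eq_zero]
  have inv : ∀ x : ℕ, (x : ZMod (m + 1)) ≠ 0 → (minv m x : ZMod (m + 1)) * x = 1 := fun x hx => by
    rw [cast_minv, if_neg hx]
  unfold quad
  simp only [z]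
  split_ifs with c0 b0
  · exact ⟨a, [], rfl, by simp [hf, c0, b0], by simp⟩
  · refine ⟨b, _, rfl, ?_, by simpa using lin_ok _ _⟩
    have := congrArg C (inv b b0)
    simp only [map_mul, map_one] at this
    simp only [hf, c0, List.map_cons, List.map_nil, List.prod_cons, List.prod_nil, lin,
      Nat.cast_mul, map_mul, map_zero]
    linear_combination (-C (a : ZMod (m + 1))) * this
  have ic := congrArg C (inv c c0)
  simp only [map_mul, map_one] at ic
  have rt : ∀ r : ℕ, isRt m a b c r = true ↔ (a : ZMod (m + 1)) + b * r + c * r * r = 0 := fun r => by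
    rw [isRt, decide_eq_true_iff, z]; push_cast; rfl
  rcases e : (cand m a b c gs).filter (isRt m a b c) with _ | ⟨r, t⟩
  · have e1 : f = C (c : ZMod (m + 1)) * toPoly (m + 1) [a * minv m c, b * minv m c, 1] := by
      simp only [hf, toPoly, List.foldr, Nat.cast_mul, map_mul, Nat.cast_one, map_one]
      linear_combination (-C (a : ZMod (m + 1)) - C (b : ZMod (m + 1)) * X) * ic
    have e2 : (toPoly (m + 1) [a * minv m c, b * minv m c, 1]).natDegree = 2 ∧
        (toPoly (m + 1) [a * minv m c, b * minv m c, 1]).Monic := by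
      have : toPoly (m + 1) [a * minv m c, b * minv m c, 1] = X ^ 2 +
          C ((b * minv m c : ℕ) : ZMod (m + 1)) * X + C ((a * minv m c : ℕ) : ZMod (m + 1)) := by
        simp only [toPoly, List.foldr, Nat.cast_one, map_one]; ring
      rw [this]
      constructor
      · compute_degree!
      · monicity!
    refine ⟨c, _, rfl, by simpa using e1, ?_⟩
    simp only [List.mem_singleton, forall_eq]
    refine ⟨e2.2, (irreducible_iff_roots_eq_zero_of_degree_le_three e2.1.ge (by omega)).2
      (Multiset.eq_zero_of_forall_notMem fun x hx => ?_)⟩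
    have hx' : (a : ZMod (m + 1)) + b * x + c * x * x = 0 := by
      have := congrArg (eval x) e1
      rw [eval_mul, (mem_roots'.1 hx).2.eq_zero, hf] at this
      simp only [eval_add, eval_mul, eval_C, eval_X, eval_pow] at this
      linear_combination this
    have nr : ∀ r ∈ cand m a b c gs, (a : ZMod (m + 1)) + b * r + c * r * r ≠ 0 := fun r hr h =>
      List.filter_eq_nil_iff.1 e r hr ((rt r).2 h)
    by_cases h2 : m + 1 = 2
    · obtain rfl : m = 1 := by omega
      have : x = 0 ∨ x = 1 := two_cases x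
      rcases this with rfl | rfl
      · exact nr 0 (by simp [cand]) (by simpa using hx')
      · exact nr 1 (by simp [cand]) (by simpa using hx')
    have t0 : ((2 * c : ℕ) : ZMod (m + 1)) ≠ 0 := by
      push_cast
      refine mul_ne_zero (fun h => h2 ?_) c0
      exact (Nat.prime_dvd_prime_iff_eq hp.out Nat.prime_two).1
        ((ZMod.natCast_eq_zero_iff 2 _).1 (by exact_mod_cast h))
    have i2 := inv _ t0
    have hd : ((b * b + m * (4 * a * c) : ℕ) : ZMod (m + 1)) = (2 * c * x + b) * (2 * c * x + b) := by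
      push_cast; rw [hm]; linear_combination (-4 * (c : ZMod (m + 1))) * hx'
    obtain ⟨s, hs, s2⟩ : ∃ s ∈ 0 :: gs.map (sqr m (b * b + m * (4 * a * c))),
        (s : ZMod (m + 1)) ^ 2 = (b * b + m * (4 * a * c) : ℕ) := by
      by_cases d0 : ((b * b + m * (4 * a * c) : ℕ) : ZMod (m + 1)) = 0
      · exact ⟨0, by simp, by rw [d0]; simp⟩
      obtain ⟨g, g1, g2⟩ : ∃ g ∈ gs, (m + 1) % 4 = 1 → ¬ IsSquare (g : ZMod (m + 1)) := by
        by_cases h4 : (m + 1) % 4 = 1
        · obtain ⟨g, g1, g2⟩ := hg h4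
          exact ⟨g, g1, fun _ => g2⟩
        · exact ⟨0, h0, fun h => absurd h h4⟩
      exact ⟨_, List.mem_cons_of_mem _ (List.mem_map_of_mem g1), sqr_spec _ _ g h2 d0 ⟨_, hd⟩ g2⟩
    refine nr ((m * b + s) * minv m (2 * c))
      (List.mem_cons_of_mem _ (List.mem_cons_of_mem _ (List.mem_map_of_mem hs))) ?_
    refine mul_left_cancel₀ (mul_ne_zero t0 t0) ?_
    push_cast at s2 i2 ⊢
    rw [hm] at s2 ⊢
    generalize (minv m (2 * c) : ZMod (m + 1)) = u at *
    linear_combination (c : ZMod (m + 1)) * s2 + (2 * c * b * (-b + s) +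
      c * (-b + s) ^ 2 * (u * (2 * c) + 1)) * i2
  · have hr : (a : ZMod (m + 1)) + b * r + c * r * r = 0 :=
      (rt r).1 (List.of_mem_filter (e ▸ List.mem_cons_self))
    refine ⟨c, _, rfl, ?_, by simpa using ⟨lin_ok _ _, lin_ok _ _⟩⟩
    have := congrArg C hr
    simp only [map_add, map_mul, map_zero] at this
    simp only [hf, List.map_cons, List.map_nil, List.prod_cons, List.prod_nil, lin,
      Nat.cast_mul, Nat.cast_add, map_mul, map_add, hm, map_neg, map_one]
    linear_combination this + (C (r : ZMod (m + 1)) * C (b : ZMod (m + 1)) -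
      C (b : ZMod (m + 1)) * X) * ic

theorem alg_spec (A p : ℕ) (f : List ℕ) (hp : p.Prime) (hf : (toPoly p f).natDegree ≤ 2)
    (hg : p % 4 = 1 → ∃ g ≤ (p.size + 2) ^ A, ¬ IsSquare (g : ZMod p)) :
    IsFactorization p (toPoly p f) (alg A (p :: f)) := by
  obtain ⟨m, rfl⟩ : ∃ m, p = m + 1 := ⟨p - 1, by have := hp.pos; omega⟩
  have := Fact.mk hp
  refine quad_spec m _ _ _ _ (fun h => ?_) (by simp) _ ?_
  · obtain ⟨g, g1, g2⟩ := hg h
    refine ⟨g, ?_, g2⟩
    simpa [length_un, Nat.size_eq_bits_len, Nat.lt_succ_iff] using g1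
  · rw [(toPoly (m + 1) f).as_sum_range_C_mul_X_pow' (n := 3) (by omega)]
    simp [Finset.sum_range_succ, coeff_toPoly]

end Vale.Agent.P319
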