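import Vale.Agent.P319.Spec4

/-! P319: cube roots in the quadratic extension from a non cube. -/

namespace Vale.Agent.P319

open Vale.Agent.Lib.H24.T Vale.Agent.P338.PTX

namespace CBm

variable {α : Type} [Enc α]

def kmul (p n : ℕ) (x y : ℕ × ℕ) : ℕ × ℕ :=
  ((x.1 * y.1 + n * (x.2 * y.2)) % (p + 1), (x.1 * y.2 + x.2 * y.1) % (p + 1))

def kpow (p n : ℕ) (x : ℕ × ℕ) (e : ℕ) : ℕ × ℕ :=
  Nat.binaryRec (motive := fun _ => ℕ × ℕ) (1 % (p + 1), 0)
    (fun b _ y => kmul p n (kmul p n y y) (cond b x (1, 0))) e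

theorem kpow_bit (p n : ℕ) (x : ℕ × ℕ) (b : Bool) (e : ℕ) :
    kpow p n x (Nat.bit b e) = kmul p n (kmul p n (kpow p n x e) (kpow p n x e)) (cond b x (1, 0)) :=
  Nat.binaryRec_eq b e (Or.inl (by simp [kmul]))

theorem kpow_lt (p n : ℕ) (x : ℕ × ℕ) (e : ℕ) : (kpow p n x e).1 ≤ p ∧ (kpow p n x e).2 ≤ p := by
  induction e using Nat.binaryRec with
  | zero => exact ⟨Nat.le_of_lt_succ (Nat.mod_lt _ p.succ_pos), Nat.zero_le _⟩
  | bit b e _ =>
    rw [kpow_bit]
    exact ⟨Nat.le_of_lt_succ (Nat.mod_lt _ p.succ_pos), Nat.le_of_lt_succ (Nat.mod_lt _ p.succ_pos)⟩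

theorem pt_kmul {p n : α → ℕ} {x y : α → ℕ × ℕ} (hp : PT p) (hn : PT n) (hx : PT x) (hy : PT y) :
    PT fun a => kmul (p a) (n a) (x a) (y a) :=
  (mod ((hx.fst.mul hy.fst).add (hn.mul (hx.snd.mul hy.snd))) hp.succ).pair
    (mod ((hx.fst.mul hy.snd).add (hx.snd.mul hy.fst)) hp.succ)

theorem pt_kpow {p n e : α → ℕ} {x : α → ℕ × ℕ} (hp : PT p) (hn : PT n) (hx : PT x) (he : PT e) :
    PT fun a => kpow (p a) (n a) (x a) (e a) := by
  have h1 : PT (fun q : α × (ℕ × ℕ) × Bool => p q.1) := hp.comp PT.id.fst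
  have h2 : PT (fun q : α × (ℕ × ℕ) × Bool => n q.1) := hn.comp PT.id.fst
  have h3 : PT (fun q : α × (ℕ × ℕ) × Bool => x q.1) := hx.comp PT.id.fst
  refine PT.binRec (φ := fun a m => kpow (p a) (n a) (x a) m)
    (ψ := fun a y b => kmul (p a) (n a) (kmul (p a) (n a) y y) (cond b (x a) (1, 0)))
    (pt_kmul h1 h2 (pt_kmul h1 h2 PT.id.snd.fst PT.id.snd.fst)
      (PT.cond PT.id.snd.snd h3 (PT.const _)))
    ((mod (PT.const 1) hp.succ).pair (PT.const 0)) he (fun a b m => kpow_bit _ _ _ _ _)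
    (fun a => 8 * sz (p a) + 3) (by fun_prop) fun a m _ => by
      have := sz_nat_mono (kpow_lt (p a) (n a) (x a) m).1
      have := sz_nat_mono (kpow_lt (p a) (n a) (x a) m).2
      rw [sz_pair']; omega

def qq (p : ℕ) : ℕ := ((p + 1) * (p + 1) - 1) / 3

def val (p n : ℕ) (u g : ℕ × ℕ) (k j : ℕ) : ℕ × ℕ := kmul p n (kpow p n u k) (kpow p n g j)

def step (p n : ℕ) (u g s : ℕ × ℕ) : ℕ × ℕ :=
  if s.1 % 3 = 0 then
    (s.1 / 3, if (val p n u g (s.1 / 3) (s.2 / 3)).1 = 1 ∧ (val p n u g (s.1 / 3) (s.2 / 3)).2 = 0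
      then s.2 / 3 else
      if (val p n u g (s.1 / 3) (s.2 / 3 + qq p)).1 = 1 ∧
        (val p n u g (s.1 / 3) (s.2 / 3 + qq p)).2 = 0 then s.2 / 3 + qq p
      else s.2 / 3 + qq p + qq p)
  else s

def fin (p n : ℕ) (u g s : ℕ × ℕ) : ℕ × ℕ :=
  if s.1 % 3 = 2 then val p n u g ((s.1 + 1) / 3) (s.2 / 3)
  else val p n u g ((s.1 + s.1 + 1) / 3) (s.2 / 3 + s.2 / 3)

def cb (p n : ℕ) (u g : ℕ × ℕ) : ℕ × ℕ :=
  fin p n u g ((step p n u g)^[(qq p).bits.length] (qq p, 0))

theorem step_le (p n : ℕ) (u g : ℕ × ℕ) (i : ℕ) : ((step p n u g)^[i] (qq p, 0)).1 ≤ 3 * qq p ∧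
    ((step p n u g)^[i] (qq p, 0)).2 ≤ 3 * qq p := by
  induction i with
  | zero => simp; omega
  | succ i ih =>
    rw [Function.iterate_succ_apply']
    generalize (step p n u g)^[i] (qq p, 0) = s at *
    unfold step
    split_ifs <;> omega

theorem pt_qq {p : α → ℕ} (hp : PT p) : PT fun a => qq (p a) :=
  div ((hp.succ.mul hp.succ).sub (PT.const 1)) (PT.const 3)

theorem pt_val {p n k j : α → ℕ} {u g : α → ℕ × ℕ} (hp : PT p) (hn : PT n) (hu : PT u) (hg : PT g)
    (hk : PT k) (hj : PT j) : PT fun a => val (p a) (n a) (u a) (g a) (k a) (j a) :=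
  pt_kmul hp hn (pt_kpow hp hn hu hk) (pt_kpow hp hn hg hj)

theorem pt_step {p n : α → ℕ} {u g s : α → ℕ × ℕ} (hp : PT p) (hn : PT n) (hu : PT u) (hg : PT g)
    (hs : PT s) : PT fun a => step (p a) (n a) (u a) (g a) (s a) := by
  have k := div hs.fst (PT.const 3)
  have j := div hs.snd (PT.const 3)
  have q := pt_qq hp
  have v1 := pt_val hp hn hu hg k j
  have v2 := pt_val hp hn hu hg k (j.add q)
  exact PT.ite ((mod hs.fst (PT.const 3)).eq (PT.const 0)) (k.pair
    (PT.ite (dand (v1.fst.eq (PT.const 1)) (v1.snd.eq (PT.const 0))) j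
      (PT.ite (dand (v2.fst.eq (PT.const 1)) (v2.snd.eq (PT.const 0))) (j.add q)
        ((j.add q).add q)))) hs

theorem pt_cb {p n : α → ℕ} {u g : α → ℕ × ℕ} (hp : PT p) (hn : PT n) (hu : PT u) (hg : PT g) :
    PT fun a => cb (p a) (n a) (u a) (g a) := by
  have q := pt_qq hp
  have q3 := (PT.const 3).mul q
  have h : PT fun a => (step (p a) (n a) (u a) (g a))^[(qq (p a)).bits.length] (qq (p a), 0) :=
    PT.iterate (h := fun a => step (p a) (n a) (u a) (g a))
      (pt_step (hp.comp PT.id.fst) (hn.comp PT.id.fst) (hu.comp PT.id.fst) (hg.comp PT.id.fst)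
        PT.id.snd) q.bits (q.pair (PT.const 0)) (fun a => 8 * sz (3 * qq (p a)) + 3)
      (((Pb.const 8).mul (Pb.sz q3)).add (Pb.const 3)) fun a i _ => by
        have := sz_nat_mono (step_le (p a) (n a) (u a) (g a) i).1
        have := sz_nat_mono (step_le (p a) (n a) (u a) (g a) i).2
        rw [sz_pair']; omega
  have j := div h.snd (PT.const 3)
  exact PT.ite ((mod h.fst (PT.const 3)).eq (PT.const 2))
    (pt_val hp hn hu hg (div h.fst.succ (PT.const 3)) j)
    (pt_val hp hn hu hg (div (h.fst.add h.fst).succ (PT.const 3)) (j.add j))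

variable {K : Type} [Field K] {p n : ℕ} [CharP K (p + 1)] {θ : K}

theorem ev_kmul (h : θ ^ 2 = n) (x y : ℕ × ℕ) : evK θ (kmul p n x y) = evK θ x * evK θ y := by
  simp only [evK, kmul, ← CharP.cast_eq_mod K (p + 1)]
  push_cast
  linear_combination (-(x.2 : K) * y.2) * h

theorem ev_kpow (h : θ ^ 2 = n) (x : ℕ × ℕ) (e : ℕ) : evK θ (kpow p n x e) = evK θ x ^ e := by
  induction e using Nat.binaryRec with
  | zero =>
    change evK θ (1 % (p + 1), 0) = _
    simp [evK, ← CharP.cast_eq_mod K (p + 1)]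
  | bit b e ih =>
    rw [kpow_bit, ev_kmul h, ev_kmul h, ih, Nat.bit_val, pow_add, two_mul, pow_add]
    cases b <;> simp [evK]

theorem ev_val (h : θ ^ 2 = n) (u g : ℕ × ℕ) (k j : ℕ) :
    evK θ (val p n u g k j) = evK θ u ^ k * evK θ g ^ j := by
  rw [val, ev_kmul h, ev_kpow h, ev_kpow h]

theorem test (h : θ ^ 2 = n) (hp : 1 ≤ p) (hi : ∀ a b : ℤ, (a : K) + b * θ = 0 → (b : K) = 0)
    (u g : ℕ × ℕ) (k j : ℕ) : ((val p n u g k j).1 = 1 ∧ (val p n u g k j).2 = 0) ↔
      evK θ u ^ k * evK θ g ^ j = 1 := by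
  rw [← ev_val (p := p) h]
  have l1 : (val p n u g k j).1 < p + 1 := Nat.mod_lt _ p.succ_pos
  have l2 : (val p n u g k j).2 < p + 1 := Nat.mod_lt _ p.succ_pos
  generalize val p n u g k j = x at *
  obtain ⟨a, b⟩ := x
  simp only [evK] at *
  constructor
  · rintro ⟨rfl, rfl⟩; simp
  · intro e
    have b0 : (b : K) = 0 := by
      have := hi (a - 1) b (by push_cast; linear_combination e)
      exact_mod_cast this
    rw [b0, zero_mul, add_zero] at e
    have c1 := (CharP.natCast_eq_natCast K (p + 1) (a := a) (b := 1)).1 (by simpa using e)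
    have c2 := (CharP.cast_eq_zero_iff K (p + 1) b).1 b0
    exact ⟨Nat.ModEq.eq_of_lt_of_lt c1 l1 (by omega), Nat.eq_zero_of_dvd_of_lt c2 l2⟩

end CBm

open CBm in
theorem cbS : CBStmt := by
  refine ⟨fun a => cb a.1.1 a.1.2 a.2.1 a.2.2,
    pt_cb PT.id.fst.fst PT.id.fst.snd PT.id.snd.fst PT.id.snd.snd, ?_⟩
  intro p n u g K _ _ _ θ hp h3 hK h hi ⟨y, hy⟩ g0 hg
  have eq : ((p + 1) ^ 2 - 1) / 3 = qq p := by rw [qq, sq]
  rw [eq] at hg
  have q3 : 3 * qq p = Fintype.card K - 1 := by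
    rw [hK, ← eq]
    refine Nat.mul_div_cancel' ?_
    have : (p + 1) % 3 ≠ 0 := fun e => by
      have := (Nat.prime_dvd_prime_iff_eq Nat.prime_three hp).1 (Nat.dvd_of_mod_eq_zero e)
      omega
    have h1 : (p + 1) % 3 = 1 ∨ (p + 1) % 3 = 2 := by omega
    have h2 : (p + 1) ^ 2 % 3 = 1 := by rcases h1 with e | e <;> simp [Nat.pow_mod, e]
    omega
  have q0 : 0 < qq p := by
    have : 4 * 4 ≤ (p + 1) * (p + 1) := Nat.mul_le_mul (by omega) (by omega)
    unfold qq; omega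
  have T := test h (by omega) hi u g
  have V := ev_val (p := p) h u g
  generalize evK θ u = U at *
  generalize evK θ g = G at *
  have z3 : (G ^ qq p) ^ 3 = 1 := by
    rw [← pow_mul', q3]; exact FiniteField.pow_card_sub_one_eq_one G g0
  have z2 : (G ^ qq p) ^ 2 + G ^ qq p + 1 = 0 :=
    mul_left_cancel₀ (sub_ne_zero.2 hg) (by linear_combination z3)
  have key : ∀ i, ∀ s, s = (step p n u g)^[i] (qq p, 0) →
      (U ≠ 0 → U ^ s.1 * G ^ s.2 = 1) ∧ s.1 ∣ qq p ∧
      (∀ t, 3 ^ t ∣ s.1 → 3 ^ (t + 1) ∣ s.2) ∧ (s.1 % 3 ≠ 0 ∨ 2 ^ i * s.1 ≤ qq p) := by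
    intro i
    induction i with
    | zero =>
      rintro s rfl
      refine ⟨fun u0 => ?_, dvd_rfl, fun t _ => dvd_zero _, Or.inr (by simp)⟩
      simp only [Function.iterate_zero, id, pow_zero, mul_one]
      rw [← hy, ← pow_mul, q3]
      exact FiniteField.pow_card_sub_one_eq_one y fun e => u0 (by rw [← hy, e]; simp)
    | succ i ih =>
      rintro s' rfl
      rw [Function.iterate_succ_apply']
      obtain ⟨i1, i2, i3, i4⟩ := ih _ rfl
      generalize (step p n u g)^[i] (qq p, 0) = s at *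
      obtain ⟨k, j⟩ := s
      simp only at i1 i2 i3 i4
      unfold step
      by_cases c : k % 3 = 0
      swap
      · rw [if_neg c]
        exact ⟨i1, i2, i3, Or.inl c⟩
      obtain ⟨k, rfl⟩ : 3 ∣ k := by omega
      obtain ⟨j, rfl⟩ : 3 ∣ j := by simpa using i3 0 (by simp)
      rw [if_pos c]
      simp only [Nat.mul_div_cancel_left _ three_pos, T]
      have d1 : ∀ t, 3 ^ t ∣ k → 3 ^ (t + 1) ∣ j ∧ 3 ^ (t + 1) ∣ qq p := fun t ht => by
        have : 3 ^ (t + 1) ∣ 3 * k := by rw [pow_succ']; exact Nat.mul_dvd_mul_left 3 ht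
        refine ⟨?_, this.trans i2⟩
        have := i3 _ this
        rw [pow_succ' 3 (t + 1)] at this
        exact Nat.dvd_of_mul_dvd_mul_left three_pos this
      refine ⟨fun u0 => ?_, (Dvd.intro_left 3 rfl).trans i2, fun t ht => ?_, Or.inr ?_⟩
      · split_ifs with c1 c2
        · simpa only [Nat.mul_div_cancel_left _ three_pos, T] using c1
        · simpa only [Nat.mul_div_cancel_left _ three_pos, T] using c2
        · simp only [Nat.mul_div_cancel_left _ three_pos, T] at c1 c2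
          have s1 : (U ^ k * G ^ j) ^ 3 = 1 := by
            rw [← i1 u0, mul_pow, ← pow_mul', ← pow_mul']
          rw [pow_add, ← mul_assoc] at c2
          rw [pow_add, pow_add, ← mul_assoc, ← mul_assoc]
          generalize U ^ k * G ^ j = w at *
          generalize G ^ qq p = z at *
          have s2 : w ^ 2 + w + 1 = 0 :=
            mul_left_cancel₀ (sub_ne_zero.2 c1) (by linear_combination s1)
          have s3 : (w * z - 1) * (w * z * z - 1) = 0 := by
            linear_combination w ^ 2 * z3 + s2 - w * z2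
          exact sub_eq_zero.1 ((mul_eq_zero.1 s3).resolve_left (sub_ne_zero.2 c2))
      · split_ifs
        · exact (d1 t ht).1
        · exact dvd_add (d1 t ht).1 (d1 t ht).2
        · exact dvd_add (dvd_add (d1 t ht).1 (d1 t ht).2) (d1 t ht).2
      · have := i4.resolve_left (by omega)
        rw [pow_succ, mul_assoc]
        exact le_trans (Nat.mul_le_mul_left _ (by omega)) this
  obtain ⟨i1, i2, i3, i4⟩ := key (qq p).bits.length _ rfl
  simp only [cb]
  generalize (step p n u g)^[(qq p).bits.length] (qq p, 0) = s at *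
  obtain ⟨k, j⟩ := s
  simp only at i1 i2 i3 i4
  have k0 : 0 < k := Nat.pos_of_dvd_of_pos i2 q0
  have ko : k % 3 ≠ 0 := i4.resolve_right fun h => by
    have := Nat.lt_size_self (qq p)
    rw [← Nat.size_eq_bits_len] at this
    have := Nat.le_mul_of_pos_right (2 ^ (qq p).bits.length) k0
    omega
  obtain ⟨j, rfl⟩ : 3 ∣ j := by simpa using i3 0 (by simp)
  unfold fin
  simp only [Nat.mul_div_cancel_left _ three_pos]
  split_ifs with c
  · rw [V, mul_pow, ← pow_mul, ← pow_mul', show (k + 1) / 3 * 3 = k + 1 by omega, pow_succ]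
    by_cases u0 : U = 0
    · simp [u0]
    · rw [mul_right_comm, i1 u0, one_mul]
  · rw [V, mul_pow, ← pow_mul, ← pow_mul', show (k + k + 1) / 3 * 3 = k + k + 1 by omega, pow_succ,
      mul_add, pow_add, pow_add]
    by_cases u0 : U = 0
    · simp [u0]
    · linear_combination (U * (U ^ k * G ^ (3 * j) + 1)) * i1 u0

end Vale.Agent.P319
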