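import Vale.Agent.P319.Defs

/-!
Polynomial factorization over prime fields: blocks.
-/

namespace Vale.Agent.P319

open Polynomial

/-- `g` is a product of an odd number, at least five, of distinct monic irreducible polynomials
of one degree. -/
def IsBlock (p : ℕ) (g : (ZMod p)[X]) : Prop :=
  ∃ (d : ℕ) (s : Finset (ZMod p)[X]), Odd s.card ∧ 5 ≤ s.card ∧
    (∀ u ∈ s, u.Monic ∧ Irreducible u ∧ u.natDegree = d) ∧ g = ∏ u ∈ s, u

/-- `out` is a constant followed by monic polynomials with product `f`, each of them irreducible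
or a block. -/
def IsBlockFactorization (p : ℕ) (f : (ZMod p)[X]) (out : List (List ℕ)) : Prop :=
  ∃ (c : ℕ) (L : List (List ℕ)), out = [c] :: L ∧
    f = C (c : ZMod p) * (L.map (toPoly p)).prod ∧
    ∀ g ∈ L, (toPoly p g).Monic ∧ (Irreducible (toPoly p g) ∨ IsBlock p (toPoly p g))

end Vale.Agent.P319
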