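import Vale.Agent.P319.SPL

/-! P319: structure of a polynomial that no Frobenius power cuts; the tournament lemma. -/

namespace Vale.Agent.P319

open Polynomial UniqueFactorizationMonoid SPLm

namespace SPL2m

variable {p : ℕ} [hp : Fact p.Prime]

theorem spl2 (f : (ZMod p)[X]) (hf : f.Monic) (h0 : 0 < f.natDegree) :
    ∃ d : ℕ, 1 ≤ d ∧ d ≤ f.natDegree ∧ (Cuts f (X ^ p ^ d - X) ∨ ∃ S : Finset (ZMod p)[X],
      (∀ g, g ∈ S ↔ Irreducible g ∧ g.Monic ∧ g ∣ f) ∧ (∀ g ∈ S, g.natDegree = d) ∧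
      f = ∏ g ∈ S, g ∧ ∃ τ : (ZMod p)[X] → (ZMod p)[X] →ₗ[ZMod p] ZMod p,
        (∀ g ∈ S, ∀ a, g ∣ ∑ i ∈ Finset.range d, a ^ p ^ i - C (τ g a)) ∧
        ∀ g ∈ S, ∀ g' ∈ S, g ≠ g' → ∃ j < f.natDegree, τ g (X ^ j) ≠ τ g' (X ^ j)) := by
  classical
  have f0 := hf.ne_zero
  set S := (normalizedFactors f).toFinset with hS
  have mem : ∀ g, g ∈ S ↔ Irreducible g ∧ g.Monic ∧ g ∣ f := fun g => by
    rw [hS, Multiset.mem_toFinset, Polynomial.mem_normalizedFactors_iff f0]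
  have ne : S.Nonempty := by
    obtain ⟨g, g1, g2, g3⟩ := exists_monic_irreducible_factor f (not_isUnit_of_natDegree_pos f h0)
    exact ⟨g, (mem g).2 ⟨g2, g1, g3⟩⟩
  obtain ⟨g0, m0, hmin⟩ := S.exists_min_image natDegree ne
  obtain ⟨i0, -, d0⟩ := (mem g0).1 m0
  set d := g0.natDegree with hd
  have d1 : 1 ≤ d := i0.natDegree_pos
  refine ⟨d, d1, natDegree_le_of_dvd d0 f0, ?_⟩
  by_cases hc : f ∣ X ^ p ^ d - X
  swap
  · refine Or.inl ⟨⟨g0, i0, d0, ?_⟩, hc⟩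
    have := i0.natDegree_dvd_iff_dvd_X_pow_card_pow_sub_X.1 (dvd_refl d)
    rwa [Nat.card_zmod] at this
  right
  have sq : Squarefree f := Squarefree.squarefree_of_dvd hc
    (galois_poly_separable p _ (dvd_pow_self p (by omega))).squarefree
  have dg : ∀ g ∈ S, g.natDegree = d := fun g hg => by
    obtain ⟨g1, -, g3⟩ := (mem g).1 hg
    refine le_antisymm (Nat.le_of_dvd d1 (g1.natDegree_dvd_of_dvd_X_pow_card_pow_sub_X ?_)) (hmin g hg)
    rw [Nat.card_zmod]; exact g3.trans hc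
  have pr : f = ∏ g ∈ S, g := by
    have e := prod_normalizedFactors_eq f0
    rw [hf.normalize_eq_self] at e
    rw [Finset.prod_eq_multiset_prod, Multiset.map_id', hS, Multiset.toFinset_val,
      ((squarefree_iff_nodup_normalizedFactors f0).1 sq).dedup, e]
  have hτ : ∀ g : (ZMod p)[X], ∃ τ : (ZMod p)[X] →ₗ[ZMod p] ZMod p, g ∈ S →
      (∀ a, g ∣ ∑ i ∈ Finset.range g.natDegree, a ^ p ^ i - C (τ a)) ∧ (∃ a, τ a ≠ 0) ∧
        ∀ a, g ∣ a → τ a = 0 := fun g => by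
    by_cases hg : g ∈ S
    · obtain ⟨τ, h⟩ := tr (p := p) g ((mem g).1 hg).1
      exact ⟨τ, fun _ => h⟩
    · exact ⟨0, fun h => absurd h hg⟩
  choose τ ht using hτ
  refine ⟨S, mem, dg, pr, τ, fun g hg a => dg g hg ▸ (ht g hg).1 a, fun g2 m2 g1 m1 n1 => ?_⟩
  obtain ⟨i2, mo2, d2⟩ := (mem g2).1 m2
  obtain ⟨i1, mo1, d1'⟩ := (mem g1).1 m1
  have cop : IsCoprime g2 g1 := i2.coprime_iff_not_dvd.2 fun h => n1
    (eq_of_monic_of_associated mo2 mo1 (i2.associated_of_dvd i1 h))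
  by_contra h
  push Not at h
  obtain ⟨b, hb⟩ := (ht g2 m2).2.1
  obtain ⟨u, v, huv⟩ := cop
  have f1 : f ≠ 1 := fun e => by rw [e] at h0; simp at h0
  have e1 : τ g2 ((b * v * g1) %ₘ f) = τ g1 ((b * v * g1) %ₘ f) := by
    rw [as_sum_range' _ _ (natDegree_modByMonic_lt (b * v * g1) hf f1), map_sum, map_sum]
    refine Finset.sum_congr rfl fun i hi => ?_
    rw [← smul_X_eq_monomial, map_smul, map_smul, h i (Finset.mem_range.1 hi)]
  have e2 : f ∣ (b * v * g1) %ₘ f - b * v * g1 := by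
    rw [modByMonic_eq_sub_mul_div]; simp
  have e3 := (ht g1 m1).2.2 ((b * v * g1) %ₘ f) (by
    simpa using (d1'.trans e2).add (dvd_mul_left g1 (b * v)))
  have e4 := (ht g2 m2).2.2 ((b * v * g1) %ₘ f - b) (by
    have := (d2.trans e2).sub (dvd_mul_left g2 (b * u))
    convert this using 1
    linear_combination b * huv)
  rw [map_sub, e1, e3, zero_sub, neg_eq_zero] at e4
  exact hb e4

theorem sep {ι : Type} (S : Finset ι) (n : ℕ) (hS : S.card ≤ n) (hn : n ^ 3 < p)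
    (v : ι → ℕ → ZMod p) (h : ∀ g ∈ S, ∀ g' ∈ S, g ≠ g' → ∃ j < n, v g j ≠ v g' j) :
    ∃ c ≤ n ^ 3, Set.InjOn (fun g => ∑ j ∈ Finset.range n, (c : ZMod p) ^ j * v g j) S := by
  classical
  set q : ι × ι → (ZMod p)[X] := fun x => ∑ j ∈ Finset.range n, monomial j (v x.1 j - v x.2 j)
    with hq
  have q0 : ∀ x ∈ S.offDiag, q x ≠ 0 := fun x hx e => by
    obtain ⟨h1, h2, h3⟩ := Finset.mem_offDiag.1 hx
    obtain ⟨j, hj, hv⟩ := h _ h1 _ h2 h3
    have := congrArg (coeff · j) e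
    simp only [hq, finsetSum_coeff, coeff_monomial, Finset.sum_ite_eq', Finset.mem_range, hj,
      if_true, coeff_zero] at this
    exact hv (sub_eq_zero.1 this)
  have qd : ∀ x, (q x).natDegree ≤ n := fun x => natDegree_sum_le_of_forall_le _ _ fun j hj =>
    (natDegree_monomial_le _).trans (Finset.mem_range.1 hj).le
  have Q0 : ∏ x ∈ S.offDiag, q x ≠ 0 := Finset.prod_ne_zero_iff.2 q0
  have Qd : (∏ x ∈ S.offDiag, q x).natDegree ≤ n ^ 3 := by
    refine (natDegree_prod_le _ _).trans ((Finset.sum_le_card_nsmul _ _ n fun x _ => qd x).trans ?_)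
    rw [Finset.offDiag_card, smul_eq_mul, pow_succ, sq]
    exact Nat.mul_le_mul_right _ ((Nat.sub_le _ _).trans (Nat.mul_le_mul hS hS))
  by_contra hc
  push Not at hc
  refine Q0 (eq_zero_of_natDegree_lt_card_of_eval_eq_zero _
    (f := fun c : Fin (n ^ 3 + 1) => ((c : ℕ) : ZMod p)) (fun a b e => Fin.ext ?_) (fun c => ?_)
    (by simpa using Nat.lt_succ_of_le Qd))
  · have := (ZMod.natCast_eq_natCast_iff' _ _ _).1 e
    rwa [Nat.mod_eq_of_lt (by have := a.2; omega), Nat.mod_eq_of_lt (by have := b.2; omega)] at this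
  · have := hc c (Nat.lt_succ_iff.1 c.2)
    simp only [Set.InjOn, not_forall] at this
    obtain ⟨a, ha, b, hb, e, ne⟩ := this
    rw [eval_prod]
    refine Finset.prod_eq_zero (i := (a, b)) (Finset.mem_offDiag.2 ⟨ha, hb, ne⟩) ?_
    simp only [hq, eval_finsetSum, eval_monomial]
    rw [← sub_eq_zero, ← Finset.sum_sub_distrib] at e
    rw [← e]
    exact Finset.sum_congr rfl fun j _ => by ring

omit hp in
theorem tour {ι R : Type} [AddCommGroup R] (S : Finset ι) (hS : Even S.card) (ne : S.Nonempty)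
    (y : ι → R) (hy : Set.InjOn y S) (σ : R → ℤ) (s0 : σ 0 = 0) (s1 : ∀ x, σ (-x) = -σ x)
    (s2 : ∀ x, x ≠ 0 → σ x = 1 ∨ σ x = -1) : ∃ g ∈ S, ∃ g' ∈ S, ∃ c c' : ℕ, c ≤ S.card ∧
      c' ≤ S.card ∧ 0 < c' ∧ ∑ u ∈ S, σ (y g - y u) = c ∧ ∑ u ∈ S, σ (y g' - y u) = -c' := by
  classical
  have z : ∑ g ∈ S, ∑ u ∈ S, σ (y g - y u) = 0 := by
    have : ∑ g ∈ S, ∑ u ∈ S, σ (y g - y u) = -∑ g ∈ S, ∑ u ∈ S, σ (y g - y u) := by
      conv_lhs => rw [Finset.sum_comm]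
      simp only [← Finset.sum_neg_distrib, ← s1, neg_sub]
    omega
  have b : ∀ g, |∑ u ∈ S, σ (y g - y u)| ≤ S.card := fun g => by
    refine (Finset.abs_sum_le_sum_abs _ _).trans
      ((Finset.sum_le_card_nsmul _ _ 1 fun u _ => ?_).trans (by simp))
    by_cases k : y g - y u = 0
    · simp [k, s0]
    · rcases s2 _ k with e | e <;> simp [e]
  have o : ∀ g ∈ S, ∑ u ∈ S, σ (y g - y u) ≠ 0 := fun g hg e => by
    rw [← Finset.add_sum_erase _ _ hg, sub_self, s0, zero_add] at e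
    have : (2 : ℤ) ∣ ∑ u ∈ S.erase g, (σ (y g - y u) - 1) := Finset.dvd_sum fun u hu => by
      obtain ⟨h1, h2⟩ := Finset.mem_erase.1 hu
      rcases s2 (y g - y u) (sub_ne_zero.2 fun k => h1 (hy hg h2 k).symm) with k | k <;> simp [k]
    rw [Finset.sum_sub_distrib, e, Finset.sum_const, Finset.card_erase_of_mem hg] at this
    have c := Finset.card_pos.2 ne
    obtain ⟨t, ht⟩ := hS
    simp only [nsmul_eq_mul, mul_one] at this
    omega
  obtain ⟨g, hg, h1⟩ : ∃ g ∈ S, 0 ≤ ∑ u ∈ S, σ (y g - y u) := by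
    by_contra h
    push Not at h
    exact (Finset.sum_neg h ne).ne z
  obtain ⟨g', hg', h2⟩ : ∃ g ∈ S, ∑ u ∈ S, σ (y g - y u) < 0 := by
    by_contra h
    push Not at h
    exact (Finset.sum_pos (fun g hg => lt_of_le_of_ne (h g hg) (o g hg).symm) ne).ne' z
  have b1 := abs_le.1 (b g)
  have b2 := abs_le.1 (b g')
  exact ⟨g, hg, g', hg', (∑ u ∈ S, σ (y g - y u)).toNat, (-∑ u ∈ S, σ (y g' - y u)).toNat,
    by omega, by omega, by omega, by omega, by omega⟩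

end SPL2m

end Vale.Agent.P319
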