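import Vale.Agent.P319.Spec4

/-! P319 wave 3: statements of the modules. -/

namespace Vale.Agent.P319

open Vale.Agent.Lib.H24.T Polynomial

def PHStmt : Prop := ∀ (α : Type) [Enc α] (m k : α → ℕ) (F : (a : α) → (ZMod (m a + 1))[X]),
  PT m → PT k → PP m F → PP m fun a => hasseDeriv (k a) (F a)

/-- from power sums to the polynomial -/
def NWStmt : Prop := ∃ nw : (m : ℕ) → List ℕ → (ZMod (m + 1))[X],
  (∀ (α : Type) [Enc α] (m : α → ℕ) (l : α → List ℕ), PT m → PT l →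
    PP m fun a => nw (m a) (l a)) ∧
  ∀ (m : ℕ) (l : List ℕ), (m + 1).Prime → l.length < m + 1 →
    ∀ (ι : Type) (s : Finset ι) (δ : ι → ZMod (m + 1)), s.card = l.length →
      (∀ i < l.length, ((l.getD i 0 : ℕ) : ZMod (m + 1)) = ∑ x ∈ s, δ x ^ (i + 1)) →
      nw m l = ∏ x ∈ s, (X - C (δ x))

/-- an odd sign function, as a polynomial modulo `G` -/
def SGStmt : Prop := ∃ sg : (m : ℕ) → ℕ → (ZMod (m + 1))[X] → (ZMod (m + 1))[X],
  (∀ (α : Type) [Enc α] (m g : α → ℕ) (G : (a : α) → (ZMod (m a + 1))[X]), PT m → PT g →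
    PP m G → PP m fun a => sg (m a) (g a) (G a)) ∧
  ∀ m g : ℕ, (m + 1).Prime → m + 1 ≠ 2 → ¬ IsSquare (g : ZMod (m + 1)) →
    ∃ σ : ZMod (m + 1) → ℤ, σ 0 = 0 ∧ (∀ x, σ (-x) = -σ x) ∧ (∀ x, x ≠ 0 → σ x = 1 ∨ σ x = -1) ∧
      ∀ G : (ZMod (m + 1))[X], G.Monic → ∀ x, G.eval x = 0 → (sg m g G).eval x = σ x

end Vale.Agent.P319
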