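import Vale.Agent.P319.FIN
import Vale.Agent.P319.SPL2
import Vale.Agent.P319.Spec5

/-! P319: candidates that cut a product of an even number of factors of equal degree. -/

namespace Vale.Agent.P319

open Vale.Agent.Lib.H24.T Vale.Agent.P338.PTX Polynomial FINm

namespace EVm

abbrev NW : Type := (m : ℕ) → List ℕ → (ZMod (m + 1))[X]
abbrev SG : Type := (m : ℕ) → ℕ → (ZMod (m + 1))[X] → (ZMod (m + 1))[X]

noncomputable section

def tau {m : ℕ} (f : (ZMod (m + 1))[X]) (d : ℕ) (u : (ZMod (m + 1))[X]) : ℕ :=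
  (((u * derivative f) %ₘ f).coeff (f.natDegree - 1)).val * minv m d

def ev {m : ℕ} (f t W : (ZMod (m + 1))[X]) : (ZMod (m + 1))[X] :=
  ((List.range (W.natDegree + 1)).map fun a =>
    C (((W.coeff a).val : ℕ) : ZMod (m + 1)) * pwm t f a).sum

def dl {m : ℕ} (f : (ZMod (m + 1))[X]) (d : ℕ) (t E : (ZMod (m + 1))[X]) : (ZMod (m + 1))[X] :=
  ev f t ((List.range (E.natDegree + 1)).map fun l =>
    C ((tau f d (pwm (C ((m : ℕ) : ZMod (m + 1)) * t) f l) : ℕ) : ZMod (m + 1)) * hasseDeriv l E).sum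

def zs {m : ℕ} (f : (ZMod (m + 1))[X]) (d : ℕ) : List ℕ :=
  List.replicate (min (f.natDegree / d) (f.natDegree + 1) ^ 2) 0

def pl {m : ℕ} (f : (ZMod (m + 1))[X]) (d : ℕ) (t : (ZMod (m + 1))[X]) : List ℕ :=
  (List.range (zs f d).length).map fun i =>
    tau f d (dl f d t (toPoly (m + 1) ((zs f d).take (i + 1) ++ [1])))

def aa {m : ℕ} (f : (ZMod (m + 1))[X]) (c : ℕ) : (ZMod (m + 1))[X] :=
  ((List.range f.natDegree).map fun j => pwm (C (c : ZMod (m + 1)) * X) f j).sum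

def tt {m : ℕ} (f : (ZMod (m + 1))[X]) (d c : ℕ) : (ZMod (m + 1))[X] :=
  ((List.range (min d (f.natDegree + 1))).map fun i =>
    pwm (aa f c) f ((m + 1) ^ min i (f.natDegree + 1))).sum

def dd (nw : NW) (sg : SG) {m : ℕ} (f : (ZMod (m + 1))[X]) (d c g : ℕ) : (ZMod (m + 1))[X] :=
  dl f d (tt f d c) (sg m g (nw m (pl f d (tt f d c))))

def cand2 (gc : GC) (nw : NW) (sg : SG) (L : ℕ → List ℕ) (m : ℕ) (f : (ZMod (m + 1))[X]) :
    List (List ℕ) :=
  (List.range (f.natDegree + 1)).flatMap fun d =>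
    (List.range ((f.natDegree + 1) ^ 3)).flatMap fun c : ℕ =>
      ((List.range (f.natDegree + 1)).map fun j =>
        rep (gc m f (trc f d j - C (c : ZMod (m + 1))))) ++
      (L m).flatMap fun g => (List.range (f.natDegree + 1)).map fun e : ℕ =>
        rep (gc m f (dd nw sg f d c g - C (e : ZMod (m + 1))))

end

theorem mem_cand2 {gc : GC} {nw : NW} {sg : SG} {L : ℕ → List ℕ} {m : ℕ} {f : (ZMod (m + 1))[X]}
    {g : List ℕ} (h : g ∈ cand2 gc nw sg L m f) : ∃ u, g = rep (gc m f u) := by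
  simp only [cand2, List.mem_flatMap, List.mem_append, List.mem_map] at h
  obtain ⟨d, -, c, -, ⟨j, -, rfl⟩ | ⟨j, -, e, -, rfl⟩⟩ := h <;> exact ⟨_, rfl⟩

section pt

variable (h1 : PA1Stmt) (h2 : PA2Stmt) (hW : PWStmt) (hH : PHStmt)
variable {α : Type} [Enc α] {m : α → ℕ} {F T E : (a : α) → (ZMod (m a + 1))[X]}

theorem pt_rg (hF : PP m F) : PT fun a => List.range ((F a).natDegree + 1) :=
  (PT.range_length hF).of_eq fun a => by rw [len]

include h1 h2 in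
theorem pt_tau (hm : PT m) (hF : PP m F) {d : α → ℕ} (hd : PT d) (hT : PP m T) :
    PT fun a => tau (F a) (d a) (T a) :=
  (h1.coe α m _ _ (h1.deg α m F hF).pred (h2.mod α m _ _ hm (h1.mul α m _ _ hm hT
    (h1.der α m _ hm hF)) hF)).mul (pt_minv hm hd)

include h1 hW in
theorem pp_ev (hm : PT m) (hF : PP m F) (hT : PP m T) (hE : PP m E) :
    PP m fun a => ev (F a) (T a) (E a) := by
  have hm' : PT fun q : α × ℕ => m q.1 := hm.comp PT.id.fst
  have c := fun {G : (a : α) → (ZMod (m a + 1))[X]} (hG : PP m G) =>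
    ppc hG (g := fun q : α × ℕ => q.1) PT.id.fst
  exact h1.sum α ℕ m _ (fun x a => C ((((E x).coeff a).val : ℕ) : ZMod (m x + 1)) * pwm (T x) (F x) a)
    hm (pt_rg hE) (h1.mul _ _ _ _ hm' (h1.cst _ _ _ hm' (h1.coe _ _ _ _ PT.id.snd (c hE)))
      (hW _ _ _ _ _ hm' PT.id.snd (c hT) (c hF)))

include h1 h2 hW hH in
theorem pp_dl (hm : PT m) (hF : PP m F) {d : α → ℕ} (hd : PT d) (hT : PP m T) (hE : PP m E) :
    PP m fun a => dl (F a) (d a) (T a) (E a) := by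
  have hm' : PT fun q : α × ℕ => m q.1 := hm.comp PT.id.fst
  have c := fun {G : (a : α) → (ZMod (m a + 1))[X]} (hG : PP m G) =>
    ppc hG (g := fun q : α × ℕ => q.1) PT.id.fst
  exact pp_ev h1 hW hm hF hT (h1.sum α ℕ m _ (fun x l => C ((tau (F x) (d x)
      (pwm (C ((m x : ℕ) : ZMod (m x + 1)) * T x) (F x) l) : ℕ) : ZMod (m x + 1)) * hasseDeriv l (E x))
    hm (pt_rg hE) (h1.mul _ _ _ _ hm' (h1.cst _ _ _ hm' (pt_tau h1 h2 hm' (c hF)
      (hd.comp PT.id.fst) (hW _ _ _ _ _ hm' PT.id.snd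
        (h1.mul _ _ _ _ hm' (h1.cst _ _ _ hm' hm') (c hT)) (c hF))))
      (hH _ _ _ _ hm' PT.id.snd (c hE))))

include h1 in
theorem pt_zs (hF : PP m F) {d : α → ℕ} (hd : PT d) : PT fun a => zs (F a) (d a) := by
  obtain ⟨l, l1, l2⟩ := pt_min hF (div (h1.deg α m F hF) hd)
  refine (replicate (PT.flatMap (g := fun a _ => l a) l1 (l1.comp PT.id.fst))
    (PT.const 0)).of_eq fun a => ?_
  simp [zs, l2, sq]

include h1 h2 hW hH in
theorem pt_pl (hm : PT m) (hF : PP m F) {d : α → ℕ} (hd : PT d) (hT : PP m T) :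
    PT fun a => pl (F a) (d a) (T a) := by
  have hm' : PT fun q : α × ℕ => m q.1 := hm.comp PT.id.fst
  have c := fun {G : (a : α) → (ZMod (m a + 1))[X]} (hG : PP m G) =>
    ppc hG (g := fun q : α × ℕ => q.1) PT.id.fst
  have z := pt_zs h1 hF hd
  exact PT.map z.range_length (pt_tau h1 h2 hm' (c hF) (hd.comp PT.id.fst)
    (pp_dl h1 h2 hW hH hm' (c hF) (hd.comp PT.id.fst) (c hT) (h1.ofl _ _ _ hm'
      ((take PT.id.snd.succ (z.comp PT.id.fst)).append (PT.const [1])))))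

include h1 hW in
theorem pp_aa (hm : PT m) (hF : PP m F) {c : α → ℕ} (hc : PT c) : PP m fun a => aa (F a) (c a) := by
  have hm' : PT fun q : α × ℕ => m q.1 := hm.comp PT.id.fst
  have hF' : PT fun a => rep (F a) := hF
  exact h1.sum α ℕ m (fun a => List.range (F a).natDegree)
    (fun a j => pwm (C (c a : ZMod (m a + 1)) * X) (F a) j) hm
    (hF'.tail.range_length.of_eq fun a => by simp [len])
    (hW _ _ _ _ _ hm' PT.id.snd (h1.mul _ _ _ _ hm' (h1.cst _ _ _ hm' (hc.comp PT.id.fst))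
      (h1.var _ _ hm')) (ppc hF PT.id.fst))

include h1 hW in
theorem pp_tt (hm : PT m) (hF : PP m F) {d c : α → ℕ} (hd : PT d) (hc : PT c) :
    PP m fun a => tt (F a) (d a) (c a) := by
  obtain ⟨l, l1, l2⟩ := pt_min hF hd
  have hm' : PT fun q : α × ℕ => m q.1 := hm.comp PT.id.fst
  have hF' := ppc hF (g := fun q : α × ℕ => q.1) PT.id.fst
  exact h1.sum α ℕ m (fun a => List.range (min (d a) ((F a).natDegree + 1)))
    (fun a i => pwm (aa (F a) (c a)) (F a) ((m a + 1) ^ min i ((F a).natDegree + 1))) hm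
    (l1.range_length.of_eq fun a => by rw [l2])
    (hW _ _ _ _ _ hm' (pt_pw hm' hF' PT.id.snd) (ppc (pp_aa h1 hW hm hF hc) PT.id.fst) hF')

variable {gc : GC} {nw : NW} {sg : SG} {L : ℕ → List ℕ} (hL : PT L)
  (hG : ∀ (α : Type) [Enc α] (m : α → ℕ) (F G : (a : α) → (ZMod (m a + 1))[X]), PT m →
    PP m F → PP m G → PP m fun a => gc (m a) (F a) (G a))
  (hN : ∀ (α : Type) [Enc α] (m : α → ℕ) (l : α → List ℕ), PT m → PT l →
    PP m fun a => nw (m a) (l a))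
  (hS : ∀ (α : Type) [Enc α] (m g : α → ℕ) (G : (a : α) → (ZMod (m a + 1))[X]), PT m → PT g →
    PP m G → PP m fun a => sg (m a) (g a) (G a))

include h1 h2 hW hH hN hS in
theorem pp_dd (hm : PT m) (hF : PP m F) {d c g : α → ℕ} (hd : PT d) (hc : PT c) (hg : PT g) :
    PP m fun a => dd nw sg (F a) (d a) (c a) (g a) :=
  pp_dl h1 h2 hW hH hm hF hd (pp_tt h1 hW hm hF hd hc) (hS _ _ _ _ hm hg
    (hN _ _ _ hm (pt_pl h1 h2 hW hH hm hF hd (pp_tt h1 hW hm hF hd hc))))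

include h1 h2 hW hH hL hG hN hS in
theorem pt_cand2 (hm : PT m) (hF : PP m F) : PT fun a => cand2 gc nw sg L (m a) (F a) := by
  have r0 := pt_rg hF
  have r3 : PT fun a => List.range (((F a).natDegree + 1) ^ 3) :=
    (pt_un (PT.map (g := fun _ _ => false) r0 (PT.const _)) 3).range_length.of_eq fun a => by
      simp [length_un]
  have m2 : PT fun q : (α × ℕ) × ℕ => m q.1.1 := hm.comp PT.id.fst.fst
  have m3 : PT fun q : ((α × ℕ) × ℕ) × ℕ => m q.1.1.1 := m2.comp PT.id.fst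
  have F3 := ppc hF (g := fun q : ((α × ℕ) × ℕ) × ℕ => q.1.1.1) PT.id.fst.fst.fst
  have m4 : PT fun q : (((α × ℕ) × ℕ) × ℕ) × ℕ => m q.1.1.1.1 := m3.comp PT.id.fst
  have F4 := ppc hF (g := fun q : (((α × ℕ) × ℕ) × ℕ) × ℕ => q.1.1.1.1) PT.id.fst.fst.fst.fst
  have a3 : PT fun q : ((α × ℕ) × ℕ) × ℕ => rep (gc (m q.1.1.1) (F q.1.1.1)
      (trc (F q.1.1.1) q.1.1.2 q.2 - C (q.1.2 : ZMod (m q.1.1.1 + 1)))) :=
    hG _ _ _ _ m3 F3 (h1.sub _ _ _ _ m3 (pp_trc h1 hW m3 F3 PT.id.fst.fst.snd PT.id.snd)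
      (h1.cst _ _ _ m3 PT.id.fst.snd))
  have a4 : PT fun q : (((α × ℕ) × ℕ) × ℕ) × ℕ => rep (gc (m q.1.1.1.1) (F q.1.1.1.1)
      (dd nw sg (F q.1.1.1.1) q.1.1.1.2 q.1.1.2 q.1.2 - C (q.2 : ZMod (m q.1.1.1.1 + 1)))) :=
    hG _ _ _ _ m4 F4 (h1.sub _ _ _ _ m4 (pp_dd h1 h2 hW hH hN hS m4 F4 PT.id.fst.fst.fst.snd
      PT.id.fst.fst.snd PT.id.fst.snd) (h1.cst _ _ _ m4 PT.id.snd))
  have b3 := PT.map (g := fun (q : ((α × ℕ) × ℕ) × ℕ) (e : ℕ) => rep (gc (m q.1.1.1) (F q.1.1.1)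
      (dd nw sg (F q.1.1.1) q.1.1.2 q.1.2 q.2 - C (e : ZMod (m q.1.1.1 + 1)))))
    (r0.comp PT.id.fst.fst.fst) a4
  have a2 := PT.map (g := fun (q : (α × ℕ) × ℕ) (j : ℕ) => rep (gc (m q.1.1) (F q.1.1)
      (trc (F q.1.1) q.1.2 j - C (q.2 : ZMod (m q.1.1 + 1))))) (r0.comp PT.id.fst.fst) a3
  exact PT.flatMap r0 (PT.flatMap (r3.comp PT.id.fst) (a2.append (PT.flatMap (hL.comp m2) b3)))

end pt

theorem lsum {R : Type} [AddCommMonoid R] (n : ℕ) (u : ℕ → R) :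
    ((List.range n).map u).sum = ∑ i ∈ Finset.range n, u i := by
  rw [← List.sum_toFinset _ List.nodup_range, List.toFinset_range]

theorem xpow (p i : ℕ) : toPoly p (List.replicate i 0 ++ [1]) = X ^ i := by
  induction i with
  | zero => simp [toPoly]
  | succ i ih =>
    have : toPoly p (List.replicate (i + 1) 0 ++ [1]) =
      C ((0 : ℕ) : ZMod p) + X * toPoly p (List.replicate i 0 ++ [1]) := rfl
    rw [this, ih, pow_succ']; simp

theorem pw_dvd {p : ℕ} {f g t u : (ZMod p)[X]} (hf : f.Monic) (hg : g ∣ f) (h : g ∣ t - u) (a : ℕ) :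
    g ∣ pwm t f a - u ^ a := by
  simpa using (hg.trans (pwm_dvd hf t a)).add (h.trans (sub_dvd_pow_sub_pow _ _ a))

theorem ev_dvd {m : ℕ} {f g t : (ZMod (m + 1))[X]} {y : ZMod (m + 1)} (hf : f.Monic) (hg : g ∣ f)
    (h : g ∣ t - C y) (W : (ZMod (m + 1))[X]) : g ∣ ev f t W - C (W.eval y) := by
  rw [ev, lsum, eval_eq_sum_range, map_sum, ← Finset.sum_sub_distrib]
  refine Finset.dvd_sum fun a _ => ?_
  rw [ZMod.natCast_zmod_val, map_mul, ← mul_sub, map_pow]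
  exact (pw_dvd hf hg h a).mul_left _

section ok

variable {m : ℕ} [hp : Fact (m + 1).Prime] {f : (ZMod (m + 1))[X]} {S : Finset (ZMod (m + 1))[X]}
  {d : ℕ} (d1 : 1 ≤ d) (d0 : (d : ZMod (m + 1)) ≠ 0) (hS : ∀ g ∈ S, g.Monic ∧ g.natDegree = d)
  (pr : f = ∏ g ∈ S, g)

include d1 d0 hS pr

theorem tau_eq (u : (ZMod (m + 1))[X]) (z : (ZMod (m + 1))[X] → ZMod (m + 1))
    (h : ∀ g ∈ S, g ∣ u - C (z g)) : (tau f d u : ZMod (m + 1)) = ∑ g ∈ S, z g := by
  have a1 := cast_minv m d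
  rw [if_neg d0] at a1
  have a2 := SPLm.psum S d d1 hS u z h 1
  simp only [pow_one] at a2
  rw [tau, Nat.cast_mul, ZMod.natCast_zmod_val, pr, a2]
  linear_combination (∑ g ∈ S, z g) * a1

theorem dl_dvd {t : (ZMod (m + 1))[X]} {y : (ZMod (m + 1))[X] → ZMod (m + 1)}
    (h : ∀ g ∈ S, g ∣ t - C (y g)) (E : (ZMod (m + 1))[X]) :
    ∀ g ∈ S, g ∣ dl f d t E - C (∑ u ∈ S, E.eval (y g - y u)) := fun g hg => by
  have hf : f.Monic := pr ▸ monic_prod_of_monic _ _ fun g hg => (hS g hg).1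
  have df : ∀ g ∈ S, g ∣ f := fun g hg => pr ▸ Finset.dvd_prod_of_mem _ hg
  have hm : ((m : ℕ) : ZMod (m + 1)) = -1 := eq_neg_of_add_eq_zero_left (by
    exact_mod_cast ZMod.natCast_self (m + 1))
  have e := fun l => tau_eq d1 d0 hS pr (pwm (C ((m : ℕ) : ZMod (m + 1)) * t) f l)
    (fun u => (-y u) ^ l) fun u hu => by
      rw [map_pow]
      refine pw_dvd hf (df u hu) ?_ l
      rw [hm, map_neg, map_neg, map_one, neg_one_mul, ← neg_sub', dvd_neg]
      exact h u hu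
  have k := ev_dvd hf (df g hg) (h g hg) ((List.range (E.natDegree + 1)).map fun l =>
    C ((tau f d (pwm (C ((m : ℕ) : ZMod (m + 1)) * t) f l) : ℕ) : ZMod (m + 1)) * hasseDeriv l E).sum
  rw [dl]
  convert k using 3
  rw [lsum]
  simp only [e, eval_finsetSum, eval_mul, eval_C, Finset.sum_mul]
  rw [Finset.sum_comm]
  refine Finset.sum_congr rfl fun u _ => ?_
  rw [sub_eq_neg_add, ← taylor_eval, eval_eq_sum_range, natDegree_taylor]
  exact Finset.sum_congr rfl fun l _ => by rw [taylor_coeff, mul_comm]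

omit d0 in
theorem deg_eq : f.natDegree = S.card * d := by
  rw [pr, natDegree_prod_of_monic _ _ fun g hg => (hS g hg).1,
    Finset.sum_congr rfl fun g hg => (hS g hg).2, Finset.sum_const, smul_eq_mul]

omit d0 in
theorem zs_len : (zs f d).length = S.card ^ 2 := by
  have := deg_eq d1 hS pr
  rw [zs, List.length_replicate, this, Nat.mul_div_cancel _ d1, min_eq_left]
  nlinarith

theorem pl_eq {t : (ZMod (m + 1))[X]} {y : (ZMod (m + 1))[X] → ZMod (m + 1)}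
    (h : ∀ g ∈ S, g ∣ t - C (y g)) (i : ℕ) (hi : i < (pl f d t).length) :
    (((pl f d t).getD i 0 : ℕ) : ZMod (m + 1)) = ∑ x ∈ S ×ˢ S, (y x.1 - y x.2) ^ (i + 1) := by
  rw [List.getD_eq_getElem _ _ hi]
  simp only [pl, List.length_map, List.length_range] at hi
  simp only [pl, List.getElem_map, List.getElem_range]
  rw [tau_eq d1 d0 hS pr _ _ (dl_dvd d1 d0 hS pr h _), Finset.sum_product]
  rw [zs, List.length_replicate] at hi
  simp only [zs, List.take_replicate, min_eq_left (Nat.succ_le_of_lt hi), xpow, eval_pow, eval_X]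

end ok

theorem tt_dvd {m : ℕ} {f g : (ZMod (m + 1))[X]} (hf : f.Monic) (hg : g ∣ f) {d : ℕ}
    (hd : d ≤ f.natDegree) (c : ℕ) : g ∣ tt f d c - ∑ i ∈ Finset.range d,
      (∑ j ∈ Finset.range f.natDegree, (c : ZMod (m + 1)) ^ j • X ^ j) ^ (m + 1) ^ i := by
  rw [tt, min_eq_left (by omega), lsum, ← Finset.sum_sub_distrib]
  refine Finset.dvd_sum fun i hi => ?_
  rw [min_eq_left (by have := Finset.mem_range.1 hi; omega)]
  refine pw_dvd hf hg ?_ _
  rw [aa, lsum, ← Finset.sum_sub_distrib]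
  refine Finset.dvd_sum fun j _ => ?_
  rw [smul_eq_C_mul, map_pow, ← mul_pow]
  exact hg.trans (pwm_dvd hf _ _)

end EVm

end Vale.Agent.P319
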