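import Vale.Agent.P319.SPL

/-! P319: the factoring algorithm for polynomials with few factors of each degree. -/

namespace Vale.Agent.P319

open Vale.Agent.Lib.H24.T Vale.Agent.P338.PTX Polynomial

namespace FINm

abbrev GC : Type := (m : ℕ) → (ZMod (m + 1))[X] → (ZMod (m + 1))[X] → (ZMod (m + 1))[X]
abbrev RR : Type := ℕ × ℕ × ℕ × ℕ × ℕ → List ℕ
abbrev St : Type := List (List ℕ) × List (List ℕ)

noncomputable section

def trc {m : ℕ} (f : (ZMod (m + 1))[X]) (d j : ℕ) : (ZMod (m + 1))[X] :=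
  ((List.range (min d (f.natDegree + 1))).map fun i =>
    pwm X f (j * (m + 1) ^ min i (f.natDegree + 1))).sum

def ps {m : ℕ} (f : (ZMod (m + 1))[X]) (d j k : ℕ) : ℕ :=
  (((trc f d j ^ k * derivative f) %ₘ f).coeff (f.natDegree - 1)).val * minv m d

def cand (gc : GC) (R : RR) (m : ℕ) (f : (ZMod (m + 1))[X]) : List (List ℕ) :=
  (List.range (f.natDegree + 1)).flatMap fun d =>
    rep (gc m f (pwm X f ((m + 1) ^ min d (f.natDegree + 1)) - X)) ::
    (List.range (f.natDegree + 1)).flatMap fun j =>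
      (List.range (f.natDegree + 1 + 3) ++
        R (m, ps f d j 1, ps f d j 2, ps f d j 3, ps f d j 4)).map fun c : ℕ =>
          rep (gc m f (trc f d j - C (c : ZMod (m + 1))))

def stp (gc : GC) (R : RR) (m : ℕ) (s : St) : St :=
  lcase s.2 s fun l T =>
    lcase ((cand gc R m (toPoly (m + 1) l)).filter fun g =>
        decide (1 < g.length ∧ g.length ≤ (toPoly (m + 1) l).natDegree)) (l :: s.1, T)
      fun g _ => (s.1, g :: rep (toPoly (m + 1) l /ₘ toPoly (m + 1) g) :: T)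

def ini (m : ℕ) (f : (ZMod (m + 1))[X]) : St :=
  ([], if f.natDegree = 0 then [] else
    [rep (f * C ((minv m (f.coeff f.natDegree).val : ℕ) : ZMod (m + 1)))])

def run (gc : GC) (R : RR) (m : ℕ) (f : (ZMod (m + 1))[X]) : List (List ℕ) :=
  [(f.coeff f.natDegree).val] :: ((stp gc R m)^[(rep f ++ rep f).length] (ini m f)).1

def alg (gc : GC) (R : RR) (w : List ℕ) : List (List ℕ) :=
  run gc R (w.headD 0 - 1) (toPoly (w.headD 0 - 1 + 1) w.tail)

end

theorem len {p : ℕ} (f : (ZMod p)[X]) : (rep f).length = f.natDegree + 1 := by simp [rep]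

theorem mem_cand {gc : GC} {R : RR} {m : ℕ} {f : (ZMod (m + 1))[X]} {g : List ℕ}
    (h : g ∈ cand gc R m f) : ∃ u, g = rep (gc m f u) := by
  simp only [cand, List.mem_flatMap, List.mem_cons, List.mem_map] at h
  obtain ⟨d, -, rfl | ⟨j, -, c, -, rfl⟩⟩ := h <;> exact ⟨_, rfl⟩

section pt

variable (h1 : PA1Stmt) (h2 : PA2Stmt) (hW : PWStmt)
variable {α : Type} [Enc α] {m : α → ℕ} {F : (a : α) → (ZMod (m a + 1))[X]}

theorem ppc {β : Type} [Enc β] (hF : PP m F) {g : β → α} (hg : PT g) :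
    PP (fun b => m (g b)) fun b => F (g b) := PT.comp hF hg

theorem pt_min (hF : PP m F) {d : α → ℕ} (hd : PT d) :
    ∃ l : α → List ℕ, PT l ∧ ∀ a, (l a).length = min (d a) ((F a).natDegree + 1) :=
  ⟨fun a => (rep (F a)).take (d a), take hd hF, fun a => by rw [List.length_take, len]⟩

theorem pt_pw (hm : PT m) (hF : PP m F) {d : α → ℕ} (hd : PT d) :
    PT fun a => (m a + 1) ^ min (d a) ((F a).natDegree + 1) := by
  obtain ⟨l, l1, l2⟩ := pt_min hF hd
  exact (pow hm.succ l1).of_eq fun a => by rw [l2]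

include h1 in
theorem pp_pow (hm : PT m) (hF : PP m F) (k : ℕ) : PP m fun a => F a ^ k := by
  induction k with
  | zero => simpa using h1.cst α m (fun _ => 1) hm (PT.const 1)
  | succ k ih => simpa only [pow_succ] using h1.mul α m _ _ hm ih hF

include h1 hW in
theorem pp_trc (hm : PT m) (hF : PP m F) {d j : α → ℕ} (hd : PT d) (hj : PT j) :
    PP m fun a => trc (F a) (d a) (j a) := by
  obtain ⟨l, l1, l2⟩ := pt_min hF hd
  have hm' : PT fun q : α × ℕ => m q.1 := hm.comp PT.id.fst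
  have hF' := ppc hF (g := fun q : α × ℕ => q.1) PT.id.fst
  exact h1.sum α ℕ m (fun a => List.range (min (d a) ((F a).natDegree + 1)))
    (fun a i => pwm X (F a) (j a * (m a + 1) ^ min i ((F a).natDegree + 1))) hm
    (l1.range_length.of_eq fun a => by rw [l2])
    (hW _ _ _ _ _ hm' ((hj.comp PT.id.fst).mul (pt_pw hm' hF' PT.id.snd)) (h1.var _ _ hm') hF')

include h1 h2 hW in
theorem pt_ps (hm : PT m) (hF : PP m F) {d j : α → ℕ} (hd : PT d) (hj : PT j) (k : ℕ) :
    PT fun a => ps (F a) (d a) (j a) k :=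
  (h1.coe α m _ _ (h1.deg α m F hF).pred (h2.mod α m _ _ hm (h1.mul α m _ _ hm
    (pp_pow h1 hm (pp_trc h1 hW hm hF hd hj) k) (h1.der α m _ hm hF)) hF)).mul (pt_minv hm hd)

variable {gc : GC} {R : RR} (hR : PT R)
  (hG : ∀ (α : Type) [Enc α] (m : α → ℕ) (F G : (a : α) → (ZMod (m a + 1))[X]), PT m →
    PP m F → PP m G → PP m fun a => gc (m a) (F a) (G a))

include h1 h2 hW hR hG in
theorem pt_cand (hm : PT m) (hF : PP m F) : PT fun a => cand gc R (m a) (F a) := by
  have r0 : PT fun a => List.range ((F a).natDegree + 1) :=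
    (PT.range_length hF).of_eq fun a => by rw [len]
  have r3 : PT fun a => List.range ((F a).natDegree + 1 + 3) :=
    (PT.range_length ((PT.const 0).cons ((PT.const 0).cons ((PT.const 0).cons hF)))).of_eq
      fun a => by simp [len]
  have m1 : PT fun q : α × ℕ => m q.1 := hm.comp PT.id.fst
  have F1 := ppc hF (g := fun q : α × ℕ => q.1) PT.id.fst
  have m2 : PT fun q : (α × ℕ) × ℕ => m q.1.1 := m1.comp PT.id.fst
  have F2 := ppc hF (g := fun q : (α × ℕ) × ℕ => q.1.1) PT.id.fst.fst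
  have m3 : PT fun q : ((α × ℕ) × ℕ) × ℕ => m q.1.1.1 := m2.comp PT.id.fst
  have F3 := ppc hF (g := fun q : ((α × ℕ) × ℕ) × ℕ => q.1.1.1) PT.id.fst.fst.fst
  have p2 := pt_ps h1 h2 hW m2 F2 PT.id.fst.snd PT.id.snd
  have a3 : PT fun q : ((α × ℕ) × ℕ) × ℕ => rep (gc (m q.1.1.1) (F q.1.1.1)
      (trc (F q.1.1.1) q.1.1.2 q.1.2 - C (q.2 : ZMod (m q.1.1.1 + 1)))) :=
    hG _ _ _ _ m3 F3 (h1.sub _ _ _ _ m3 (pp_trc h1 hW m3 F3 PT.id.fst.fst.snd PT.id.fst.snd)
      (h1.cst _ _ _ m3 PT.id.snd))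
  have a2 := PT.map (g := fun (q : (α × ℕ) × ℕ) (c : ℕ) => rep (gc (m q.1.1) (F q.1.1)
      (trc (F q.1.1) q.1.2 q.2 - C (c : ZMod (m q.1.1 + 1)))))
    ((r3.comp PT.id.fst.fst).append (hR.comp (m2.pair ((p2 1).pair ((p2 2).pair
      ((p2 3).pair (p2 4))))))) a3
  have a1 : PT fun q : α × ℕ => rep (gc (m q.1) (F q.1)
      (pwm X (F q.1) ((m q.1 + 1) ^ min q.2 ((F q.1).natDegree + 1)) - X)) :=
    hG _ _ _ _ m1 F1 (h1.sub _ _ _ _ m1 (hW _ _ _ _ _ m1 (pt_pw m1 F1 PT.id.snd)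
      (h1.var _ _ m1) F1) (h1.var _ _ m1))
  exact PT.flatMap r0 (a1.cons (PT.flatMap (r0.comp PT.id.fst) a2))

include h1 h2 hW hR hG in
theorem pt_stp (hm : PT m) {s : α → St} (hs : PT s) : PT fun a => stp gc R (m a) (s a) := by
  have m1 : PT fun q : α × List ℕ × List (List ℕ) => m q.1 := hm.comp PT.id.fst
  have F1 := h1.ofl _ _ _ m1 PT.id.snd.fst
  have s1 : PT fun q : α × List ℕ × List (List ℕ) => (s q.1).1 := (hs.comp PT.id.fst).fst
  have c1 := PT.filter (g := fun (q : α × List ℕ × List (List ℕ)) (g : List ℕ) =>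
      decide (1 < g.length ∧ g.length ≤ (toPoly (m q.1 + 1) q.2.1).natDegree))
    (pt_cand h1 h2 hW hR hG m1 F1)
    (dand ((PT.const 1).lt PT.id.snd.length)
      (PT.id.snd.length.le ((h1.deg _ _ _ F1).comp PT.id.fst)))
  have m2 : PT fun q : (α × List ℕ × List (List ℕ)) × List ℕ × List (List ℕ) => m q.1.1 :=
    m1.comp PT.id.fst
  have d2 := h2.div _ _ _ _ m2 (h1.ofl _ _ _ m2 PT.id.fst.snd.fst) (h1.ofl _ _ _ m2 PT.id.snd.fst)
  exact PT.lcase hs.snd hs (PT.lcase c1 ((PT.id.snd.fst.cons s1).pair PT.id.snd.snd)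
    ((s1.comp PT.id.fst).pair (PT.id.snd.fst.cons (PT.cons d2 PT.id.fst.snd.snd))))

include h1 in
theorem inv1 (gc : GC) (R : RR) (m : ℕ) (f : (ZMod (m + 1))[X]) (i : ℕ) :
    ∀ s, s = (stp gc R m)^[i] (ini m f) → s.1.length + s.2.length ≤ i + 1 ∧
      ∀ l, l ∈ s.1 ∨ l ∈ s.2 → ∃ u : (ZMod (m + 1))[X], l = rep u ∧ u.natDegree ≤ f.natDegree := by
  induction i with
  | zero =>
    rintro s rfl
    simp only [Function.iterate_zero, id, ini]
    split_ifs
    · simp
    · refine ⟨by simp, fun l hl => ⟨_, List.mem_singleton.1 (hl.resolve_left List.not_mem_nil),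
        natDegree_mul_C_le _ _⟩⟩
  | succ i ih =>
    rintro s' rfl
    rw [Function.iterate_succ_apply']
    obtain ⟨i1, i2⟩ := ih _ rfl
    generalize (stp gc R m)^[i] (ini m f) = s at *
    obtain ⟨D, T⟩ := s
    rcases T with _ | ⟨l, T⟩
    · exact ⟨i1.trans (by omega), i2⟩
    simp only [stp, lcase]
    obtain ⟨u, rfl, hu⟩ := i2 l (by simp)
    rw [h1.toP]
    split
    · refine ⟨by simp at i1 ⊢; omega, fun l hl => i2 l ?_⟩
      simp only [List.mem_cons] at hl ⊢
      tauto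
    · rename_i g t e
      have hg := List.mem_filter.1 (e ▸ List.mem_cons_self : g ∈ List.filter _ _)
      obtain ⟨v, rfl⟩ := mem_cand hg.1
      have g2 := (of_decide_eq_true hg.2).2
      rw [len] at g2
      refine ⟨by simp at i1 ⊢; omega, fun l hl => ?_⟩
      simp only [List.mem_cons] at hl
      rcases hl with hl | rfl | rfl | hl
      · exact i2 l (Or.inl hl)
      · exact ⟨_, rfl, by omega⟩
      · exact ⟨_, rfl, (natDegree_le_natDegree (degree_divByMonic_le _ _)).trans hu⟩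
      · exact i2 l (Or.inr (List.mem_cons_of_mem _ hl))

include h1 h2 hW hR hG in
theorem pt_run (hm : PT m) (hF : PP m F) : PT fun a => run gc R (m a) (F a) := by
  have n := h1.deg α m F hF
  have c := h1.coe α m _ F n hF
  have i0 : PT fun a => ini (m a) (F a) := (PT.const []).pair (PT.ite (n.eq (PT.const 0))
    (PT.const []) (pt_l1 (h1.mul α m _ _ hm hF (h1.cst α m _ hm (pt_minv hm c)))))
  have hF' : PT fun a => rep (F a) := hF
  have it := PT.iterate (h := fun a => stp gc R (m a))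
    (pt_stp h1 h2 hW hR hG (hm.comp PT.id.fst) PT.id.snd) (hF'.append hF') i0
    (fun a => ((rep (F a) ++ rep (F a)).length + 1) *
      ((rep (F a)).length * (4 * sz (m a) + 2) + 1 + 1) + 3)
    ((((Pb.length (hF'.append hF')).add (Pb.const 1)).mul ((((Pb.length hF').mul
      (((Pb.const 4).mul (Pb.sz hm)).add (Pb.const 2))).add (Pb.const 1)).add (Pb.const 1))).add
      (Pb.const 3)) fun a i hi => by
      obtain ⟨i1, i2⟩ := inv1 h1 gc R (m a) (F a) i _ rfl
      have b : ∀ l, l ∈ ((stp gc R (m a))^[i] (ini (m a) (F a))).1 ∨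
          l ∈ ((stp gc R (m a))^[i] (ini (m a) (F a))).2 →
          sz l ≤ (rep (F a)).length * (4 * sz (m a) + 2) + 1 := fun l hl => by
        obtain ⟨u, rfl, hu⟩ := i2 l hl
        refine (h1.szr _ u).trans ?_
        rw [len]
        gcongr
      have b1 := sz_list_le fun l hl => b l (Or.inl hl)
      have b2 := sz_list_le fun l hl => b l (Or.inr hl)
      have b3 := Nat.mul_le_mul_right ((rep (F a)).length * (4 * sz (m a) + 2) + 1 + 1)
        (i1.trans (Nat.add_le_add_right hi 1))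
      rw [sz_pair']
      rw [add_mul] at b3
      omega
  exact (pt_l1 c).cons it.fst

include h1 h2 hW hR hG in
theorem pt_alg : PT (alg gc R) := by
  have hm : PT fun w : List ℕ => w.headD 0 - 1 := (PT.id.headD (PT.const 0)).pred
  exact pt_run h1 h2 hW hR hG hm (h1.ofl _ _ _ hm PT.id.tail)

end pt

theorem cuts_congr {p : ℕ} {f u v : (ZMod p)[X]} (e : f ∣ u - v) (h : Cuts f v) : Cuts f u := by
  obtain ⟨⟨g, g1, g2, g3⟩, h⟩ := h
  refine ⟨⟨g, g1, g2, by simpa using (g2.trans e).add g3⟩, fun k => h ?_⟩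
  simpa using k.sub e

theorem pwm_dvd {p : ℕ} {f : (ZMod p)[X]} (hf : f.Monic) (u : (ZMod p)[X]) (e : ℕ) :
    f ∣ pwm u f e - u ^ e := by
  rw [pwm, if_pos hf, modByMonic_eq_sub_mul_div]
  simp

theorem trc_dvd {m : ℕ} {f : (ZMod (m + 1))[X]} (hf : f.Monic) {d : ℕ} (hd : d ≤ f.natDegree)
    (j : ℕ) : f ∣ trc f d j - ∑ i ∈ Finset.range d, X ^ (j * (m + 1) ^ i) := by
  rw [trc, min_eq_left (by omega), ← List.sum_toFinset _ List.nodup_range, List.toFinset_range,
    ← Finset.sum_sub_distrib]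
  refine Finset.dvd_sum fun i hi => ?_
  rw [min_eq_left (by have := Finset.mem_range.1 hi; omega)]
  exact pwm_dvd hf _ _

theorem few_dvd {p : ℕ} {f g : (ZMod p)[X]} (h : Few f) (e : g ∣ f) : Few g := fun d =>
  le_trans (Set.encard_le_encard fun _ hu => by
    exact ⟨hu.1, hu.2.1, hu.2.2.1.trans e, hu.2.2.2⟩) (h d)

section ok

variable (h1 : PA1Stmt) {gc : GC} {R : RR} {m : ℕ} [hp : Fact (m + 1).Prime]
  (hG : ∀ f g : (ZMod (m + 1))[X], f.Monic → (gc m f g).Monic ∧
      gc m f g ∣ f ∧ gc m f g ∣ g ∧ ∀ d, d ∣ f → d ∣ g → d ∣ gc m f g)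
  (hR : ∀ s1 s2 s3 s4 : ℕ, 3 < m + 1 → ∀ y1 y2 y3 y4 : ZMod (m + 1),
    (s1 : ZMod (m + 1)) = y1 + y2 + y3 + y4 →
    (s2 : ZMod (m + 1)) = y1 ^ 2 + y2 ^ 2 + y3 ^ 2 + y4 ^ 2 →
    (s3 : ZMod (m + 1)) = y1 ^ 3 + y2 ^ 3 + y3 ^ 3 + y4 ^ 3 →
    (s4 : ZMod (m + 1)) = y1 ^ 4 + y2 ^ 4 + y3 ^ 4 + y4 ^ 4 →
    ∃ c ∈ R (m, s1, s2, s3, s4), (c : ZMod (m + 1)) = y1)

include hG in
theorem good {f u : (ZMod (m + 1))[X]} (hf : f.Monic) (h : Cuts f u) :
    1 < (rep (gc m f u)).length ∧ (rep (gc m f u)).length ≤ f.natDegree := by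
  obtain ⟨g1, g2, g3, g4⟩ := hG f u hf
  obtain ⟨⟨g, i1, i2, i3⟩, h⟩ := h
  rw [len]
  have a1 := natDegree_le_of_dvd (g4 g i2 i3) g1.ne_zero
  have a2 := i1.natDegree_pos
  have a3 := natDegree_le_of_dvd g2 hf.ne_zero
  have a4 : (gc m f u).natDegree ≠ f.natDegree := fun e =>
    h (eq_of_monic_of_dvd_of_natDegree_le g1 hf g2 e.ge ▸ g3)
  omega

include hG hR in
theorem found {f : (ZMod (m + 1))[X]} (hf : f.Monic) (h0 : 0 < f.natDegree) (hi : ¬ Irreducible f)
    (hF : Few f) : ∃ g ∈ cand gc R m f, 1 < g.length ∧ g.length ≤ f.natDegree := by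
  obtain ⟨d, d1, d2, h | ⟨j, hj, y1, y2, y3, y4, h, hs⟩⟩ := splS (m + 1) hp.out f hf h0 hi hF
  · refine ⟨_, ?_, good hG hf (cuts_congr
      (u := pwm X f ((m + 1) ^ min d (f.natDegree + 1)) - X) ?_ h)⟩
    · simp only [cand, List.mem_flatMap, List.mem_cons]
      exact ⟨d, List.mem_range.2 (by omega), Or.inl rfl⟩
    · rw [min_eq_left (by omega), sub_sub_sub_cancel_right]
      exact pwm_dvd hf _ _
  have e := trc_dvd hf d2 j
  obtain ⟨c, c1, c2⟩ : ∃ c ∈ List.range (f.natDegree + 1 + 3) ++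
      R (m, ps f d j 1, ps f d j 2, ps f d j 3, ps f d j 4), (c : ZMod (m + 1)) = y1 := by
    by_cases k : m + 1 ≤ f.natDegree + 3
    · exact ⟨y1.val, List.mem_append_left _ (List.mem_range.2 (by have := y1.val_lt; omega)),
        ZMod.natCast_zmod_val y1⟩
    have d0 : (d : ZMod (m + 1)) ≠ 0 := fun z => by
      have := Nat.le_of_dvd d1 ((ZMod.natCast_eq_zero_iff d _).1 z)
      omega
    have q : ∀ k, 1 ≤ k → (ps f d j k : ZMod (m + 1)) = y1 ^ k + y2 ^ k + y3 ^ k + y4 ^ k :=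
      fun k hk => by
        have a1 := cast_minv m d
        rw [if_neg d0] at a1
        rw [ps, Nat.cast_mul, ZMod.natCast_zmod_val, modByMonic_eq_of_dvd_sub hf
          (p₂ := (∑ i ∈ Finset.range d, X ^ (j * (m + 1) ^ i)) ^ k * derivative f), hs k hk]
        · linear_combination (y1 ^ k + y2 ^ k + y3 ^ k + y4 ^ k) * a1
        · rw [← sub_mul]
          exact (e.trans (sub_dvd_pow_sub_pow _ _ k)).mul_right _
    obtain ⟨c, c1, c2⟩ := hR _ _ _ _ (by omega) y1 y2 y3 y4 (by simpa using q 1 le_rfl)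
      (q 2 (by omega)) (q 3 (by omega)) (q 4 (by omega))
    exact ⟨c, List.mem_append_right _ c1, c2⟩
  refine ⟨_, ?_, good hG hf (cuts_congr (u := trc f d j - C (c : ZMod (m + 1))) ?_ h)⟩
  · simp only [cand, List.mem_flatMap, List.mem_cons, List.mem_map]
    exact ⟨d, List.mem_range.2 (by omega), Or.inr ⟨j, List.mem_range.2 (by omega), c, c1, rfl⟩⟩
  · rw [c2, sub_sub_sub_cancel_right]
    exact e

include h1 hG hR in
theorem inv2 {f : (ZMod (m + 1))[X]} (hF : Few f) (s0 : St) (n i : ℕ) (z1 : s0.1 = [])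
    (z2 : ∀ l ∈ s0.2, (toPoly (m + 1) l).Monic ∧ 0 < (toPoly (m + 1) l).natDegree)
    (z3 : (s0.2.map (toPoly (m + 1))).prod = f)
    (z4 : (s0.2.map fun l => 2 * (toPoly (m + 1) l).natDegree - 1).sum ≤ n) :
    ∀ s, s = (stp gc R m)^[i] s0 →
      (∀ l ∈ s.1, (toPoly (m + 1) l).Monic ∧ Irreducible (toPoly (m + 1) l)) ∧
      (∀ l ∈ s.2, (toPoly (m + 1) l).Monic ∧ 0 < (toPoly (m + 1) l).natDegree) ∧
      (s.1.map (toPoly (m + 1))).prod * (s.2.map (toPoly (m + 1))).prod = f ∧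
      (s.2 = [] ∨ (s.2.map fun l => 2 * (toPoly (m + 1) l).natDegree - 1).sum + i ≤ n) := by
  induction i with
  | zero =>
    rintro s rfl
    exact ⟨by simp [z1], z2, by simp [z1, z3], Or.inr z4⟩
  | succ i ih =>
    rintro s' rfl
    rw [Function.iterate_succ_apply']
    obtain ⟨i1, i2, i3, i4⟩ := ih _ rfl
    generalize (stp gc R m)^[i] s0 = s at *
    obtain ⟨D, T⟩ := s
    rcases T with _ | ⟨l, T⟩
    · exact ⟨i1, i2, i3, Or.inl rfl⟩
    have i4 := i4.resolve_left (by simp)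
    obtain ⟨a1, a2⟩ := i2 l (by simp)
    simp only [List.map_cons, List.sum_cons, List.prod_cons] at i3 i4
    simp only [stp, lcase]
    split
    · rename_i e
      refine ⟨fun x hx => ?_, fun x hx => i2 x (List.mem_cons_of_mem _ hx), ?_,
        Or.inr (by dsimp only; omega)⟩
      · rcases List.mem_cons.1 hx with rfl | hx
        · refine ⟨a1, by_contra fun hi => ?_⟩
          obtain ⟨g, g1, g2⟩ := found hG hR a1 a2 hi
            (few_dvd hF (i3 ▸ (dvd_mul_right _ _).mul_left _))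
          exact List.filter_eq_nil_iff.1 e g g1 (decide_eq_true g2)
        · exact i1 x hx
      · simp only [List.map_cons, List.prod_cons]
        rw [← i3]; ring
    · rename_i g t e
      have hg := List.mem_filter.1 (e ▸ List.mem_cons_self : g ∈ List.filter _ _)
      obtain ⟨v, rfl⟩ := mem_cand hg.1
      obtain ⟨g1, g2⟩ := of_decide_eq_true hg.2
      rw [len] at g1 g2
      obtain ⟨b1, b2, -, -⟩ := hG (toPoly (m + 1) l) v a1
      have b3 := modByMonic_add_div (toPoly (m + 1) l) (gc m (toPoly (m + 1) l) v)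
      rw [(modByMonic_eq_zero_iff_dvd b1).2 b2, zero_add] at b3
      have b4 := natDegree_divByMonic (toPoly (m + 1) l) b1
      refine ⟨i1, fun x hx => ?_, ?_, Or.inr ?_⟩
      · simp only [List.mem_cons] at hx
        rcases hx with rfl | rfl | hx
        · rw [h1.toP]; exact ⟨b1, by omega⟩
        · rw [h1.toP, h1.toP]; exact ⟨b1.of_mul_monic_left (b3.symm ▸ a1), by omega⟩
        · exact i2 x (List.mem_cons_of_mem _ hx)
      · simp only [List.map_cons, List.prod_cons, h1.toP]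
        rw [← mul_assoc (gc _ _ _), b3, i3]
      · simp only [List.map_cons, List.sum_cons, h1.toP]
        omega

include h1 hG hR in
theorem run_ok {f : (ZMod (m + 1))[X]} (f0 : f ≠ 0) (hF : Few f) :
    IsFactorization (m + 1) f (run gc R m f) := by
  have c0 : (((f.coeff f.natDegree).val : ℕ) : ZMod (m + 1)) ≠ 0 := by
    rw [ZMod.natCast_zmod_val]; exact leadingCoeff_ne_zero.2 f0
  have c1 := cast_minv m (f.coeff f.natDegree).val
  rw [if_neg c0] at c1
  set u : ZMod (m + 1) := ((minv m (f.coeff f.natDegree).val : ℕ) : ZMod (m + 1)) with hu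
  have u0 : u ≠ 0 := left_ne_zero_of_mul_eq_one c1
  have mo : (f * C u).Monic := by
    rw [Monic, leadingCoeff_mul, leadingCoeff_C, mul_comm, ← c1, ZMod.natCast_zmod_val]; rfl
  have dg : (f * C u).natDegree = f.natDegree := natDegree_mul_C u0
  have hF' : Few (f * C u) := few_dvd hF ⟨C ((f.coeff f.natDegree).val : ZMod (m + 1)), by
    rw [mul_assoc, ← map_mul, c1, map_one, mul_one]⟩
  obtain ⟨i1, -, i3, i4⟩ := inv2 h1 hG hR hF' (ini m f) (2 * f.natDegree)
    (rep f ++ rep f).length rfl (fun l hl => by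
      simp only [ini] at hl
      split_ifs at hl with k
      · simp at hl
      · rw [List.mem_singleton.1 hl, h1.toP]; exact ⟨mo, dg.symm ▸ Nat.pos_of_ne_zero k⟩)
    (by
      simp only [ini]
      split_ifs with k
      · exact (mo.natDegree_eq_zero.1 (dg.trans k)).symm
      · rw [List.map_singleton, List.prod_singleton, h1.toP])
    (by
      simp only [ini]
      split_ifs with k
      · simp
      · rw [List.map_singleton, List.sum_singleton, h1.toP, ← hu, dg]; omega) _ rfl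
  have e := i4.resolve_right (by rw [List.length_append, len]; omega)
  rw [e, List.map_nil, List.prod_nil, mul_one] at i3
  refine ⟨_, _, rfl, ?_, i1⟩
  rw [i3, mul_left_comm, ← map_mul, mul_comm _ u, c1, map_one, mul_one]

end ok

end FINm

open FINm in
theorem finS (h1 : PA1Stmt) (h2 : PA2Stmt) (hW : PWStmt) (hG : GCStmt) (hR : RTStmt) :
    ∃ F : List ℕ → List (List ℕ), PT F ∧ ∀ (p : ℕ) (f : List ℕ), p.Prime → toPoly p f ≠ 0 →
      Few (toPoly p f) → IsFactorization p (toPoly p f) (F (p :: f)) := by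
  obtain ⟨gc, g1, g2⟩ := hG
  obtain ⟨R, r1, r2⟩ := hR
  refine ⟨FINm.alg gc R, FINm.pt_alg h1 h2 hW r1 g1, fun p f hp f0 hF => ?_⟩
  obtain ⟨m, rfl⟩ : ∃ m, p = m + 1 := ⟨p - 1, by have := hp.pos; omega⟩
  have := Fact.mk hp
  exact run_ok h1 (g2 m hp) (fun s1 s2 s3 s4 => r2 m s1 s2 s3 s4 hp) f0 hF

end Vale.Agent.P319
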