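import Vale.Agent.P319.EV
import Vale.Agent.P319.Defs2

/-! P319: the algorithm for all polynomials. -/

namespace Vale.Agent.P319

open Vale.Agent.Lib.H24.T Vale.Agent.P338.PTX Polynomial FINm EVm

namespace FIN2m

abbrev CD : Type := (m : ℕ) → (ZMod (m + 1))[X] → List (List ℕ)

noncomputable section

def stp (cd : CD) (m : ℕ) (s : St) : St :=
  lcase s.2 s fun l T =>
    lcase ((cd m (toPoly (m + 1) l)).filter fun g =>
        decide (1 < g.length ∧ g.length ≤ (toPoly (m + 1) l).natDegree)) (l :: s.1, T)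
      fun g _ => (s.1, g :: rep (toPoly (m + 1) l /ₘ toPoly (m + 1) g) :: T)

def run (cd : CD) (m : ℕ) (f : (ZMod (m + 1))[X]) : List (List ℕ) :=
  [(f.coeff f.natDegree).val] :: ((stp cd m)^[(rep f ++ rep f).length] (ini m f)).1

def alg (cd : CD) (w : List ℕ) : List (List ℕ) :=
  run cd (w.headD 0 - 1) (toPoly (w.headD 0 - 1 + 1) w.tail)

end

section pt

variable (h1 : PA1Stmt) (h2 : PA2Stmt) {cd : CD}
  (hC : ∀ (α : Type) [Enc α] (m : α → ℕ) (F : (a : α) → (ZMod (m a + 1))[X]), PT m →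
    PP m F → PT fun a => cd (m a) (F a))
  (hM : ∀ m f g, g ∈ cd m f → ∃ u : (ZMod (m + 1))[X], g = rep u)
variable {α : Type} [Enc α] {m : α → ℕ} {F : (a : α) → (ZMod (m a + 1))[X]}

include h1 h2 hC in
theorem pt_stp (hm : PT m) {s : α → St} (hs : PT s) : PT fun a => stp cd (m a) (s a) := by
  have m1 : PT fun q : α × List ℕ × List (List ℕ) => m q.1 := hm.comp PT.id.fst
  have F1 := h1.ofl _ _ _ m1 PT.id.snd.fst
  have s1 : PT fun q : α × List ℕ × List (List ℕ) => (s q.1).1 := (hs.comp PT.id.fst).fst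
  have c1 := PT.filter (g := fun (q : α × List ℕ × List (List ℕ)) (g : List ℕ) =>
      decide (1 < g.length ∧ g.length ≤ (toPoly (m q.1 + 1) q.2.1).natDegree))
    (hC _ _ _ m1 F1)
    (dand ((PT.const 1).lt PT.id.snd.length)
      (PT.id.snd.length.le ((h1.deg _ _ _ F1).comp PT.id.fst)))
  have m2 : PT fun q : (α × List ℕ × List (List ℕ)) × List ℕ × List (List ℕ) => m q.1.1 :=
    m1.comp PT.id.fst
  have d2 := h2.div _ _ _ _ m2 (h1.ofl _ _ _ m2 PT.id.fst.snd.fst) (h1.ofl _ _ _ m2 PT.id.snd.fst)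
  exact PT.lcase hs.snd hs (PT.lcase c1 ((PT.id.snd.fst.cons s1).pair PT.id.snd.snd)
    ((s1.comp PT.id.fst).pair (PT.id.snd.fst.cons (PT.cons d2 PT.id.fst.snd.snd))))

include h1 hM in
theorem inv1 (m : ℕ) (f : (ZMod (m + 1))[X]) (i : ℕ) :
    ∀ s, s = (stp cd m)^[i] (ini m f) → s.1.length + s.2.length ≤ i + 1 ∧
      ∀ l, l ∈ s.1 ∨ l ∈ s.2 → ∃ u : (ZMod (m + 1))[X], l = rep u ∧ u.natDegree ≤ f.natDegree := by
  induction i with
  | zero =>
    rintro s rfl
    simp only [Function.iterate_zero, id, ini]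
    split_ifs
    · simp
    · refine ⟨by simp, fun l hl => ⟨_, List.mem_singleton.1 (hl.resolve_left List.not_mem_nil),
        natDegree_mul_C_le _ _⟩⟩
  | succ i ih =>
    rintro s' rfl
    rw [Function.iterate_succ_apply']
    obtain ⟨i1, i2⟩ := ih _ rfl
    generalize (stp cd m)^[i] (ini m f) = s at *
    obtain ⟨D, T⟩ := s
    rcases T with _ | ⟨l, T⟩
    · exact ⟨i1.trans (by omega), i2⟩
    simp only [stp, lcase]
    obtain ⟨u, rfl, hu⟩ := i2 l (by simp)
    rw [h1.toP]
    split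
    · refine ⟨by simp at i1 ⊢; omega, fun l hl => i2 l ?_⟩
      simp only [List.mem_cons] at hl ⊢
      tauto
    · rename_i g t e
      have hg := List.mem_filter.1 (e ▸ List.mem_cons_self : g ∈ List.filter _ _)
      obtain ⟨v, rfl⟩ := hM _ _ _ hg.1
      have g2 := (of_decide_eq_true hg.2).2
      rw [len] at g2
      refine ⟨by simp at i1 ⊢; omega, fun l hl => ?_⟩
      simp only [List.mem_cons] at hl
      rcases hl with hl | rfl | rfl | hl
      · exact i2 l (Or.inl hl)
      · exact ⟨_, rfl, by omega⟩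
      · exact ⟨_, rfl, (natDegree_le_natDegree (degree_divByMonic_le _ _)).trans hu⟩
      · exact i2 l (Or.inr (List.mem_cons_of_mem _ hl))

include h1 h2 hC hM in
theorem pt_run (hm : PT m) (hF : PP m F) : PT fun a => run cd (m a) (F a) := by
  have n := h1.deg α m F hF
  have c := h1.coe α m _ F n hF
  have i0 : PT fun a => ini (m a) (F a) := (PT.const []).pair (PT.ite (n.eq (PT.const 0))
    (PT.const []) (pt_l1 (h1.mul α m _ _ hm hF (h1.cst α m _ hm (pt_minv hm c)))))
  have hF' : PT fun a => rep (F a) := hF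
  have it := PT.iterate (h := fun a => stp cd (m a))
    (pt_stp h1 h2 hC (hm.comp PT.id.fst) PT.id.snd) (hF'.append hF') i0
    (fun a => ((rep (F a) ++ rep (F a)).length + 1) *
      ((rep (F a)).length * (4 * sz (m a) + 2) + 1 + 1) + 3)
    ((((Pb.length (hF'.append hF')).add (Pb.const 1)).mul ((((Pb.length hF').mul
      (((Pb.const 4).mul (Pb.sz hm)).add (Pb.const 2))).add (Pb.const 1)).add (Pb.const 1))).add
      (Pb.const 3)) fun a i hi => by
      obtain ⟨i1, i2⟩ := inv1 h1 hM (m a) (F a) i _ rfl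
      have b : ∀ l, l ∈ ((stp cd (m a))^[i] (ini (m a) (F a))).1 ∨
          l ∈ ((stp cd (m a))^[i] (ini (m a) (F a))).2 →
          sz l ≤ (rep (F a)).length * (4 * sz (m a) + 2) + 1 := fun l hl => by
        obtain ⟨u, rfl, hu⟩ := i2 l hl
        refine (h1.szr _ u).trans ?_
        rw [len]
        gcongr
      have b1 := sz_list_le fun l hl => b l (Or.inl hl)
      have b2 := sz_list_le fun l hl => b l (Or.inr hl)
      have b3 := Nat.mul_le_mul_right ((rep (F a)).length * (4 * sz (m a) + 2) + 1 + 1)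
        (i1.trans (Nat.add_le_add_right hi 1))
      rw [sz_pair']
      rw [add_mul] at b3
      omega
  exact (pt_l1 c).cons it.fst

include h1 h2 hC hM in
theorem pt_alg : PT (alg cd) := by
  have hm : PT fun w : List ℕ => w.headD 0 - 1 := (PT.id.headD (PT.const 0)).pred
  exact pt_run h1 h2 hC hM hm (h1.ofl _ _ _ hm PT.id.tail)

end pt

section ok

variable (h1 : PA1Stmt) {cd : CD} {m : ℕ} [hp : Fact (m + 1).Prime] {Q : (ZMod (m + 1))[X] → Prop}
  (hM : ∀ f g, f.Monic → g ∈ cd m f → ∃ u : (ZMod (m + 1))[X], g = rep u ∧ u.Monic ∧ u ∣ f)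
  (hQ : ∀ f : (ZMod (m + 1))[X], f.Monic → 0 < f.natDegree → ¬ Q f →
    ∃ g ∈ cd m f, 1 < g.length ∧ g.length ≤ f.natDegree)

include h1 hM hQ in
theorem inv2 {f : (ZMod (m + 1))[X]} (s0 : St) (n i : ℕ) (z1 : s0.1 = [])
    (z2 : ∀ l ∈ s0.2, (toPoly (m + 1) l).Monic ∧ 0 < (toPoly (m + 1) l).natDegree)
    (z3 : (s0.2.map (toPoly (m + 1))).prod = f)
    (z4 : (s0.2.map fun l => 2 * (toPoly (m + 1) l).natDegree - 1).sum ≤ n) :
    ∀ s, s = (stp cd m)^[i] s0 →
      (∀ l ∈ s.1, (toPoly (m + 1) l).Monic ∧ Q (toPoly (m + 1) l)) ∧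
      (∀ l ∈ s.2, (toPoly (m + 1) l).Monic ∧ 0 < (toPoly (m + 1) l).natDegree) ∧
      (s.1.map (toPoly (m + 1))).prod * (s.2.map (toPoly (m + 1))).prod = f ∧
      (s.2 = [] ∨ (s.2.map fun l => 2 * (toPoly (m + 1) l).natDegree - 1).sum + i ≤ n) := by
  induction i with
  | zero =>
    rintro s rfl
    exact ⟨by simp [z1], z2, by simp [z1, z3], Or.inr z4⟩
  | succ i ih =>
    rintro s' rfl
    rw [Function.iterate_succ_apply']
    obtain ⟨i1, i2, i3, i4⟩ := ih _ rfl
    generalize (stp cd m)^[i] s0 = s at *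
    obtain ⟨D, T⟩ := s
    rcases T with _ | ⟨l, T⟩
    · exact ⟨i1, i2, i3, Or.inl rfl⟩
    have i4 := i4.resolve_left (by simp)
    obtain ⟨a1, a2⟩ := i2 l (by simp)
    simp only [List.map_cons, List.sum_cons, List.prod_cons] at i3 i4
    simp only [stp, lcase]
    split
    · rename_i e
      refine ⟨fun x hx => ?_, fun x hx => i2 x (List.mem_cons_of_mem _ hx), ?_,
        Or.inr (by dsimp only; omega)⟩
      · rcases List.mem_cons.1 hx with rfl | hx
        · refine ⟨a1, by_contra fun hi => ?_⟩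
          obtain ⟨g, g1, g2⟩ := hQ _ a1 a2 hi
          exact List.filter_eq_nil_iff.1 e g g1 (decide_eq_true g2)
        · exact i1 x hx
      · simp only [List.map_cons, List.prod_cons]
        rw [← i3]; ring
    · rename_i g t e
      have hg := List.mem_filter.1 (e ▸ List.mem_cons_self : g ∈ List.filter _ _)
      obtain ⟨v, rfl, b1, b2⟩ := hM _ _ a1 hg.1
      obtain ⟨g1, g2⟩ := of_decide_eq_true hg.2
      rw [len] at g1 g2
      have b3 := modByMonic_add_div (toPoly (m + 1) l) v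
      rw [(modByMonic_eq_zero_iff_dvd b1).2 b2, zero_add] at b3
      have b4 := natDegree_divByMonic (toPoly (m + 1) l) b1
      refine ⟨i1, fun x hx => ?_, ?_, Or.inr ?_⟩
      · simp only [List.mem_cons] at hx
        rcases hx with rfl | rfl | hx
        · rw [h1.toP]; exact ⟨b1, by omega⟩
        · rw [h1.toP, h1.toP]; exact ⟨b1.of_mul_monic_left (b3.symm ▸ a1), by omega⟩
        · exact i2 x (List.mem_cons_of_mem _ hx)
      · simp only [List.map_cons, List.prod_cons, h1.toP]
        rw [← mul_assoc v, b3, i3]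
      · simp only [List.map_cons, List.sum_cons, h1.toP]
        omega

include h1 hM hQ in
theorem run_ok {f : (ZMod (m + 1))[X]} (f0 : f ≠ 0) :
    ∃ (c : ℕ) (L : List (List ℕ)), run cd m f = [c] :: L ∧
      f = C (c : ZMod (m + 1)) * (L.map (toPoly (m + 1))).prod ∧
      ∀ g ∈ L, (toPoly (m + 1) g).Monic ∧ Q (toPoly (m + 1) g) := by
  have c0 : (((f.coeff f.natDegree).val : ℕ) : ZMod (m + 1)) ≠ 0 := by
    rw [ZMod.natCast_zmod_val]; exact leadingCoeff_ne_zero.2 f0
  have c1 := cast_minv m (f.coeff f.natDegree).val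
  rw [if_neg c0] at c1
  set u : ZMod (m + 1) := ((minv m (f.coeff f.natDegree).val : ℕ) : ZMod (m + 1)) with hu
  have u0 : u ≠ 0 := left_ne_zero_of_mul_eq_one c1
  have mo : (f * C u).Monic := by
    rw [Monic, leadingCoeff_mul, leadingCoeff_C, mul_comm, ← c1, ZMod.natCast_zmod_val]; rfl
  have dg : (f * C u).natDegree = f.natDegree := natDegree_mul_C u0
  obtain ⟨i1, -, i3, i4⟩ := inv2 h1 hM hQ (f := f * C u) (ini m f) (2 * f.natDegree)
    (rep f ++ rep f).length rfl (fun l hl => by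
      simp only [ini] at hl
      split_ifs at hl with k
      · simp at hl
      · rw [List.mem_singleton.1 hl, h1.toP]; exact ⟨mo, dg.symm ▸ Nat.pos_of_ne_zero k⟩)
    (by
      simp only [ini]
      split_ifs with k
      · exact (mo.natDegree_eq_zero.1 (dg.trans k)).symm
      · rw [List.map_singleton, List.prod_singleton, h1.toP])
    (by
      simp only [ini]
      split_ifs with k
      · simp
      · rw [List.map_singleton, List.sum_singleton, h1.toP, ← hu, dg]; omega) _ rfl
  have e := i4.resolve_right (by rw [List.length_append, len]; omega)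
  rw [e, List.map_nil, List.prod_nil, mul_one] at i3
  refine ⟨_, _, rfl, ?_, i1⟩
  rw [i3, mul_left_comm, ← map_mul, mul_comm _ u, c1, map_one, mul_one]

end ok

end FIN2m

end Vale.Agent.P319
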