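import Vale.Agent.P319.FIN2

/-! P319: correctness of the candidates. -/

namespace Vale.Agent.P319

open Vale.Agent.Lib.H24.T Vale.Agent.P338.PTX Polynomial FINm EVm SPL2m

def NRStmt : Prop := ∃ L : ℕ → List ℕ, PT L ∧ ∀ m : ℕ, (m + 1).Prime → m + 1 ≠ 2 →
  ∃ g ∈ L m, ¬ IsSquare (g : ZMod (m + 1))

namespace FIN3m

theorem cut2 {p : ℕ} [Fact p.Prime] {f g g' t : (ZMod p)[X]} {y y' : ZMod p} (i : Irreducible g)
    (i' : Irreducible g') (d : g ∣ f) (d' : g' ∣ f) (h : g ∣ t - C y) (h' : g' ∣ t - C y')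
    (ne : y ≠ y') : Cuts f (t - C y) := by
  refine ⟨⟨g, i, d, h⟩, fun k => ?_⟩
  have := (d'.trans k).sub h'
  rw [sub_sub_sub_cancel_left, ← map_sub] at this
  exact i'.not_isUnit (isUnit_of_dvd_unit this (isUnit_C.2 (IsUnit.mk0 _ (sub_ne_zero.2 ne.symm))))

variable {gc : GC} {R : RR} {nw : NW} {sg : SG} {L : ℕ → List ℕ} {m : ℕ} [hp : Fact (m + 1).Prime]
  (hG : ∀ f g : (ZMod (m + 1))[X], f.Monic → (gc m f g).Monic ∧
      gc m f g ∣ f ∧ gc m f g ∣ g ∧ ∀ d, d ∣ f → d ∣ g → d ∣ gc m f g)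
  (hR : ∀ s1 s2 s3 s4 : ℕ, 3 < m + 1 → ∀ y1 y2 y3 y4 : ZMod (m + 1),
    (s1 : ZMod (m + 1)) = y1 + y2 + y3 + y4 →
    (s2 : ZMod (m + 1)) = y1 ^ 2 + y2 ^ 2 + y3 ^ 2 + y4 ^ 2 →
    (s3 : ZMod (m + 1)) = y1 ^ 3 + y2 ^ 3 + y3 ^ 3 + y4 ^ 3 →
    (s4 : ZMod (m + 1)) = y1 ^ 4 + y2 ^ 4 + y3 ^ 4 + y4 ^ 4 →
    ∃ c ∈ R (m, s1, s2, s3, s4), (c : ZMod (m + 1)) = y1)
  (hN : ∀ l : List ℕ, l.length < m + 1 →
    ∀ (ι : Type) (s : Finset ι) (δ : ι → ZMod (m + 1)), s.card = l.length →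
      (∀ i < l.length, ((l.getD i 0 : ℕ) : ZMod (m + 1)) = ∑ x ∈ s, δ x ^ (i + 1)) →
      nw m l = ∏ x ∈ s, (X - C (δ x)))
  (hS : ∀ g : ℕ, m + 1 ≠ 2 → ¬ IsSquare (g : ZMod (m + 1)) →
    ∃ σ : ZMod (m + 1) → ℤ, σ 0 = 0 ∧ (∀ x, σ (-x) = -σ x) ∧ (∀ x, x ≠ 0 → σ x = 1 ∨ σ x = -1) ∧
      ∀ G : (ZMod (m + 1))[X], G.Monic → ∀ x, G.eval x = 0 → (sg m g G).eval x = σ x)
  (hL : m + 1 ≠ 2 → ∃ g ∈ L m, ¬ IsSquare (g : ZMod (m + 1)))

include hG hR hN hS hL in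
theorem found2 (f : (ZMod (m + 1))[X]) (hf : f.Monic) (h0 : 0 < f.natDegree)
    (hi : ¬ (Irreducible f ∨ IsBlock (m + 1) f)) :
    ∃ g ∈ FINm.cand gc R m f ++ cand2 gc nw sg L m f, 1 < g.length ∧ g.length ≤ f.natDegree := by
  classical
  obtain ⟨hi, hb⟩ := not_or.1 hi
  obtain ⟨d, d1, d2, h | ⟨S, mem, dg, pr, τ, t1, t2⟩⟩ := spl2 f hf h0
  · refine ⟨_, List.mem_append_left _ ?_, good hG hf (cuts_congr
      (u := pwm X f ((m + 1) ^ min d (f.natDegree + 1)) - X) ?_ h)⟩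
    · simp only [FINm.cand, List.mem_flatMap, List.mem_cons]
      exact ⟨d, List.mem_range.2 (by omega), Or.inl rfl⟩
    · rw [min_eq_left (by omega), sub_sub_sub_cancel_right]
      exact pwm_dvd hf _ _
  by_cases c4 : S.card ≤ 4
  · obtain ⟨g, g1, g2⟩ := found hG hR hf h0 hi fun e => le_trans
      (Set.encard_le_encard (t := (S : Set (ZMod (m + 1))[X])) fun u hu =>
        (mem u).2 ⟨hu.2.1, hu.1, hu.2.2.1⟩)
      (by rw [Set.encard_coe_eq_coe_finsetCard]; exact_mod_cast c4)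
    exact ⟨g, List.mem_append_left _ g1, g2⟩
  have hSm : ∀ g ∈ S, g.Monic ∧ g.natDegree = d := fun g hg => ⟨((mem g).1 hg).2.1, dg g hg⟩
  have ev : Even S.card := Nat.not_odd_iff_even.1 fun o => hb ⟨d, S, o, by omega,
    fun u hu => ⟨((mem u).1 hu).2.1, ((mem u).1 hu).1, dg u hu⟩, pr⟩
  have kn := deg_eq d1 hSm pr
  have k1 : S.card ≤ f.natDegree := by nlinarith
  suffices ∃ g ∈ cand2 gc nw sg L m f, 1 < g.length ∧ g.length ≤ f.natDegree from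
    this.imp fun g h => ⟨List.mem_append_right _ h.1, h.2⟩
  by_cases k : m + 1 ≤ (f.natDegree + 1) ^ 3
  · obtain ⟨g, hg, g', hg', ne⟩ := Finset.one_lt_card.1 (show 1 < S.card by omega)
    obtain ⟨j, hj, hne⟩ := t2 g hg g' hg' ne
    have e : ∀ u ∈ S, u ∣ trc f d j - C (τ u (X ^ j)) := fun u hu => by
      have a1 := t1 u hu (X ^ j)
      simp only [← pow_mul] at a1
      simpa using (((mem u).1 hu).2.2.trans (trc_dvd hf d2 j)).add a1
    have a := cut2 ((mem g).1 hg).1 ((mem g').1 hg').1 ((mem g).1 hg).2.2 ((mem g').1 hg').2.2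
      (e g hg) (e g' hg') hne
    rw [← ZMod.natCast_zmod_val (τ g (X ^ j))] at a
    refine ⟨_, ?_, good hG hf a⟩
    simp only [cand2, List.mem_flatMap, List.mem_append, List.mem_map]
    exact ⟨d, List.mem_range.2 (by omega), _, List.mem_range.2 ((ZMod.val_lt _).trans_le k),
      Or.inl ⟨j, List.mem_range.2 (by omega), rfl⟩⟩
  have n3 : (f.natDegree + 1) ^ 3 = f.natDegree ^ 3 + 3 * f.natDegree ^ 2 + 3 * f.natDegree + 1 := by
    ring
  have cst : ∀ a : ℕ, 0 < a → a < m + 1 → (a : ZMod (m + 1)) ≠ 0 := fun a a0 a1 z => by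
    have := Nat.le_of_dvd a0 ((ZMod.natCast_eq_zero_iff a _).1 z)
    omega
  have d0 := cst d d1 (by omega)
  obtain ⟨c, c1, c2⟩ := sep (p := m + 1) S f.natDegree k1 (by omega) (fun g j => τ g (X ^ j)) t2
  set y : (ZMod (m + 1))[X] → ZMod (m + 1) :=
    fun g => ∑ j ∈ Finset.range f.natDegree, (c : ZMod (m + 1)) ^ j * τ g (X ^ j) with hy
  have e : ∀ u ∈ S, u ∣ tt f d c - C (y u) := fun u hu => by
    have a1 := t1 u hu (∑ j ∈ Finset.range f.natDegree, (c : ZMod (m + 1)) ^ j • X ^ j)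
    simp only [map_sum (τ u), map_smul, smul_eq_mul] at a1
    have a2 := (tt_dvd hf ((mem u).1 hu).2.2 d2 c).add a1
    rwa [sub_add_sub_cancel] at a2
  obtain ⟨g, g1, g2⟩ := hL (by omega)
  obtain ⟨σ, s0, s1, s2, s3⟩ := hS g (by omega) g2
  have pl1 : (pl f d (tt f d c)).length = S.card ^ 2 := by
    rw [pl, List.length_map, List.length_range, zs_len d1 hSm pr]
  have G1 := hN (pl f d (tt f d c)) (by
      have := Nat.pow_le_pow_left k1 2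
      omega) _ (S ×ˢ S) (fun x => y x.1 - y x.2)
    (by rw [pl1, Finset.card_product, sq]) (pl_eq d1 d0 hSm pr e)
  have D1 : ∀ u ∈ S, u ∣ dd nw sg f d c g - C ((∑ v ∈ S, σ (y u - y v) : ℤ) : ZMod (m + 1)) :=
    fun u hu => by
      rw [dd]
      convert dl_dvd d1 d0 hSm pr e (sg m g (nw m (pl f d (tt f d c)))) u hu using 3
      rw [Int.cast_sum]
      refine Finset.sum_congr rfl fun v hv => (s3 _ ?_ _ ?_).symm
      · rw [G1]; exact monic_prod_of_monic _ _ fun _ _ => monic_X_sub_C _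
      · rw [G1, eval_prod]
        exact Finset.prod_eq_zero (i := (u, v)) (Finset.mem_product.2 ⟨hu, hv⟩) (by simp)
  obtain ⟨u, hu, u', hu', a, a', a1, a2, a3, a4, a5⟩ :=
    tour S ev (Finset.card_pos.1 (by omega)) y c2 σ s0 s1 s2
  have b := cut2 ((mem u).1 hu).1 ((mem u').1 hu').1 ((mem u).1 hu).2.2 ((mem u').1 hu').2.2
    (D1 u hu) (D1 u' hu') (by
      rw [a4, a5]
      intro z
      refine cst (a + a') (by omega) (by omega) ?_
      push_cast at z ⊢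
      linear_combination z)
  rw [a4, Int.cast_natCast] at b
  refine ⟨_, ?_, good hG hf b⟩
  simp only [cand2, List.mem_flatMap, List.mem_append, List.mem_map]
  exact ⟨d, List.mem_range.2 (by omega), c, List.mem_range.2 (by omega),
    Or.inr ⟨g, g1, a, List.mem_range.2 (by omega), rfl⟩⟩

end FIN3m

theorem fin3S (h1 : PA1Stmt) (h2 : PA2Stmt) (hW : PWStmt) (hG : GCStmt) (hR : RTStmt)
    (hH : PHStmt) (hN : NWStmt) (hS : SGStmt) (hL : NRStmt) :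
    ∃ F : List ℕ → List (List ℕ), PT F ∧ ∀ (p : ℕ) (f : List ℕ), p.Prime → toPoly p f ≠ 0 →
      IsBlockFactorization p (toPoly p f) (F (p :: f)) := by
  obtain ⟨gc, g1, g2⟩ := hG
  obtain ⟨R, r1, r2⟩ := hR
  obtain ⟨nw, n1, n2⟩ := hN
  obtain ⟨sg, s1, s2⟩ := hS
  obtain ⟨L, l1, l2⟩ := hL
  have mm : ∀ m f g, g ∈ FINm.cand gc R m f ++ cand2 gc nw sg L m f → ∃ u, g = rep (gc m f u) :=
    fun m f g h => (List.mem_append.1 h).elim mem_cand mem_cand2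
  refine ⟨FIN2m.alg fun m f => FINm.cand gc R m f ++ cand2 gc nw sg L m f,
    FIN2m.pt_alg h1 h2 (fun α _ m F hm hF => (FINm.pt_cand h1 h2 hW r1 g1 hm hF).append
      (pt_cand2 h1 h2 hW hH l1 g1 n1 s1 hm hF))
      fun m f g h => (mm m f g h).elim fun u hu => ⟨_, hu⟩, fun p f hp f0 => ?_⟩
  obtain ⟨m, rfl⟩ : ∃ m, p = m + 1 := ⟨p - 1, by have := hp.pos; omega⟩
  have := Fact.mk hp
  exact FIN2m.run_ok h1 (Q := fun g => Irreducible g ∨ IsBlock (m + 1) g)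
    (fun f g hf h => (mm m f g h).elim fun u hu =>
      ⟨_, hu, (g2 m hp f u hf).1, (g2 m hp f u hf).2.1⟩)
    (FIN3m.found2 (g2 m hp) (fun s1 s2 s3 s4 => r2 m s1 s2 s3 s4 hp) (fun l => n2 m l hp)
      (fun g => s2 m g hp) (l2 m hp)) f0

end Vale.Agent.P319
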