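import Vale.Agent.P319.Spec4

/-! P319 wave 2: greatest common divisors in polynomial time. -/

namespace Vale.Agent.P319

open Vale.Agent.Lib.H24.T Polynomial

namespace GCm

noncomputable def mon (m : ℕ) (b : (ZMod (m + 1))[X]) : (ZMod (m + 1))[X] :=
  b * C ((minv m (b.coeff b.natDegree).val : ℕ) : ZMod (m + 1))

noncomputable def step (m : ℕ) (s : (ZMod (m + 1))[X] × (ZMod (m + 1))[X]) :
    (ZMod (m + 1))[X] × (ZMod (m + 1))[X] :=
  (if (s.2.coeff s.2.natDegree).val = 0 then s.1 else mon m s.2,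
    if (s.2.coeff s.2.natDegree).val = 0 then s.2 else s.1 %ₘ mon m s.2)

noncomputable def gc (m : ℕ) (f g : (ZMod (m + 1))[X]) : (ZMod (m + 1))[X] :=
  ((step m)^[g.natDegree + 2] (f, g)).1

noncomputable def H (m : ℕ) (s : List ℕ × List ℕ) : List ℕ × List ℕ :=
  (rep (step m (toPoly (m + 1) s.1, toPoly (m + 1) s.2)).1,
    rep (step m (toPoly (m + 1) s.1, toPoly (m + 1) s.2)).2)

theorem ppite {α : Type} [Enc α] {m c : α → ℕ} {F G : (a : α) → (ZMod (m a + 1))[X]} (hc : PT c)
    (hF : PP m F) (hG : PP m G) : PP m fun a => if c a = 0 then F a else G a :=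
  (PT.ite (c := fun a => c a = 0) hc.eq_zero hF hG).of_eq fun a => (apply_ite rep _ _ _).symm

theorem pt_H (h : PA1Stmt) (h2 : PA2Stmt) {α : Type} [Enc α] {m : α → ℕ} (hm : PT m) :
    PT fun p : α × (List ℕ × List ℕ) => H (m p.1) p.2 := by
  have m' : PT fun p : α × (List ℕ × List ℕ) => m p.1 := hm.comp PT.id.fst
  have a := h.ofl _ _ (fun p : α × (List ℕ × List ℕ) => p.2.1) m' PT.id.snd.fst
  have b := h.ofl _ _ (fun p : α × (List ℕ × List ℕ) => p.2.2) m' PT.id.snd.snd
  have c := h.coe _ _ _ _ (h.deg _ _ _ b) b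
  have d := h.mul _ _ _ _ m' b (h.cst _ _ _ m' (pt_minv m' c))
  exact PT.pair (ppite c a d) (ppite c b (h2.mod _ _ _ _ m' a d))

theorem it_H (h : PA1Stmt) (m : ℕ) (s : (ZMod (m + 1))[X] × (ZMod (m + 1))[X]) (i : ℕ) :
    (H m)^[i] (rep s.1, rep s.2) = (rep ((step m)^[i] s).1, rep ((step m)^[i] s).2) := by
  induction i with
  | zero => rfl
  | succ i ih =>
    rw [Function.iterate_succ_apply', ih, Function.iterate_succ_apply']
    simp only [H, h.toP]

theorem deg_le (m D : ℕ) (s : (ZMod (m + 1))[X] × (ZMod (m + 1))[X]) (h1 : s.1.natDegree ≤ D)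
    (h2 : s.2.natDegree ≤ D) (i : ℕ) :
    ((step m)^[i] s).1.natDegree ≤ D ∧ ((step m)^[i] s).2.natDegree ≤ D := by
  induction i with
  | zero => exact ⟨h1, h2⟩
  | succ i ih =>
    rw [Function.iterate_succ_apply']
    generalize (step m)^[i] s = t at ih
    unfold step
    split_ifs
    · exact ih
    · exact ⟨(natDegree_mul_C_le _ _).trans ih.2,
        (natDegree_le_natDegree degree_modByMonic_le_left).trans ih.1⟩

theorem spec (m : ℕ) [Fact (m + 1).Prime] (f g : (ZMod (m + 1))[X]) (hf : f.Monic) (i : ℕ) :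
    ((step m)^[i] (f, g)).1.Monic ∧
    (∀ d, (d ∣ ((step m)^[i] (f, g)).1 ∧ d ∣ ((step m)^[i] (f, g)).2) ↔ (d ∣ f ∧ d ∣ g)) ∧
    (((step m)^[i] (f, g)).2 ≠ 0 → ((step m)^[i] (f, g)).2.natDegree + i ≤ g.natDegree) := by
  induction i with
  | zero => exact ⟨hf, fun _ => Iff.rfl, fun _ => le_rfl⟩
  | succ i ih =>
    rw [Function.iterate_succ_apply']
    generalize (step m)^[i] (f, g) = t at ih
    obtain ⟨a, b⟩ := t
    obtain ⟨h1, h2, h3⟩ := ih
    simp only at h1 h2 h3
    unfold step
    simp only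
    split_ifs with hb
    · have : b = 0 := leadingCoeff_eq_zero.1 ((ZMod.val_eq_zero _).1 hb)
      exact ⟨h1, h2, fun g => (g this).elim⟩
    · have c0 : b.coeff b.natDegree ≠ 0 := fun g => hb (by rw [g, ZMod.val_zero])
      have b0 : b ≠ 0 := fun g => c0 (by rw [g]; simp)
      have inv := cast_minv m (b.coeff b.natDegree).val
      rw [ZMod.natCast_zmod_val, if_neg c0] at inv
      have mo : (mon m b).Monic := monic_mul_C_of_leadingCoeff_mul_eq_one (by rw [mul_comm]; exact inv)
      have e : b = mon m b * C (b.coeff b.natDegree) := by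
        rw [mon, mul_assoc, ← C_mul, inv, C_1, mul_one]
      refine ⟨mo, fun d => ?_, fun r0 => ?_⟩
      · rw [← h2]
        have e2 := modByMonic_add_div a (mon m b)
        constructor
        · rintro ⟨p, q⟩
          exact ⟨e2 ▸ dvd_add q (p.mul_right _), e ▸ p.mul_right _⟩
        · rintro ⟨p, q⟩
          have r : d ∣ mon m b := q.mul_right _
          refine ⟨r, ?_⟩
          rw [modByMonic_eq_sub_mul_div]
          exact dvd_sub p (r.mul_right _)
      · have l1 := natDegree_lt_natDegree r0 (degree_modByMonic_lt a mo)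
        have l2 : (mon m b).natDegree ≤ b.natDegree := natDegree_mul_C_le _ _
        have := h3 b0
        omega

end GCm

open GCm in
theorem gcS (h : PA1Stmt) (h2 : PA2Stmt) : GCStmt := by
  refine ⟨gc, fun α _ m F G hm hF hG => ?_, fun m hp f g hf => ?_⟩
  · have len : ∀ a, (rep (F a)).length = (F a).natDegree + 1 ∧ (rep (G a)).length = (G a).natDegree + 1 :=
      fun a => by simp [rep]
    have key := PT.iterate (h := fun a => H (m a)) (l := fun a => 0 :: rep (G a))
      (b := fun a => (rep (F a), rep (G a))) (pt_H h h2 hm) ((PT.const 0).cons hG) (PT.pair hF hG)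
      (fun a => 2 * (((rep (F a)).length + (rep (G a)).length) * (4 * sz (m a) + 2) + 1) + 1)
      (((Pb.const 2).mul ((((Pb.length hF).add (Pb.length hG)).mul
        (((Pb.const 4).mul (Pb.sz hm)).add (Pb.const 2))).add (Pb.const 1))).add (Pb.const 1))
      (fun a i _ => by
        rw [it_H h (m a) (F a, G a) i, sz_pair, (len a).1, (len a).2]
        obtain ⟨d1, d2⟩ := deg_le (m a) ((F a).natDegree + (G a).natDegree) (F a, G a)
          (Nat.le_add_right _ _) (Nat.le_add_left _ _) i
        have w : ∀ q : (ZMod (m a + 1))[X], q.natDegree ≤ (F a).natDegree + (G a).natDegree →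
            sz (rep q) ≤ ((F a).natDegree + 1 + ((G a).natDegree + 1)) * (4 * sz (m a) + 2) + 1 :=
          fun q hq => (h.szr _ q).trans (Nat.add_le_add_right (Nat.mul_le_mul_right _ (by omega)) 1)
        have s1 := w _ d1
        have s2 := w _ d2
        omega)
    refine key.fst.of_eq fun a => ?_
    rw [List.length_cons, (len a).2, it_H h (m a) (F a, G a)]
    rfl
  · have := Fact.mk hp
    obtain ⟨h1, h3, h4⟩ := spec m f g hf (g.natDegree + 2)
    have z : ((step m)^[g.natDegree + 2] (f, g)).2 = 0 := by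
      by_contra r
      have := h4 r
      omega
    rw [z] at h3
    have := (h3 _).1 ⟨dvd_rfl, dvd_zero _⟩
    exact ⟨h1, this.1, this.2, fun d p q => ((h3 d).2 ⟨p, q⟩).1⟩

end Vale.Agent.P319
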