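import Vale.Agent.P319.Spec4

/-! P319: polynomials of degree at most four have few factors. -/

namespace Vale.Agent.P319

open Polynomial UniqueFactorizationMonoid

theorem few_low {p : ℕ} (hp : p.Prime) {f : (ZMod p)[X]} (f0 : f ≠ 0) (h : f.natDegree ≤ 4) :
    Few f := by
  classical
  have := Fact.mk hp
  intro d
  have mem := fun g => Polynomial.mem_normalizedFactors_iff (p := g) f0
  have h1 : {g : (ZMod p)[X] | g.Monic ∧ Irreducible g ∧ g ∣ f ∧ g.natDegree = d} ⊆
      ((normalizedFactors f).toFinset : Set (ZMod p)[X]) := fun g hg =>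
    Multiset.mem_toFinset.2 ((mem g).2 ⟨hg.2.1, hg.1, hg.2.2.1⟩)
  refine (Set.encard_le_encard h1).trans ?_
  rw [Set.encard_coe_eq_coe_finsetCard]
  have h2 := natDegree_multiset_prod_of_monic _ fun g hg => ((mem g).1 hg).2.1
  have h3 := natDegree_le_of_dvd (prod_normalizedFactors f0).dvd f0
  have h4 := Multiset.card_nsmul_le_sum (s := (normalizedFactors f).map natDegree) (a := 1)
    fun x hx => by
      obtain ⟨g, hg, rfl⟩ := Multiset.mem_map.1 hx
      exact ((mem g).1 hg).1.natDegree_pos
  rw [Multiset.card_map, smul_eq_mul, mul_one] at h4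
  have h5 := Multiset.toFinset_card_le (normalizedFactors f)
  exact_mod_cast (by omega : (normalizedFactors f).toFinset.card ≤ 4)

end Vale.Agent.P319
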