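import Vale.Agent.P319.Spec4
import Vale.Agent.P006.C4
import Vale.Agent.P006.Pit

/-! P319 wave 2: a small element that is not a cube. -/

open Filter Topology
open scoped Classical

namespace Vale.Agent.P319

namespace NCm

open Vale.Agent.P026 W1 Vale.Agent.P006 Vale.Agent.P006.Vau

/-- reduction of the Eisenstein integers -/
def ph {K : Type} [Field K] (w : K) (h : w ^ 2 + w + 1 = 0) : O →+* K where
  toFun a := (a.re : K) + (a.im : K) * w
  map_one' := by simp [QuadraticAlgebra.re_one, QuadraticAlgebra.im_one]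
  map_mul' a b := by
    simp only [QuadraticAlgebra.re_mul, QuadraticAlgebra.im_mul]
    push_cast
    linear_combination (-(a.im : K) * b.im) * h
  map_zero' := by simp
  map_add' a b := by simp; ring

lemma ker {K : Type} [Field K] (φ : O →+* K) {n : O} (hn : Prim n) : φ n = 0 →
    ∃ q, Prime q ∧ Prim q ∧ ∀ a, φ a = 0 ↔ q ∣ a := by
  refine bas.b2.ind1 (fun n => φ n = 0 → ∃ q, Prime q ∧ Prim q ∧ ∀ a, φ a = 0 ↔ q ∣ a)
    (fun h => by simp at h) (fun p a hp h1 _ ih h => ?_) n hn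
  rw [map_mul, mul_eq_zero] at h
  rcases h with h | h
  · refine ⟨p, hp, h1, fun b => ⟨fun hb => by_contra fun k => ?_, ?_⟩⟩
    · obtain ⟨u, v, e⟩ := hp.irreducible.coprime_iff_not_dvd.2 k
      have := congrArg φ e
      simp [h, hb] at this
    · rintro ⟨c, rfl⟩
      rw [map_mul, h, zero_mul]
  · exact ih h

lemma nz3 {q : O} (h : Prim q) : Nn q % 3 = 1 := by
  obtain ⟨c, hc⟩ := h
  have e : q = 1 + 3 * c := by linear_combination hc
  have a1 : q.re = 1 + 3 * c.re := by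
    rw [e]; simp [QuadraticAlgebra.re_one, QuadraticAlgebra.re_mul, QuadraticAlgebra.re_ofNat,
      QuadraticAlgebra.im_ofNat]
  have a2 : q.im = 3 * c.im := by
    rw [e]; simp [QuadraticAlgebra.im_one, QuadraticAlgebra.im_mul, QuadraticAlgebra.re_ofNat,
      QuadraticAlgebra.im_ofNat]
  have a3 : nz q = 1 + 3 * (2 * c.re + 3 * c.re ^ 2 - c.im - 3 * c.re * c.im + 3 * c.im ^ 2) := by
    rw [nz, a1, a2]; ring
  have := nz_nonneg q
  unfold Nn
  omega

lemma many (C : ℝ) (hC : 0 < C) : ∀ᶠ x : ℝ in atTop,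
    2 * C * x ^ (995 / 1000 : ℝ) + 1 < (((PS x).filter Prime).card : ℝ) := by
  have h := pit0 bas (fun X => (PS X).filter Prime) fun X p => by
    simp only [Finset.mem_filter, mem_PS]; tauto
  filter_upwards [h.eventually (lt_mem_nhds (show (1 / 2 : ℝ) < 1 by norm_num)),
    eventually_gt_atTop 1, (tendsto_rpow_atTop (show (0 : ℝ) < 1 / 400 by norm_num)).eventually_gt_atTop
      (800 * (2 * C + 1))] with x h1 h2 h3
  have x0 : 0 < x := by linarith
  have l0 := Real.log_pos h2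
  have l1 := Real.log_le_rpow_div x0.le (show (0 : ℝ) < 1 / 400 by norm_num)
  have y1 := Real.one_le_rpow h2.le (show (0 : ℝ) ≤ 995 / 1000 by norm_num)
  have e : x = x ^ (995 / 1000 : ℝ) * x ^ (1 / 400 : ℝ) * x ^ (1 / 400 : ℝ) := by
    rw [← Real.rpow_add x0, ← Real.rpow_add x0]; norm_num
  rw [lt_div_iff₀ (by positivity)] at h1
  refine lt_of_le_of_lt ?_ h1
  rw [← mul_div_assoc, le_div_iff₀ l0]
  generalize x ^ (995 / 1000 : ℝ) = u at *
  generalize x ^ (1 / 400 : ℝ) = v at *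
  have v0 : 0 < v := by nlinarith
  calc _ ≤ (2 * C + 1) * u * (400 * v) := by
        refine mul_le_mul (by nlinarith) (by linarith) l0.le (by positivity)
    _ = 1 / 2 * (u * (800 * (2 * C + 1)) * v) := by ring
    _ ≤ 1 / 2 * (u * v * v) := by gcongr
    _ = _ := by rw [← e]

lemma small : ∃ A : ℕ, ∀ (q : O) (y : ℕ), Prime q → Prim q → 2 ≤ y → Real.log (N q * 3) ≤ 2 * y →
    ∃ r, Prime r ∧ Prim r ∧ Nn r ≤ y ^ A ∧ ¬ q ∣ r ∧ cub q r ≠ 1 := by
  obtain ⟨C, C0, hC⟩ := QG.primes_cub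
  obtain ⟨x0, hx⟩ := eventually_atTop.1 (many C C0)
  obtain ⟨B, hB⟩ := pow_unbounded_of_one_lt x0 (one_lt_two (α := ℝ))
  refine ⟨B + 200, fun q y hq h1 hy hl => by_contra fun hne => ?_⟩
  push Not at hne
  have y2 : (2 : ℝ) ≤ y := by exact_mod_cast hy
  set x : ℝ := (y : ℝ) ^ (B + 200) with hxd
  have x1 : 1 ≤ x := one_le_pow₀ (by linarith)
  have x2 : x0 ≤ x := hB.le.trans ((pow_le_pow_left₀ zero_le_two y2 B).trans
    (pow_le_pow_right₀ (by linarith) (by omega)))
  have x3 : (y : ℝ) ≤ x ^ (1 / 200 : ℝ) := by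
    rw [hxd, ← Real.rpow_natCast, ← Real.rpow_mul (by linarith)]
    refine (Real.rpow_one _).symm.trans_le (Real.rpow_le_rpow_of_exponent_le (by linarith) ?_)
    push_cast
    linarith [(Nat.cast_nonneg B : (0 : ℝ) ≤ B)]
  have nc : ¬ ∃ c, q = c ^ 3 := fun ⟨c, e⟩ => hq.irreducible.not_isUnit (by
    have := hq.irreducible.squarefree c ⟨c, by rw [e]; ring⟩
    rw [e]; exact this.pow 3)
  have k := hC q hq.ne_zero nc 0 x x1
  simp only [Complex.ofReal_zero, zero_mul, Complex.cpow_zero, mul_one, abs_zero, zero_add] at k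
  rw [← Finset.sum_filter] at k
  have e : ∑ n ∈ (PS x).filter Prime, cub q n = ((((PS x).filter Prime).erase q).card : ℂ) := by
    rw [← Finset.sum_erase _ (a := q) (bas.b6.zero q q hq.ne_zero fun c =>
      hq.not_isUnit (isCoprime_self.1 c)), Finset.card_eq_sum_ones, Nat.cast_sum]
    refine Finset.sum_congr rfl fun r hr => ?_
    simp only [Finset.mem_erase, Finset.mem_filter, mem_PS] at hr
    rw [Nat.cast_one]
    refine hne r hr.2.2 hr.2.1.1 ?_ fun d => hr.1 (bas.b2.uniq _ _ h1 hr.2.1.1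
      (hq.associated_of_dvd hr.2.2 d)).symm
    have := hr.2.1.2
    rw [N, hxd] at this
    exact_mod_cast this
  rw [e, Complex.norm_natCast] at k
  have c1 : (((PS x).filter Prime).card : ℝ) ≤ (((PS x).filter Prime).erase q).card + 1 := by
    have := Finset.pred_card_le_card_erase (s := (PS x).filter Prime) (a := q)
    exact_mod_cast (by omega : _ ≤ _ + 1)
  have c2 := hx x x2
  have c3 : C * x ^ (99 / 100 : ℝ) * Real.log (N q * 3) ≤ 2 * C * x ^ (995 / 1000 : ℝ) := by
    calc _ ≤ C * x ^ (99 / 100 : ℝ) * (2 * x ^ (1 / 200 : ℝ)) := by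
          refine mul_le_mul_of_nonneg_left (by linarith) (by positivity)
      _ = 2 * C * (x ^ (99 / 100 : ℝ) * x ^ (1 / 200 : ℝ)) := by ring
      _ = _ := by rw [← Real.rpow_add (by linarith)]; norm_num
  linarith

end NCm

open NCm Vale.Agent.P026 W1 in
theorem ncS : NCStmt := by
  obtain ⟨A, hA⟩ := NCm.small
  refine ⟨A + 3, fun p hp p3 K _ _ w hw => ?_⟩
  have w3 : w ^ 3 = 1 := by linear_combination (w - 1) * hw
  have w1 : w ≠ 1 := by
    rintro rfl
    have : ((3 : ℕ) : K) = 0 := by push_cast; linear_combination hw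
    have := Nat.le_of_dvd (by norm_num) ((CharP.cast_eq_zero_iff K p 3).1 this)
    omega
  have w2 : w ^ 2 ≠ 1 := fun h => w1 (by linear_combination w3 - w * h)
  have pm : p % 3 = 1 ∨ p % 3 = 2 := by
    have : ¬ 3 ∣ p := fun d => by
      have := (Nat.prime_dvd_prime_iff_eq Nat.prime_three hp).1 d
      omega
    omega
  have p0 : NCm.ph w hw (p : O) = 0 := by rw [map_natCast, CharP.cast_eq_zero]
  obtain ⟨q, hq, q1, hk⟩ : ∃ q, Prime q ∧ Prim q ∧ ∀ a, NCm.ph w hw a = 0 ↔ q ∣ a := by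
    rcases pm with h | h
    · refine ker _ (n := p) ⟨(p / 3 : ℕ), ?_⟩ p0
      conv_lhs => rw [← Nat.div_add_mod p 3, h]
      push_cast; ring
    · refine ker _ (n := -p) ⟨-(p / 3 : ℕ) - 1, ?_⟩ (by rw [map_neg, p0, neg_zero])
      conv_lhs => rw [← Nat.div_add_mod p 3, h]
      push_cast; ring
  obtain ⟨l, hl, l1, l2⟩ := bas.b5.char q hq
  obtain rfl : p = l := by
    have := (hk _).2 l1
    rw [map_natCast, CharP.cast_eq_zero_iff K p] at this
    exact (Nat.prime_dvd_prime_iff_eq hp hl).1 this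
  have lq : Real.log (N q * 3) ≤ 2 * ((p.size + 2 : ℕ) : ℝ) := by
    have a1 : Nn q ≤ p ^ 2 := by
      rcases l2 with h | h
      · rw [h]; nlinarith
      · exact h.1.le
    have a2 : Nn q * 3 ≤ 2 ^ (2 * (p.size + 2)) := by
      have := Nat.lt_size_self p
      rw [mul_comm 2, pow_mul, pow_add]
      nlinarith
    have a3 := bas.b1.N_one_le q hq.ne_zero
    calc _ ≤ Real.log (2 ^ (2 * (p.size + 2))) :=
          Real.log_le_log (by linarith) (by rw [N]; exact_mod_cast a2)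
      _ = (2 * (p.size + 2) : ℕ) * Real.log 2 := Real.log_pow _ _
      _ ≤ (2 * (p.size + 2) : ℕ) * 1 :=
          mul_le_mul_of_nonneg_left (by linarith [Real.log_two_lt_d9]) (by positivity)
      _ = _ := by push_cast; ring
  obtain ⟨r, hr, r1, r2, r3, r4⟩ := hA q (p.size + 2) hq q1 (by omega) lq
  rw [cr q r q1 r1] at r4
  obtain ⟨z, z1, z2, z3⟩ := bas.b6.spec r q hq (bas.b2.cop q q1)
  have z4 := (hk _).2 z2
  rw [map_sub, map_pow, sub_eq_zero] at z4
  have pw : NCm.ph w hw wO = w := by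
    show ((0 : ℤ) : K) + ((1 : ℤ) : K) * w = w
    simp
  have z5 : NCm.ph w hw z = w ∨ NCm.ph w hw z = w ^ 2 := by
    rcases z3 with rfl | rfl | rfl | rfl
    · exact absurd (hq.dvd_of_dvd_pow (by simpa using z2)) r3
    · exact absurd (z1.symm.trans (map_one _)) r4
    · exact Or.inl pw
    · exact Or.inr (by rw [map_pow, pw])
  have fin : NCm.ph w hw r ^ ((p ^ 2 - 1) / 3) ≠ 1 := by
    rcases l2 with h | h
    · have m := nz3 q1
      rw [h] at m z4
      obtain ⟨k, hk⟩ : ∃ k, p = 3 * k + 1 := ⟨p / 3, by omega⟩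
      have e1 : (p - 1) / 3 = k := by omega
      have e2 : (p ^ 2 - 1) / 3 = k * (3 * k + 2) := by
        have : p ^ 2 = 3 * (k * (3 * k + 2)) + 1 := by rw [hk]; ring
        omega
      rw [e1] at z4
      rw [e2, pow_mul, z4]
      rcases z5 with h | h <;> rw [h, pow_add, pow_mul]
      · rwa [w3, one_pow, one_mul]
      · rwa [show (w ^ 2) ^ 3 = 1 by rw [← pow_mul, mul_comm, pow_mul, w3, one_pow], one_pow, one_mul,
          show (w ^ 2) ^ 2 = w by linear_combination w * w3]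
    · rw [← h.1, z4]
      rcases z5 with h | h <;> rwa [h]
  have n0 := nz_nonneg r
  have n1 : nz r ≤ ((p.size + 2 : ℕ) : ℤ) ^ A := by
    have : ((Nn r : ℕ) : ℤ) = nz r := by unfold Nn; omega
    rw [← this]; exact_mod_cast r2
  have n2 : ((p.size + 2 : ℕ) : ℤ) ^ A * 8 ≤ ((p.size + 2 : ℕ) : ℤ) ^ (A + 3) := by
    rw [pow_add]
    refine mul_le_mul_of_nonneg_left ?_ (by positivity)
    exact le_trans (by norm_num) (pow_le_pow_left₀ zero_le_two (by omega : (2 : ℤ) ≤ _) 3)
  have n3 : |r.re| ≤ 2 * nz r := by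
    have : |r.re| ≤ r.re ^ 2 := by rw [← sq_abs]; nlinarith [abs_nonneg r.re, Int.le_self_sq |r.re|]
    unfold nz; nlinarith [sq_nonneg (r.re - 2 * r.im), sq_nonneg r.re]
  have n4 : |r.im| ≤ 2 * nz r := by
    have : |r.im| ≤ r.im ^ 2 := by rw [← sq_abs]; nlinarith [abs_nonneg r.im, Int.le_self_sq |r.im|]
    unfold nz; nlinarith [sq_nonneg (r.im - 2 * r.re), sq_nonneg r.im]
  have b1 := neg_abs_le r.re
  have b2 := neg_abs_le r.im
  have b3 := le_abs_self r.re
  have b4 := le_abs_self r.im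
  have b5 := abs_nonneg r.re
  have b6 := abs_nonneg r.im
  obtain ⟨a, ha⟩ := Int.eq_ofNat_of_zero_le (a := r.re + (|r.re| + |r.im|)) (by linarith)
  obtain ⟨b, hb⟩ := Int.eq_ofNat_of_zero_le (a := r.im + (|r.re| + |r.im|)) (by linarith)
  obtain ⟨c, hc⟩ := Int.eq_ofNat_of_zero_le (a := |r.re| + |r.im|) (by linarith)
  have e : (a : K) + b * w + c * w ^ 2 = NCm.ph w hw r := by
    have f1 : ((r.re : ℤ) : K) = a - c := by
      rw [show r.re = a - c by linarith]; push_cast; ring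
    have f2 : ((r.im : ℤ) : K) = b - c := by
      rw [show r.im = b - c by linarith]; push_cast; ring
    show _ = (r.re : K) + (r.im : K) * w
    rw [f1, f2]
    linear_combination (c : K) * hw
  have g1 : (a : ℤ) ≤ ((p.size + 2 : ℕ) : ℤ) ^ (A + 3) := by linarith
  have g2 : (b : ℤ) ≤ ((p.size + 2 : ℕ) : ℤ) ^ (A + 3) := by linarith
  have g3 : (c : ℤ) ≤ ((p.size + 2 : ℕ) : ℤ) ^ (A + 3) := by linarith
  exact ⟨a, b, c, by exact_mod_cast g1, by exact_mod_cast g2, by exact_mod_cast g3,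
    by rw [e]; exact fun h => r3 ((hk r).1 h), by rwa [e]⟩

end Vale.Agent.P319
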