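import Vale.Agent.P319.Amp

/-! P319: zero free half plane for characters in the sextic family. -/

noncomputable section
open Complex Filter Topology DirichletCharacter
open scoped Classical

namespace Vale.Agent.P319

open Vale.Agent.P026

theorem lev {q : ℕ} (a : DirichletCharacter ℂ q) (b : DirichletCharacter ℂ 3) (n : ℕ) :
    (changeLevel (Nat.dvd_mul_left q 3) a * changeLevel (Nat.dvd_mul_right 3 q) b) n = b n * a n := by
  by_cases h : n.Coprime (3 * q)
  · have h' : IsCoprime (n : ℤ) ((3 * q : ℕ) : ℤ) := Nat.isCoprime_iff_coprime.2 h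
    have e1 := changeLevel_eq_cast_of_dvd' a (Nat.dvd_mul_left q 3) h'
    have e2 := changeLevel_eq_cast_of_dvd' b (Nat.dvd_mul_right 3 q) h'
    simp only [Int.cast_natCast] at e1 e2
    rw [MulChar.mul_apply, e1, e2, mul_comm]
  · rw [MulChar.map_nonunit _ (mt (ZMod.isUnit_iff_coprime _ _).1 h)]
    rw [Nat.coprime_mul_iff_right, not_and_or] at h
    rcases h with h | h
    · rw [b.map_nonunit (mt (ZMod.isUnit_iff_coprime _ _).1 h), zero_mul]
    · rw [a.map_nonunit (mt (ZMod.isUnit_iff_coprime _ _).1 h), mul_zero]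

theorem nz {m : ℕ} (ψ : DirichletCharacter ℂ m) {s : ℂ} (hs : 1 < s.re) {l : ℕ} (hl : l.Prime) :
    1 - ψ l * (l : ℂ) ^ (-s) ≠ 0 := by
  intro h
  have a1 : ‖ψ l * (l : ℂ) ^ (-s)‖ < 1 := by
    rw [norm_mul, Complex.norm_natCast_cpow_of_pos hl.pos]
    refine mul_lt_one_of_nonneg_of_lt_one_right (ψ.norm_le_one _) (by positivity) ?_
    exact Real.rpow_lt_one_of_one_lt_of_neg (by exact_mod_cast hl.one_lt) (by simp; linarith)
  rw [← sub_eq_zero.1 h] at a1
  simp at a1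

theorem inv0 (hB : Bas) {m : ℕ} (ψ1 ψ2 : DirichletCharacter ℂ m) {τ : DirichletCharacter ℂ 3}
    (hτ : τ 2 = -1) {s : ℂ} (hs : 1 < s.re) {f : ℕ → ℂ} (sm : Summable fun n : O => ‖f (Nn n)‖)
    (hm : ∀ a b, f (a * b) = f a * f b) (ho : f 1 = 1)
    (h1 : ∀ l : ℕ, (1 : DirichletCharacter ℂ 3) l * f l = ψ1 l * (l : ℂ) ^ (-s))
    (h2 : ∀ l : ℕ, τ l * f l = ψ2 l * (l : ℂ) ^ (-s)) :
    (1 - f 4) * (ZKM.Mf f fun n => IsCoprime n 2) *
      (LSeries (fun n => ψ1 n) s * LSeries (fun n => ψ2 n) s) = 1 := by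
  have t := (ZKM.Mf_lim hB sm).mul ((LSeries_eulerProduct ψ1 hs).mul (LSeries_eulerProduct ψ2 hs))
  have e := tendsto_nhds_unique t (tendsto_const_nhds (x := (1 : ℂ)).congr fun P => by
    rw [ZKM.Mf_Sm hB hτ sm hm ho, ← Finset.prod_mul_distrib, ← Finset.prod_mul_distrib,
      Finset.prod_eq_one]
    intro l hl
    rw [mul_mul_mul_comm, h1, h2, mul_inv_cancel₀ (nz _ hs (Nat.prime_of_mem_primesBelow hl)),
      mul_inv_cancel₀ (nz _ hs (Nat.prime_of_mem_primesBelow hl)), one_mul])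
  rwa [ZKM.Mf_split hB sm hm hB.b1.prime_two.neg ⟨-1, by norm_num⟩ fun _ => Iff.rfl,
    show Nn (-2) = 4 by decide,
    ZKM.Mf_congr (S' := fun n => IsCoprime n 2) fun n _ => by
      rw [true_and, neg_dvd, isCoprime_comm, hB.b1.prime_two.irreducible.coprime_iff_not_dvd]] at e

theorem inv_series (hB : Bas) {q : ℕ} [NeZero q] (χ : DirichletCharacter ℂ q) (h1 : χ (-1) = 1) :
    ∃ H : ℂ → ℂ, Differentiable ℂ H ∧ ∀ s : ℂ, 1 < s.re →
      (ZKM.Mf (fun m => χ m * ZKM.pw s m) fun n => IsCoprime n 2) *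
        (LFunction (changeLevel (Nat.dvd_mul_left q 3) χ) s * H s) = 1 := by
  obtain ⟨τ, hτ⟩ := ZKM.ex_chi
  obtain ⟨ψ, hψ⟩ : ∃ ψ : DirichletCharacter ℂ (3 * q), ∀ n : ℕ, ψ n = τ n * χ n := ⟨_, lev χ τ⟩
  have q0 := NeZero.pos q
  have hne : ψ ≠ 1 := by
    intro h
    have e := hψ (3 * q - 1)
    have c : ∀ m, m ∣ 3 * q → ((3 * q - 1 : ℕ) : ZMod m) = -1 := fun m hm => by
      rw [Nat.cast_sub (by omega), (ZMod.natCast_eq_zero_iff _ _).2 hm]; simp
    rw [h, c _ dvd_rfl, c _ (Nat.dvd_mul_left q 3), c _ (Nat.dvd_mul_right 3 q), h1,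
      show (-1 : ZMod 3) = 2 from rfl, hτ, MulChar.one_apply isUnit_one.neg] at e
    norm_num at e
  refine ⟨fun s => (1 - χ (4 : ℕ) * ZKM.pw s 4) * LFunction ψ s,
    (Differentiable.const_sub (Differentiable.const_mul (fun _ =>
      (differentiableAt_id.neg).const_cpow (Or.inl (by norm_num))) _) _).mul
      (differentiable_LFunction hne), fun s hs => ?_⟩
  have e := inv0 hB (changeLevel (Nat.dvd_mul_left q 3) χ) ψ hτ hs (f := fun m => χ m * ZKM.pw s m)
    ((ZKM.summ hB hs).of_nonneg_of_le (fun _ => norm_nonneg _) fun n => by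
      rw [norm_mul]; exact mul_le_of_le_one_left (norm_nonneg _) (χ.norm_le_one _))
    (fun a b => by simp only [Nat.cast_mul, map_mul, ZKM.pw_mul]; ring) (by simp [ZKM.pw_one])
    (fun l => by
      have a1 := lev χ 1 l
      rw [map_one, mul_one] at a1
      rw [a1, mul_assoc, ZKM.pw])
    (fun l => by rw [hψ, mul_assoc, ZKM.pw])
  rw [← LFunction_eq_LSeries _ hs, ← LFunction_eq_LSeries _ hs] at e
  linear_combination e

theorem zfree (hB : Bas) (hX : SX) (hL : LN) (h1 : L1Stmt) {q : ℕ} [NeZero q]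
    (χ : DirichletCharacter ℂ q) (hχ : χ ≠ 1) (he : χ (-1) = 1) {w : O} (hw : w ≠ 0)
    (h : ∀ n, OP n → sx w n = χ (Nn n)) (s : ℂ) (hs : 26 / 27 < s.re) : LFunction χ s ≠ 0 := by
  obtain ⟨H, hH, hS⟩ := inv_series hB χ he
  set β : ℝ := (s.re - 1 / 2 + 25 / 54) / 2 with hβ
  obtain ⟨C, hC⟩ := ampW hB hX hL h1 w hw β (by linarith)
  have pos : ∀ n, OP n → 0 < N n := fun n hn => AMPM.Npos hB (hB.b2.ne n hn.1)
  have : Countable O := (QuadraticAlgebra.equivProd (-1 : ℤ) (-1)).injective.countable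
  obtain ⟨G, g1, g2⟩ := ENDM.cont hL
    (fun n => if OP n then mu n * sx w n * (N n : ℂ) ^ (-(1 / 2 : ℂ)) else 0) N
    (fun n hn => pos n (by by_contra k; simp [k] at hn)) (a := 1 / 2) (σ := β) (C := C)
    (fun b hb => (hB.b3.summ (1 / 2 + b) (by linarith)).of_nonneg_of_le
      (fun n => mul_nonneg (norm_nonneg _) (Real.rpow_nonneg (Nat.cast_nonneg _) _)) fun n => by
        split_ifs with k
        · rw [norm_mul, AMPM.norm_cp hB (hB.b2.ne n k.1), neg_add, Real.rpow_add (pos n k), mul_assoc,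
            norm_mul]
          exact mul_le_of_le_one_left (mul_pos (Real.rpow_pos_of_pos (pos n k) _)
            (Real.rpow_pos_of_pos (pos n k) _)).le
            (mul_le_one₀ (ZKM.norm_mu n) (norm_nonneg _) (hX.norm_le _ _))
        · rw [norm_zero, zero_mul]; exact Real.rpow_nonneg (Nat.cast_nonneg _) _)
    fun Y hY => by
      simpa only [TW.SS, TW.tm, isCoprime_one_right, and_true, ite_mul, zero_mul] using hC Y hY
  have op : IsOpen {z : ℂ | β + 1 / 2 < z.re} := isOpen_lt continuous_const continuous_re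
  have hne : changeLevel (Nat.dvd_mul_left q 3) χ ≠ 1 := mt (changeLevel_eq_one_iff _).1 hχ
  have r2 : (1 / 2 : ℂ).re = 1 / 2 := by norm_num
  have key := AnalyticOnNhd.eqOn_of_preconnected_of_eventuallyEq (𝕜 := ℂ)
    (f := fun z => G (z - 1 / 2) * (LFunction (changeLevel (Nat.dvd_mul_left q 3) χ) z * H z))
    (g := fun z => Real.sqrt Real.pi * cexp ((z - 1 / 2) ^ 2 / 4))
    (((g1.comp (differentiable_id.sub_const _).differentiableOn fun z hz => by
      have : β + 1 / 2 < z.re := hz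
      show β < (z - 1 / 2).re
      rw [sub_re, r2]; linarith).mul
      ((differentiable_LFunction hne).mul hH).differentiableOn).analyticOnNhd op)
    ((by fun_prop : Differentiable ℂ _).differentiableOn.analyticOnNhd op)
    (convex_halfSpace_re_gt _).isPreconnected (z₀ := ((|β| + 2 : ℝ) : ℂ))
    (by show β + 1 / 2 < _; rw [ofReal_re]; linarith [le_abs_self β]) (by
      filter_upwards [(isOpen_lt continuous_const continuous_re).mem_nhds
        (show ((|β| + 2 : ℝ) : ℂ) ∈ {s : ℂ | 1 < s.re} by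
          rw [Set.mem_ofPred_eq, ofReal_re]; linarith [abs_nonneg β])] with z hz
      have hz : 1 < z.re := hz
      have e : ∑' n, (if OP n then mu n * sx w n * (N n : ℂ) ^ (-(1 / 2 : ℂ)) else 0) *
          (N n : ℂ) ^ (-(z - 1 / 2)) = ZKM.Mf (fun m => χ m * ZKM.pw z m) fun n => IsCoprime n 2 :=
        tsum_congr fun n => by
          by_cases k : OP n
          · rw [if_pos k, if_pos (show Prim n ∧ IsCoprime n 2 from k), mul_assoc,
              ← cpow_add _ _ (by exact_mod_cast (pos n k).ne'), h n k, N, ofReal_natCast,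
              mul_assoc]
            simp only [ZKM.pw]
            congr 3; ring
          · rw [if_neg k, if_neg (show ¬ (Prim n ∧ IsCoprime n 2) from k), zero_mul]
      rw [g2 _ (by rw [sub_re, r2]; linarith), e, mul_assoc, hS z hz, mul_one])
    (show s ∈ {z : ℂ | β + 1 / 2 < z.re} by show β + 1 / 2 < s.re; linarith)
  intro hz
  simp only [LFunction_changeLevel _ χ (Or.inl hχ), hz, zero_mul, mul_zero] at key
  exact mul_ne_zero (by exact_mod_cast (Real.sqrt_pos.2 Real.pi_pos).ne') (exp_ne_zero _) key.symm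

/-- the quadratic character with complex values -/
def chi (p : ℕ) [Fact p.Prime] : DirichletCharacter ℂ p :=
  (quadraticChar (ZMod p)).ringHomComp (Int.castRingHom ℂ)

theorem chi_nat (p : ℕ) [Fact p.Prime] (n : ℕ) : chi p n = (legendreSym p n : ℤ) := by
  simp [chi, legendreSym]

theorem int_dvd {π : O} {l : ℕ} (hπ : Prime π) (hl : l.Prime) (h : π ∣ l) (m : ℤ) :
    π ∣ (m : O) ↔ (l : ℤ) ∣ m := by
  refine ⟨fun d => ?_, fun d => h.trans (by exact_mod_cast map_dvd (Int.castRingHom O) d)⟩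
  by_contra k
  have c := ((Nat.prime_iff_prime_int.1 hl).irreducible.coprime_iff_not_dvd.2 k).map (Int.castRingHom O)
  exact hπ.not_isUnit (c.isUnit_of_dvd' (by simpa using h) d)

theorem quad_prime (hB : Bas) (p : ℕ) [Fact p.Prime] (hp : p % 4 = 1) {π : O} (hπ : Prime π)
    (h2 : IsCoprime π 2) : quad p π = chi p (Nn π) := by
  obtain ⟨l, hl, d, hN⟩ := hB.b5.char π hπ
  have := Fact.mk hl
  have l2 : l ≠ 2 := by
    rintro rfl
    exact hπ.not_isUnit (h2.isUnit_of_dvd' dvd_rfl (by simpa using d))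
  have lo := hl.eq_two_or_odd.resolve_left l2
  have rc : chi p l = (legendreSym l p : ℤ) := by
    rw [chi_nat, legendreSym.quadratic_reciprocity_one_mod_four hp l2]
  have id := int_dvd hπ hl d
  rw [hB.b7.prime _ _ hπ, quadP]
  by_cases k : π ∣ p
  · have : legendreSym l p = 0 := (legendreSym.eq_zero_iff l p).2
      ((ZMod.intCast_zmod_eq_zero_iff_dvd _ _).2 ((id p).1 (by simpa using k)))
    rw [if_pos k]
    rcases hN with e | ⟨e, -⟩ <;> simp [e, rc, this]
  have p0 : ((p : ℤ) : ZMod l) ≠ 0 := fun e =>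
    k (by simpa using (id p).2 ((ZMod.intCast_zmod_eq_zero_iff_dvd _ _).1 e))
  have hm : (Ideal.span {π}).IsMaximal := PrincipalIdealRing.isMaximal_of_irreducible hπ.irreducible
  have cd := hB.b5.card π hπ
  have hfin : Finite (O ⧸ Ideal.span {π}) := Nat.finite_of_card_ne_zero (by
    rw [cd]; rcases hN with e | ⟨e, -⟩ <;> simp [e, hl.ne_zero])
  let _ : Field (O ⧸ Ideal.span {π}) := Ideal.Quotient.field _
  let _ : Fintype (O ⧸ Ideal.span {π}) := Fintype.ofFinite _
  have hz : ∀ a, Ideal.Quotient.mk (Ideal.span {π}) a = 0 ↔ π ∣ a := fun a => by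
    rw [Ideal.Quotient.eq_zero_iff_mem, Ideal.mem_span_singleton]
  have hc : ringChar (O ⧸ Ideal.span {π}) ≠ 2 := by
    intro h
    have h3 : ((2 : ℕ) : O ⧸ Ideal.span {π}) = 0 := by
      rw [← h]
      exact ringChar.Nat.cast_ringChar
    have h4 : π ∣ 2 := (hz 2).1 (by rw [map_ofNat]; exact_mod_cast h3)
    exact hπ.not_isUnit (h2.isUnit_of_dvd' dvd_rfl h4)
  have e1 : (∃ y, π ∣ y ^ 2 - p) ↔ ((p : ℤ) : ZMod l) ^ (Nn π / 2) = 1 := by
    have a1 := FiniteField.isSquare_iff hc (mt (hz p).1 k)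
    rw [← Nat.card_eq_fintype_card, cd, ← map_pow, ← sub_eq_zero,
      ← map_one (Ideal.Quotient.mk (Ideal.span {π})), ← map_sub, hz] at a1
    have a2 := id (p ^ (Nn π / 2) - 1)
    push_cast at a2
    have a3 := ZMod.intCast_zmod_eq_zero_iff_dvd ((p : ℤ) ^ (Nn π / 2) - 1) l
    rw [Int.cast_sub, Int.cast_pow, Int.cast_one, sub_eq_zero] at a3
    rw [a3, ← a2, ← a1]
    refine ⟨fun ⟨y, hy⟩ => ⟨Ideal.Quotient.mk _ y, ?_⟩, fun ⟨x, hx⟩ => ?_⟩
    · rw [← hz, map_sub, map_pow, sub_eq_zero] at hy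
      rw [← hy, sq]
    · obtain ⟨y, rfl⟩ := Ideal.Quotient.mk_surjective x
      exact ⟨y, by rw [← hz, map_sub, map_pow, hx, sq, sub_self]⟩
  rw [if_neg k, e1]
  rcases hN with e | ⟨e, -⟩
  · rw [e, rc, ← ZMod.euler_criterion l p0, ← legendreSym.eq_one_iff l p0]
    rcases legendreSym.eq_one_or_neg_one l p0 with a | a <;> simp [a]
  · have a : l ^ 2 / 2 = (l - 1) * ((l + 1) / 2) := by
      obtain ⟨t, rfl⟩ : ∃ t, l = 2 * t + 1 := ⟨l / 2, by omega⟩
      rw [show (2 * t + 1) ^ 2 = 1 + 2 * (2 * t * (t + 1)) by ring, Nat.add_mul_div_left _ _ two_pos,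
        show (2 * t + 1 + 1) / 2 = t + 1 by omega]
      simp
    rw [e, a, pow_mul, ZMod.pow_card_sub_one_eq_one p0, one_pow, if_pos rfl, Nat.cast_pow, map_pow,
      rc, ← Int.cast_pow, legendreSym.sq_one l p0, Int.cast_one]

theorem sx_chi (hB : Bas) (hX : SX) (p : ℕ) [Fact p.Prime] (hp : p % 4 = 1) (n : O) (hn : OP n) :
    sx ((p : O) ^ 3) n = chi p (Nn n) := by
  rw [hX.pow_l _ _ _ hn, hX.three _ _ (hB.b2.ne n hn.1)]
  refine hB.b2.ind1 (fun n => IsCoprime n 2 → quad p n = chi p (Nn n)) (fun _ => ?_)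
    (fun π a h1 _ h3 ih h2 => ?_) n hn.1 hn.2
  · rw [hB.b7.unit_r _ _ isUnit_one, ZKM.Nn_one, Nat.cast_one, map_one]
  · rw [hB.b7.mul_r _ _ _ h1.ne_zero (hB.b2.ne a h3), ih h2.of_mul_left_right,
      quad_prime hB p hp h1 h2.of_mul_left_left, hB.b1.Nn_mul, Nat.cast_mul, map_mul]

theorem chi_ne (p : ℕ) [Fact p.Prime] (hp : p % 4 = 1) : chi p ≠ 1 :=
  (MulChar.ringHomComp_ne_one_iff (RingHom.injective_int _)).2
    (quadraticChar_ne_one (by rw [ZMod.ringChar_zmod_n]; omega))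

theorem chi_zfree (hB : Bas) (hX : SX) (hL : LN) (h1 : L1Stmt) (p : ℕ) [hp' : Fact p.Prime]
    (hp : p % 4 = 1) (s : ℂ) (hs : 26 / 27 < s.re) : LFunction (chi p) s ≠ 0 := by
  refine zfree hB hX hL h1 _ (chi_ne p hp) ?_ (w := (p : O) ^ 3) (pow_ne_zero _ fun h => ?_)
    (sx_chi hB hX p hp) s hs
  · rw [chi, MulChar.ringHomComp_apply, (quadraticChar_one_iff_isSquare (by simp)).2
      (ZMod.exists_sq_eq_neg_one_iff.2 (by omega)), map_one]
  · have := ZKM.Nn_nat p
    rw [h] at this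
    exact pow_ne_zero 2 hp'.out.ne_zero this.symm

end Vale.Agent.P319
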