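import Vale.Agent.P319.Small
import Vale.Agent.P319.Twist
import Vale.Agent.P026.Main

/-! P319: a small quadratic nonresidue. -/

namespace Vale.Agent.P319

open Vale.Agent.P026

theorem nonres : ∃ A : ℕ, ∀ p : ℕ, p.Prime → p % 4 = 1 →
    ∃ g ≤ (p.size + 2) ^ A, ¬ IsSquare (g : ZMod p) := by
  obtain ⟨A, hA⟩ := small (σ := 26 / 27) (by norm_num) Main.zeta_ne_zero
  refine ⟨A, fun p hp h4 => ?_⟩
  have := Fact.mk hp
  obtain ⟨l, l1, l2, l3⟩ := hA p (chi p) (chi_ne p h4)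
    (chi_zfree W1.bas W3.sxx W2.ln (W3.l1 Main.ps) p h4)
  by_cases h0 : (l : ZMod p) = 0
  · obtain ⟨x, hx⟩ := FiniteField.exists_nonsquare (F := ZMod p) (by rw [ZMod.ringChar_zmod_n]; omega)
    have := Nat.le_of_dvd l1.pos ((ZMod.natCast_eq_zero_iff l p).1 h0)
    exact ⟨x.val, by have := x.val_lt; omega, by simpa using hx⟩
  refine ⟨l, l2, fun h => l3 ?_⟩
  rw [chi_nat, (legendreSym.eq_one_iff p (by simpa using h0)).2 (by simpa using h)]
  simp

end Vale.Agent.P319
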