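import Vale.Agent.P319.FIN3
import Vale.Agent.P319.NonRes

/-! P319: a short list that holds a nonsquare. -/

namespace Vale.Agent.P319

open Vale.Agent.Lib.H24.T

theorem nrS : NRStmt := by
  obtain ⟨A, hA⟩ := nonres
  refine ⟨fun m => m :: List.range (false :: un (false :: false :: (m + 1).bits) A).length,
    PT.id.cons (PT.range_length ((PT.const false).cons
      (pt_un ((PT.const false).cons ((PT.const false).cons PT.id.succ.bits)) A))),
    fun m hp h2 => ?_⟩
  have := Fact.mk hp
  by_cases h : (m + 1) % 4 = 1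
  · obtain ⟨g, g1, g2⟩ := hA _ hp h
    refine ⟨g, List.mem_cons_of_mem _ ?_, g2⟩
    simpa [length_un, Nat.size_eq_bits_len, Nat.lt_succ_iff] using g1
  · have hm : ((m : ℕ) : ZMod (m + 1)) = -1 := eq_neg_of_add_eq_zero_left (by
      exact_mod_cast ZMod.natCast_self (m + 1))
    have o := hp.eq_two_or_odd.resolve_left h2
    exact ⟨m, List.mem_cons_self, by rw [hm, ZMod.exists_sq_eq_neg_one_iff]; omega⟩

end Vale.Agent.P319
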