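import Vale.Agent.P319.Spec4

/-! P319 wave 2: basic polynomial arithmetic in polynomial time. -/

namespace Vale.Agent.P319

open Vale.Agent.Lib.H24.T Vale.Agent.P338.PTX Polynomial

namespace PA1m

theorem rep_len {p : ℕ} (f : (ZMod p)[X]) : (rep f).length = f.natDegree + 1 := by simp [rep]

theorem rep_getD {p : ℕ} (f : (ZMod p)[X]) (i : ℕ) : (rep f).getD i 0 = (f.coeff i).val := by
  by_cases h : i < f.natDegree + 1
  · rw [List.getD_eq_getElem _ _ (by rwa [rep_len])]
    simp [rep]
  · rw [List.getD_eq_default _ _ (by rw [rep_len]; omega),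
      coeff_eq_zero_of_natDegree_lt (by omega), ZMod.val_zero]

theorem len_filter (N d : ℕ) :
    ((List.range N).filter fun i => decide (i < d)).length = min d N := by
  induction N with
  | zero => simp
  | succ N ih =>
    rw [List.range_succ, List.filter_append, List.length_append, ih]
    by_cases h : N < d <;> simp [h] <;> omega

variable {α β : Type} [Enc α] [Enc β]

theorem key {m : α → ℕ} {F : (a : α) → (ZMod (m a + 1))[X]} (u : α → List β) (c : α → ℕ → ℕ)
    (hm : PT m) (hu : PT u) (hc : PT fun q : α × ℕ => c q.1 q.2)
    (h1 : ∀ a i, (F a).coeff i = (c a i : ℕ)) (h2 : ∀ a, (F a).natDegree ≤ (u a).length) :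
    PP m F := by
  have hu1 : PT fun a => List.range (u a).length := PT.range_length hu
  have hu2 : PT fun a => List.range (0 :: List.range (u a).length).length :=
    PT.range_length ((PT.const 0).cons hu1)
  have hr : PT fun q : α × ℕ => c q.1 q.2 % (m q.1 + 1) := mod hc (hm.succ.comp PT.id.fst)
  have hd : PT fun a => (List.range (u a).length).filter fun i =>
      (List.range (0 :: List.range (u a).length).length).any fun j =>
        decide (i < j) && !decide (c a j % (m a + 1) = 0) :=
    PT.filter hu1 (PT.any (g := fun (q : α × ℕ) j =>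
      decide (q.2 < j) && !decide (c q.1 j % (m q.1 + 1) = 0)) (hu2.comp PT.id.fst)
      ((PT.lt PT.id.fst.snd PT.id.snd).and
        (PT.not ((hr.comp (PT.id.fst.fst.pair PT.id.snd)).eq (PT.const 0)))))
  have hz : ∀ a j, c a j % (m a + 1) = ((F a).coeff j).val := fun a j => by
    rw [h1, ZMod.val_natCast]
  have hd' : ∀ a, ((List.range (u a).length).filter fun i =>
      (List.range (0 :: List.range (u a).length).length).any fun j =>
        decide (i < j) && !decide (c a j % (m a + 1) = 0)).length = (F a).natDegree := by
    intro a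
    rw [← min_eq_left (h2 a), ← len_filter]
    congr 1
    refine List.filter_congr fun i _ => ?_
    rw [Bool.eq_iff_iff]
    simp only [List.any_eq_true, List.mem_range, Bool.and_eq_true, decide_eq_true_eq,
      Bool.not_eq_true', decide_eq_false_iff_not, hz, ZMod.val_eq_zero, List.length_cons,
      List.length_range]
    constructor
    · rintro ⟨j, -, a1, a2⟩
      exact a1.trans_le (le_natDegree_of_ne_zero a2)
    · intro a1
      refine ⟨(F a).natDegree, by have := h2 a; omega, a1, ?_⟩
      rw [coeff_natDegree, leadingCoeff_eq_zero]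
      intro e
      rw [e] at a1
      simp at a1
  have h3 := PT.map (g := fun a i => c a i % (m a + 1))
    (PT.range_length ((PT.const 0).cons hd)) hr
  refine h3.of_eq fun a => ?_
  rw [List.length_cons, hd']
  simp only [hz, rep]

theorem val {m : α → ℕ} {F : (a : α) → (ZMod (m a + 1))[X]} {g : β → α} {i : β → ℕ}
    (hF : PP m F) (hg : PT g) (hi : PT i) : PT fun b => ((F (g b)).coeff (i b)).val :=
  (PT.getD (PT.comp (f := fun a => rep (F a)) hF hg) hi (PT.const 0)).of_eq fun _ => rep_getD _ _

theorem coeff_lsum {R γ : Type} [Semiring R] (l : List γ) (F : γ → R[X]) (i : ℕ) :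
    (l.map F).sum.coeff i = (l.map fun b => (F b).coeff i).sum := by
  induction l with
  | nil => simp
  | cons b l ih => simp [ih]

theorem deg_lsum {p : ℕ} {γ : Type} (l : List γ) (F : γ → (ZMod p)[X]) :
    (l.map F).sum.natDegree ≤ (l.flatMap fun b => rep (F b)).length := by
  induction l with
  | nil => simp
  | cons b l ih =>
    rw [List.map_cons, List.sum_cons, List.flatMap_cons, List.length_append, rep_len]
    exact (natDegree_add_le _ _).trans (max_le (by omega) (by omega))

theorem lsum_range (n : ℕ) (c : ℕ → ℕ) :
    ((List.range n).map c).sum = ∑ i ∈ Finset.range n, c i := by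
  induction n with
  | zero => simp
  | succ n ih => rw [List.range_succ, List.map_append, List.sum_append, ih, Finset.sum_range_succ]; simp

theorem coeff_mul' {p : ℕ} (f g : (ZMod (p + 1))[X]) (k : ℕ) : (f * g).coeff k =
    (((List.range (rep f).length).map fun i =>
      if i ≤ k then (f.coeff i).val * (g.coeff (k - i)).val else 0).sum : ℕ) := by
  conv_lhs => rw [as_sum_range_C_mul_X_pow f]
  rw [Finset.sum_mul, finsetSum_coeff, rep_len, lsum_range, Nat.cast_sum]
  refine Finset.sum_congr rfl fun i _ => ?_
  rw [mul_assoc, coeff_C_mul, coeff_X_pow_mul']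
  split_ifs <;> simp

end PA1m

open PA1m

theorem pa1S : PA1Stmt where
  toP m f := by
    ext i
    rw [coeff_toPoly, rep_getD, ZMod.natCast_zmod_val]
  szr m f := by
    rw [← rep_len]
    refine sz_list_le fun a ha => ?_
    obtain ⟨i, -, rfl⟩ := List.mem_map.1 ha
    exact sz_nat_mono (Nat.le_of_lt_succ (ZMod.val_lt _))
  ofl α _ m l hm hl := key l (fun a i => (l a).getD i 0) hm hl
    (PT.getD (hl.comp PT.id.fst) PT.id.snd (PT.const 0)) (fun a i => coeff_toPoly _ _ _)
    fun a => natDegree_le_iff_coeff_eq_zero.2 fun i hi => by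
      rw [coeff_toPoly, List.getD_eq_default _ _ hi.le, Nat.cast_zero]
  add α _ m F G hm hF hG := key (fun a => rep (F a) ++ rep (G a))
    (fun a i => ((F a).coeff i).val + ((G a).coeff i).val) hm (PT.append hF hG)
    ((val hF PT.id.fst PT.id.snd).add (val hG PT.id.fst PT.id.snd)) (fun a i => by simp)
    fun a => by
      rw [List.length_append, rep_len, rep_len]
      exact (natDegree_add_le _ _).trans (max_le (by omega) (by omega))
  sub α _ m F G hm hF hG := key (fun a => rep (F a) ++ rep (G a))
    (fun a i => ((F a).coeff i).val + m a * ((G a).coeff i).val) hm (PT.append hF hG)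
    ((val hF PT.id.fst PT.id.snd).add ((hm.comp PT.id.fst).mul (val hG PT.id.fst PT.id.snd)))
    (fun a i => by
      have : ((m a : ℕ) : ZMod (m a + 1)) = -1 := by
        have := ZMod.natCast_self (m a + 1)
        rw [Nat.cast_add, Nat.cast_one] at this
        exact eq_neg_of_add_eq_zero_left this
      simp [this, sub_eq_add_neg])
    fun a => by
      rw [List.length_append, rep_len, rep_len]
      exact (natDegree_sub_le _ _).trans (max_le (by omega) (by omega))
  mul α _ m F G hm hF hG := key (fun a => rep (F a) ++ rep (G a))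
    (fun a k => ((List.range (rep (F a)).length).map fun i =>
      if i ≤ k then ((F a).coeff i).val * ((G a).coeff (k - i)).val else 0).sum) hm
    (PT.append hF hG)
    (sum (PT.map (g := fun (q : α × ℕ) i =>
      if i ≤ q.2 then ((F q.1).coeff i).val * ((G q.1).coeff (q.2 - i)).val else 0)
      ((PT.range_length hF).comp PT.id.fst)
      (PT.ite (PT.le PT.id.snd PT.id.fst.snd) ((val hF PT.id.fst.fst PT.id.snd).mul
        (val hG PT.id.fst.fst (PT.id.fst.snd.sub PT.id.snd))) (PT.const 0))))
    (fun a k => coeff_mul' _ _ _)
    fun a => by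
      rw [List.length_append, rep_len, rep_len]
      exact natDegree_mul_le.trans (by omega)
  cst α _ m c hm hc := key (fun _ => ([] : List ℕ)) (fun a i => if i = 0 then c a else 0) hm
    (PT.const _) (PT.ite (PT.eq PT.id.snd (PT.const 0)) (hc.comp PT.id.fst) (PT.const 0))
    (fun a i => by rw [coeff_C]; split_ifs <;> simp) fun a => by simp
  var α _ m hm := key (fun _ => ([0] : List ℕ)) (fun _ i => if 1 = i then 1 else 0) hm
    (PT.const _) (PT.ite (PT.eq (PT.const 1) PT.id.snd) (PT.const 1) (PT.const 0))
    (fun a i => by rw [coeff_X]; split_ifs <;> simp) fun a => natDegree_X_le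
  der α _ m F hm hF := key (fun a => rep (F a)) (fun a i => ((F a).coeff (i + 1)).val * (i + 1)) hm
    hF ((val hF PT.id.fst PT.id.snd.succ).mul PT.id.snd.succ)
    (fun a i => by simp [coeff_derivative])
    fun a => by
      rw [rep_len]
      exact (natDegree_derivative_le _).trans (by omega)
  coe α _ m i F hi hF := val hF PT.id hi
  deg α _ m F hF := (PT.length hF).pred.of_eq fun a => by rw [rep_len]; rfl
  sum α β _ _ m l F hm hl hF := key (fun a => (l a).flatMap fun b => rep (F a b))
    (fun a i => ((l a).map fun b => ((F a b).coeff i).val).sum) hm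
    (PT.flatMap (g := fun a b => rep (F a b)) hl hF)
    (sum (PT.map (g := fun (q : α × ℕ) b => ((F q.1 b).coeff q.2).val) (hl.comp PT.id.fst)
      (val (m := fun q : α × β => m q.1) (F := fun q => F q.1 q.2)
        (g := fun r : (α × ℕ) × β => (r.1.1, r.2)) hF (PT.id.fst.fst.pair PT.id.snd)
        PT.id.fst.snd)))
    (fun a i => by
      rw [coeff_lsum, Nat.cast_list_sum, List.map_map]
      congr 1
      exact List.map_congr_left fun b _ => by simp)
    fun a => deg_lsum _ _

end Vale.Agent.P319
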