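import Vale.Agent.P319.Spec5
import Vale.Agent.P319.PA1

/-! P319 wave 3, row NW: from power sums to the polynomial. -/

namespace Vale.Agent.P319

open Vale.Agent.Lib.H24.T Vale.Agent.P338.PTX Polynomial

namespace NWm

def st (m : ℕ) (l r : List ℕ) : List ℕ :=
  (m * ((List.range r.length).map fun t => l.getD t 0 * r.getD t 0).sum * minv m r.length) % (m + 1)
    :: r

def run (m : ℕ) (l : List ℕ) : List ℕ := (st m l)^[l.length] [1]

theorem st_sz (m : ℕ) (l : List ℕ) (i : ℕ) :
    sz ((st m l)^[i] [1]) ≤ sz ([1] : List ℕ) + i * (4 * sz m + 2) := by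
  induction i with
  | zero => simp
  | succ i ih =>
    rw [Function.iterate_succ_apply']
    generalize (st m l)^[i] [1] = r at *
    rw [st, sz_cons]
    have := sz_nat_mono (Nat.le_of_lt_succ (Nat.mod_lt (m * ((List.range r.length).map fun t =>
      l.getD t 0 * r.getD t 0).sum * minv m r.length) (Nat.succ_pos m)))
    rw [Nat.add_mul]
    simp only [Nat.succ_eq_add_one] at this
    omega

theorem pt_run {α : Type} [Enc α] {m : α → ℕ} {l : α → List ℕ} (hm : PT m) (hl : PT l) :
    PT fun a => run (m a) (l a) := by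
  have hm' : PT fun p : α × List ℕ => m p.1 := hm.comp PT.id.fst
  have h1 : PT fun p : α × List ℕ =>
      (List.range p.2.length).map fun t => (l p.1).getD t 0 * p.2.getD t 0 :=
    PT.map (g := fun (p : α × List ℕ) t => (l p.1).getD t 0 * p.2.getD t 0)
      (PT.range_length PT.id.snd)
      ((PT.getD (hl.comp PT.id.fst.fst) PT.id.snd (PT.const 0)).mul
        (PT.getD PT.id.fst.snd PT.id.snd (PT.const 0)))
  have hH : PT fun p : α × List ℕ => st (m p.1) (l p.1) p.2 :=
    (mod ((hm'.mul (Vale.Agent.P338.PTX.sum h1)).mul (pt_minv hm' PT.id.snd.length)) hm'.succ).cons PT.id.snd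
  exact PT.iterate (h := fun a => st (m a) (l a)) hH hl (PT.const [1])
    (fun a => sz ([1] : List ℕ) + (l a).length * (4 * sz (m a) + 2)) (by fun_prop) fun a i hi =>
      (st_sz _ _ i).trans (Nat.add_le_add_left (Nat.mul_le_mul_right _ hi) _)

theorem cast_sum {R : Type} [Semiring R] (g : ℕ → ℕ) (n : ℕ) :
    ((((List.range n).map g).sum : ℕ) : R) = ∑ t ∈ Finset.range n, (g t : R) := by
  induction n with
  | zero => simp
  | succ n ih => rw [List.range_succ, List.map_append, List.sum_append, Nat.cast_add, ih,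
      Finset.sum_range_succ]; simp

theorem newton {R : Type} [CommRing R] {ι : Type} (s : Finset ι) (δ : ι → R) (k : ℕ) :
    ((k + 1 : ℕ) : R) * ((-1) ^ (k + 1) * (s.val.map δ).esymm (k + 1)) =
      -∑ t ∈ Finset.range (k + 1), (∑ x ∈ s, δ x ^ (t + 1)) *
        ((-1) ^ (k - t) * (s.val.map δ).esymm (k - t)) := by
  have h := congrArg (MvPolynomial.aeval (R := R) fun x : s => δ x)
    (MvPolynomial.mul_esymm_eq_sum s R (k + 1))
  have e : (Finset.univ.val.map fun x : s => δ x) = s.val.map δ := by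
    rw [Finset.univ_eq_attach, Finset.attach_val]
    exact Multiset.attach_map_val' s.val δ
  have e2 : ∀ j, MvPolynomial.aeval (R := R) (fun x : s => δ x) (MvPolynomial.psum s R j) =
      ∑ x ∈ s, δ x ^ j := fun j => by
    simp only [MvPolynomial.psum, map_sum, map_pow, MvPolynomial.aeval_X]
    exact Finset.sum_coe_sort s fun x => δ x ^ j
  simp only [map_mul, map_natCast, map_pow, map_neg, map_one, map_sum,
    MvPolynomial.aeval_esymm_eq_multiset_esymm, e, e2] at h
  rw [Finset.sum_filter, Finset.Nat.sum_antidiagonal_succ', if_neg (lt_irrefl _), zero_add,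
    ← Finset.Nat.sum_antidiagonal_swap, Finset.Nat.sum_antidiagonal_eq_sum_range_succ_mk] at h
  have e3 : ∑ t ∈ Finset.range (k + 1), (∑ x ∈ s, δ x ^ (t + 1)) *
      ((-1) ^ (k - t) * (s.val.map δ).esymm (k - t)) = ∑ t ∈ Finset.range (k + 1),
      if k - t < k + 1 then (-1) ^ (k - t) * (s.val.map δ).esymm (k - t) * ∑ x ∈ s, δ x ^ (t + 1)
      else 0 := Finset.sum_congr rfl fun t _ => by rw [if_pos (by omega), mul_comm]
  rw [e3, mul_left_comm, h, ← mul_assoc, ← pow_add, Odd.neg_one_pow ⟨k + 1, by ring⟩, neg_one_mul]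
  rfl

theorem inv_run (m : ℕ) (l : List ℕ) (hp : (m + 1).Prime) (hl : l.length < m + 1)
    {ι : Type} (s : Finset ι) (δ : ι → ZMod (m + 1))
    (h : ∀ i < l.length, ((l.getD i 0 : ℕ) : ZMod (m + 1)) = ∑ x ∈ s, δ x ^ (i + 1))
    (i : ℕ) (hi : i ≤ l.length) :
    ((st m l)^[i] [1]).length = i + 1 ∧ ∀ t ≤ i, ((((st m l)^[i] [1]).getD t 0 : ℕ) : ZMod (m + 1)) =
      (-1) ^ (i - t) * (s.val.map δ).esymm (i - t) := by
  haveI := Fact.mk hp
  have hm : (m : ZMod (m + 1)) = -1 := eq_neg_of_add_eq_zero_left (by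
    exact_mod_cast ZMod.natCast_self (m + 1))
  induction i with
  | zero =>
    refine ⟨rfl, fun t ht => ?_⟩
    obtain rfl : t = 0 := by omega
    simp [Multiset.esymm]
  | succ i ih =>
    obtain ⟨i1, i2⟩ := ih (by omega)
    rw [Function.iterate_succ_apply']
    generalize (st m l)^[i] [1] = r at *
    refine ⟨by simp [st, i1], fun t ht => ?_⟩
    cases t with
    | succ t =>
      rw [st, List.getD_cons_succ, i2 t (by omega), Nat.add_sub_add_right]
    | zero =>
      have nz : ((i + 1 : ℕ) : ZMod (m + 1)) ≠ 0 := by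
        rw [Ne, ZMod.natCast_eq_zero_iff]
        intro k
        have := Nat.le_of_dvd (by omega) k
        omega
      have iv := cast_minv m (i + 1)
      rw [if_neg nz] at iv
      have nw := newton s δ i
      rw [st, List.getD_cons_zero, ZMod.natCast_mod, Nat.cast_mul, Nat.cast_mul, cast_sum, i1, hm,
        Nat.sub_zero, Finset.sum_congr rfl (g := fun t => (∑ x ∈ s, δ x ^ (t + 1)) *
          ((-1) ^ (i - t) * (s.val.map δ).esymm (i - t))) fun t ht => by
            have := Finset.mem_range.1 ht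
            rw [Nat.cast_mul, h t (by omega), i2 t (by omega)]]
      linear_combination (-(minv m (i + 1) : ZMod (m + 1))) * nw +
        ((-1) ^ (i + 1) * (s.val.map δ).esymm (i + 1)) * iv

end NWm

open NWm in
theorem nwS : NWStmt := by
  refine ⟨fun m l => toPoly (m + 1) (run m l), fun α _ m l hm hl =>
    pa1S.ofl α m _ hm (pt_run hm hl), fun m l hp hl ι s δ hs h => ?_⟩
  haveI := Fact.mk hp
  obtain ⟨i1, i2⟩ := inv_run m l hp hl s δ h l.length le_rfl
  have c : Multiset.card (s.val.map δ) = l.length := by rw [Multiset.card_map, ← hs]; rfl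
  have e : ∏ x ∈ s, (X - C (δ x)) = ((s.val.map δ).map fun t => X - C t).prod := by
    rw [Multiset.map_map]; rfl
  ext k
  rw [coeff_toPoly, e, run]
  by_cases hk : k ≤ l.length
  · rw [i2 k hk, Multiset.prod_X_sub_C_coeff _ (c ▸ hk), c]
  · rw [List.getD_eq_default _ _ (by omega), coeff_eq_zero_of_natDegree_lt (by
      rw [natDegree_multiset_prod_X_sub_C_eq_card]; omega), Nat.cast_zero]

end Vale.Agent.P319
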