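import Vale.Agent.P319.Spec4

/-! P319 wave 2: division with remainder. -/

namespace Vale.Agent.P319

open Vale.Agent.Lib.H24.T Vale.Agent.P338.PTX Polynomial

namespace PA2m

noncomputable def tt {p : ℕ} (G r : (ZMod p)[X]) : (ZMod p)[X] :=
  C r.leadingCoeff * X ^ (r.natDegree - G.natDegree)

noncomputable def st {p : ℕ} (G : (ZMod p)[X]) (s : (ZMod p)[X] × (ZMod p)[X]) : (ZMod p)[X] × (ZMod p)[X] :=
  if G.natDegree ≤ s.2.natDegree then (s.1 + tt G s.2, s.2 - G * tt G s.2) else s

theorem toPoly_mono (p : ℕ) (l : List ℕ) (c : ℕ) :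
    toPoly p (l.map (fun _ => 0) ++ [c]) = C (c : ZMod p) * X ^ l.length := by
  induction l with
  | nil => simp [toPoly]
  | cons a l ih =>
    have : toPoly p ((a :: l).map (fun _ => 0) ++ [c]) =
      C ((0 : ℕ) : ZMod p) + X * toPoly p (l.map (fun _ => 0) ++ [c]) := rfl
    rw [this, ih, List.length_cons, pow_succ]
    simp only [Nat.cast_zero, map_zero]; ring

theorem tt_deg {p : ℕ} (G r : (ZMod p)[X]) : (tt G r).natDegree ≤ r.natDegree - G.natDegree :=
  natDegree_C_mul_X_pow_le _ _

theorem st_deg {p : ℕ} (G F : (ZMod p)[X]) (i : ℕ) :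
    ((st G)^[i] (0, F)).1.natDegree ≤ F.natDegree ∧ ((st G)^[i] (0, F)).2.natDegree ≤ F.natDegree := by
  induction i with
  | zero => simp
  | succ i ih =>
    rw [Function.iterate_succ_apply']
    generalize (st G)^[i] (0, F) = s at *
    unfold st
    split_ifs with h
    · have t := tt_deg G s.2
      refine ⟨(natDegree_add_le _ _).trans (max_le ih.1 (by omega)),
        (natDegree_sub_le _ _).trans (max_le ih.2 (natDegree_mul_le.trans (by omega)))⟩
    · exact ih

theorem st_ok {p : ℕ} [Nontrivial (ZMod p)] {G : (ZMod p)[X]} (hG : G.Monic) (F : (ZMod p)[X]) (i : ℕ) :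
    ((st G)^[i] (0, F)).2 + G * ((st G)^[i] (0, F)).1 = F ∧
    (((st G)^[i] (0, F)).2.degree < G.degree ∨ ((st G)^[i] (0, F)).2.natDegree + i ≤ F.natDegree) := by
  induction i with
  | zero => simp
  | succ i ih =>
    rw [Function.iterate_succ_apply']
    generalize (st G)^[i] (0, F) = s at *
    unfold st
    split_ifs with h
    · refine ⟨by rw [← ih.1]; ring, ?_⟩
      by_cases r0 : s.2 = 0
      · left
        simp only [r0, tt, leadingCoeff_zero, map_zero, zero_mul, mul_zero, sub_zero, degree_zero]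
        exact bot_lt_iff_ne_bot.2 (degree_ne_bot.2 hG.ne_zero)
      have lc : s.2.leadingCoeff ≠ 0 := leadingCoeff_ne_zero.2 r0
      have lt : (s.2 - G * tt G s.2).degree < s.2.degree := by
        refine degree_sub_lt ?_ r0 ?_
        · rw [mul_comm, hG.degree_mul, tt, degree_C_mul_X_pow _ lc, degree_eq_natDegree hG.ne_zero,
            degree_eq_natDegree r0, ← Nat.cast_add, Nat.sub_add_cancel h]
        · rw [mul_comm, leadingCoeff_mul_monic hG, tt, leadingCoeff_C_mul_X_pow]
      rcases ih.2 with k | k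
      · exact Or.inl (lt.trans k)
      · by_cases z : s.2 - G * tt G s.2 = 0
        · left
          simp only [z, degree_zero]
          exact bot_lt_iff_ne_bot.2 (degree_ne_bot.2 hG.ne_zero)
        · right
          have := natDegree_lt_natDegree z lt
          simp only
          omega
    · exact ⟨ih.1, Or.inl (degree_lt_degree (not_le.1 h))⟩

theorem fin {m : ℕ} {G : (ZMod (m + 1))[X]} (hG : G.Monic) (F : (ZMod (m + 1))[X]) :
    (st G)^[F.natDegree + 1] (0, F) = (F /ₘ G, F %ₘ G) := by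
  rcases subsingleton_or_nontrivial (ZMod (m + 1)) with h | h
  · exact Subsingleton.elim _ _
  obtain ⟨h1, h2⟩ := st_ok hG F (F.natDegree + 1)
  obtain ⟨a, b⟩ := div_modByMonic_unique _ _ hG ⟨h1, h2.resolve_right (by omega)⟩
  exact Prod.ext a.symm b.symm

theorem len_rep {p : ℕ} (f : (ZMod p)[X]) : (rep f).length = f.natDegree + 1 := by simp [rep]

theorem pp_ite {α : Type} [Enc α] {m : α → ℕ} {c : α → Prop} [DecidablePred c]
    {F G : (a : α) → (ZMod (m a + 1))[X]} (hc : PT fun a => decide (c a)) (hF : PP m F) (hG : PP m G) :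
    PP m fun a => if c a then F a else G a :=
  (PT.ite hc hF hG).of_eq fun a => by beta_reduce; split_ifs <;> rfl

theorem pp_tt (h : PA1Stmt) {α : Type} [Enc α] {m : α → ℕ} {G r : (a : α) → (ZMod (m a + 1))[X]}
    (hm : PT m) (hG : PP m G) (hr : PP m r) : PP m fun a => tt (G a) (r a) := by
  have h1 : PT fun a => (rep (r a)).drop ((G a).natDegree + 1) := PT.drop (h.deg _ m G hG).succ hr
  have h2 := h.ofl α m _ hm (PT.append (PT.map (g := fun _ _ => 0) h1 (PT.const 0))
    (pt_l1 (h.coe α m _ r (h.deg _ m r hr) hr)))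
  refine PT.of_eq h2 fun a => ?_
  beta_reduce
  rw [toPoly_mono, List.length_drop, len_rep, Nat.add_sub_add_right, ZMod.natCast_zmod_val]
  rfl

theorem both (h : PA1Stmt) {α : Type} [Enc α] {m : α → ℕ} {F G : (a : α) → (ZMod (m a + 1))[X]}
    (hm : PT m) (hF : PP m F) (hG : PP m G) :
    PT fun a => (rep ((st (G a))^[(F a).natDegree + 1] (0, F a)).1,
      rep ((st (G a))^[(F a).natDegree + 1] (0, F a)).2) := by
  let H : α → List ℕ × List ℕ → List ℕ × List ℕ := fun a s =>
    (rep (st (G a) (toPoly (m a + 1) s.1, toPoly (m a + 1) s.2)).1,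
      rep (st (G a) (toPoly (m a + 1) s.1, toPoly (m a + 1) s.2)).2)
  have hm' : PT fun p : α × List ℕ × List ℕ => m p.1 := hm.comp PT.id.fst
  have hG' : PP (fun p : α × List ℕ × List ℕ => m p.1) fun p => G p.1 := PT.comp hG PT.id.fst
  have hq := h.ofl _ _ (fun p : α × List ℕ × List ℕ => p.2.1) hm' PT.id.snd.fst
  have hr := h.ofl _ _ (fun p : α × List ℕ × List ℕ => p.2.2) hm' PT.id.snd.snd
  have ht := pp_tt h hm' hG' hr
  have hc := PT.le (h.deg _ _ _ hG') (h.deg _ _ _ hr)
  have hH : PT fun p : α × List ℕ × List ℕ => H p.1 p.2 := by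
    refine (PT.ite hc (PT.pair (h.add _ _ _ _ hm' hq ht) (h.sub _ _ _ _ hm' hr (h.mul _ _ _ _ hm' hG' ht)))
      (PT.pair hq hr)).of_eq fun p => ?_
    simp only [H, st]
    split_ifs <;> rfl
  have key : ∀ a i, (H a)^[i] (rep (0 : (ZMod (m a + 1))[X]), rep (F a)) =
      (rep ((st (G a))^[i] (0, F a)).1, rep ((st (G a))^[i] (0, F a)).2) := by
    intro a i
    induction i with
    | zero => rfl
    | succ i ih =>
      rw [Function.iterate_succ_apply', ih, Function.iterate_succ_apply']
      simp only [H, h.toP]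
  have h0 : PT fun a => rep (0 : (ZMod (m a + 1))[X]) := (h.sub _ _ _ _ hm hF hF).of_eq fun a => by
    beta_reduce
    rw [sub_self]
  have hF' : PT fun a => rep (F a) := hF
  refine (PT.iterate (h := H) hH hF' (h0.pair hF')
    (fun a => 2 * ((rep (F a)).length * (4 * sz (m a) + 2) + 1) + 1) (by fun_prop) fun a i _ => ?_).of_eq
    fun a => by rw [key, len_rep]
  rw [key, sz_pair', len_rep]
  obtain ⟨d1, d2⟩ := st_deg (G a) (F a) i
  have a1 := (h.szr _ ((st (G a))^[i] (0, F a)).1).trans
    (Nat.add_le_add_right (Nat.mul_le_mul_right _ (Nat.add_le_add_right d1 1)) 1)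
  have a2 := (h.szr _ ((st (G a))^[i] (0, F a)).2).trans
    (Nat.add_le_add_right (Nat.mul_le_mul_right _ (Nat.add_le_add_right d2 1)) 1)
  simp only
  omega

theorem mon_iff {m : ℕ} (G : (ZMod (m + 1))[X]) : (G.coeff G.natDegree).val = 1 % (m + 1) ↔ G.Monic := by
  rw [← ZMod.val_natCast, (ZMod.val_injective _).eq_iff, Nat.cast_one]
  rfl

end PA2m
open PA2m

theorem pa2S (h : PA1Stmt) : PA2Stmt := by
  constructor
  · intro α _ m F G hm hF hG
    have hc := PT.eq (h.coe α m _ G (h.deg _ _ _ hG) hG) (mod (PT.const 1) hm.succ)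
    refine (PT.ite hc (both h hm hF hG).snd hF).of_eq fun a => ?_
    beta_reduce
    by_cases k : (G a).Monic
    · rw [if_pos ((mon_iff _).2 k), fin k]
    · rw [if_neg (mt (mon_iff _).1 k), modByMonic_eq_of_not_monic _ k]
  · intro α _ m F G hm hF hG
    have hc := PT.eq (h.coe α m _ G (h.deg _ _ _ hG) hG) (mod (PT.const 1) hm.succ)
    refine (PT.ite hc (both h hm hF hG).fst (h.sub _ _ _ _ hm hF hF)).of_eq fun a => ?_
    beta_reduce
    by_cases k : (G a).Monic
    · rw [if_pos ((mon_iff _).2 k), fin k]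
    · rw [if_neg (mt (mon_iff _).1 k), divByMonic_eq_of_not_monic _ k, sub_self]

end Vale.Agent.P319
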