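import Vale.Agent.P319.Spec5
import Vale.Agent.P319.PA1

/-! P319 wave 3, row PH: Hasse derivatives in polynomial time. -/

namespace Vale.Agent.P319

open Vale.Agent.Lib.H24.T Vale.Agent.P338.PTX Polynomial PA1m

theorem phS : PHStmt := by
  intro α _ m k F hm hk hF
  have hr : PT fun q : α × ℕ => rep (F q.1) := PT.comp (f := fun a => rep (F a)) hF PT.id.fst
  have ft : ∀ n : α × ℕ → ℕ, PT n → PT fun q : α × ℕ => (min (n q) (rep (F q.1)).length).factorial :=
    fun n hn => (fact (PT.filter (g := fun q i => decide (i < n q)) (PT.range_length hr)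
      (PT.lt PT.id.snd (hn.comp PT.id.fst)))).of_eq fun q => by rw [len_filter]
  have hk' : PT fun q : α × ℕ => k q.1 := hk.comp PT.id.fst
  have hs : PT fun q : α × ℕ => q.2 + k q.1 := PT.id.snd.add hk'
  refine key (fun a => rep (F a)) (fun a i => (min (i + k a) (rep (F a)).length).factorial /
      ((min i (rep (F a)).length).factorial * (min (k a) (rep (F a)).length).factorial) *
      ((F a).coeff (i + k a)).val) hm hF
    ((div (ft _ hs) ((ft _ PT.id.snd).mul (ft _ hk'))).mul (val hF PT.id.fst hs)) (fun a i => ?_)
    fun a => ?_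
  · rw [hasseDeriv_coeff, Nat.cast_mul, ZMod.natCast_zmod_val, rep_len]
    by_cases h : i + k a ≤ (F a).natDegree
    · rw [min_eq_left (by omega), min_eq_left (by omega), min_eq_left (by omega),
        Nat.add_choose]
    · rw [coeff_eq_zero_of_natDegree_lt (by omega), mul_zero, mul_zero]
  · rw [rep_len]
    exact (natDegree_hasseDeriv_le _ _).trans (by omega)

end Vale.Agent.P319
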