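import Vale.Agent.P319.Spec4

/-! P319 wave 2: powers modulo a monic polynomial in polynomial time. -/

namespace Vale.Agent.P319

open Vale.Agent.Lib.H24.T Vale.Agent.P338.PTX Polynomial

namespace PWm

theorem rec' {p : ℕ} (f g : (ZMod p)[X]) (b : Bool) (k : ℕ) : pwm f g (Nat.bit b k) =
    (pwm f g k * pwm f g k * (bif b then f else C ((1 : ℕ) : ZMod p))) %ₘ g := by
  unfold pwm
  split_ifs with hg
  · refine modByMonic_eq_of_dvd_sub hg ?_
    obtain ⟨c, hc⟩ := dvd_modByMonic_sub (f ^ k) g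
    have e : f ^ Nat.bit b k = f ^ k * f ^ k * (bif b then f else C ((1 : ℕ) : ZMod p)) := by
      rw [Nat.bit_val, pow_add, pow_mul', sq]
      cases b <;> simp
    rw [e]
    exact ⟨-(c * (f ^ k %ₘ g + f ^ k) * (bif b then f else C ((1 : ℕ) : ZMod p))), by
      linear_combination (-(f ^ k %ₘ g + f ^ k) * (bif b then f else C ((1 : ℕ) : ZMod p))) * hc⟩
  · simp

theorem base (m : ℕ) (f g : (ZMod (m + 1))[X]) : pwm f g 0 =
    if (g.coeff g.natDegree).val = 1 % (m + 1) then C ((1 : ℕ) : ZMod (m + 1)) %ₘ g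
    else C ((0 : ℕ) : ZMod (m + 1)) := by
  have e : (g.coeff g.natDegree).val = 1 % (m + 1) ↔ g.Monic := by
    rw [← ZMod.val_one_eq_one_mod]
    exact (ZMod.val_injective (m + 1)).eq_iff
  unfold pwm
  simp only [e]
  split_ifs <;> simp

theorem deg {p : ℕ} (f g : (ZMod p)[X]) (k : ℕ) : (pwm f g k).natDegree ≤ g.natDegree := by
  unfold pwm
  split_ifs with hg
  · exact natDegree_modByMonic_le _ hg
  · simp

end PWm

open PWm in
theorem pwS (h : PA1Stmt) (h2 : PA2Stmt) : PWStmt := by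
  intro α _ m e F G hm he hF hG
  have m' : PT fun q : α × List ℕ × Bool => m q.1 := hm.comp PT.id.fst
  have F' : PP (fun q : α × List ℕ × Bool => m q.1) fun q => F q.1 := PT.comp hF PT.id.fst
  have G' : PP (fun q : α × List ℕ × Bool => m q.1) fun q => G q.1 := PT.comp hG PT.id.fst
  have Y := h.ofl _ _ (fun q : α × List ℕ × Bool => q.2.1) m' PT.id.snd.fst
  have o := h.cst _ _ _ m' (PT.const 1)
  have c : PP (fun q : α × List ℕ × Bool => m q.1)
      fun q => bif q.2.2 then F q.1 else C ((1 : ℕ) : ZMod (m q.1 + 1)) :=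
    (PT.cond PT.id.snd.snd F' o).of_eq fun ⟨_, _, b⟩ => by cases b <;> rfl
  refine PT.binRec (φ := fun x k => rep (pwm (F x) (G x) k))
    (ψ := fun x y b => rep ((toPoly (m x + 1) y * toPoly (m x + 1) y *
      (bif b then F x else C ((1 : ℕ) : ZMod (m x + 1)))) %ₘ G x))
    (h2.mod _ _ _ _ m' (h.mul _ _ _ _ m' (h.mul _ _ _ _ m' Y Y) c) G') ?_ he (fun x b k => ?_)
    (fun x => (rep (G x)).length * (4 * sz (m x) + 2) + 1)
    (((Pb.length hG).mul (((Pb.const 4).mul (Pb.sz hm)).add (Pb.const 2))).add (Pb.const 1))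
    fun x k _ => ?_
  · refine (PT.ite ((h.coe _ _ _ _ (h.deg _ _ _ hG) hG).eq (mod (PT.const 1) hm.succ))
      (h2.mod _ _ _ _ hm (h.cst _ _ _ hm (PT.const 1)) hG) (h.cst _ _ _ hm (PT.const 0))).of_eq
      fun x => ?_
    rw [base, apply_ite rep]
  · rw [h.toP, rec']
  · have l : (rep (G x)).length = (G x).natDegree + 1 := by simp [rep]
    have := deg (F x) (G x) k
    rw [l]
    exact (h.szr _ _).trans (Nat.add_le_add_right (Nat.mul_le_mul_right _ (by omega)) 1)

end Vale.Agent.P319
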