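import Vale.Agent.P319.Alg

/-! P319: arithmetic of coefficient lists modulo `m + 1`. -/

namespace Vale.Agent.P319.Q

open Vale.Agent.Lib.H24.T Vale.Agent.P338.PTX Polynomial

variable {α β γ : Type} [Enc α] [Enc β] [Enc γ]

noncomputable abbrev tp (m : ℕ) (l : List ℕ) : (ZMod (m + 1))[X] := toPoly (m + 1) l

def ps (L : List (List ℕ)) : List ℕ :=
  (List.range L.flatten.length).map fun i => (L.map fun l => l.getD i 0).sum
def sm (c : ℕ) (l : List ℕ) : List ℕ := l.map fun x => c * x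
def mu (a b : List ℕ) : List ℕ :=
  ps ((List.range a.length).map fun i => ((a.take i).map fun _ => 0) ++ sm (a.getD i 0) b)
def nf (m : ℕ) (l : List ℕ) : List ℕ :=
  l.foldr (fun c r => if r.isEmpty ∧ c % (m + 1) = 0 then [] else c % (m + 1) :: r) []
def dg (m : ℕ) (l : List ℕ) : ℕ := (nf m l).tail.length
def dstep (m : ℕ) (μ : List ℕ) (c : ℕ) (s : List ℕ × List ℕ) : List ℕ × List ℕ :=
  ((c :: s.2).getD (dg m μ) 0 % (m + 1) :: s.1, (List.range (nf m μ).tail.length).map fun i =>
    ((c :: s.2).getD i 0 + m * (c :: s.2).getD (dg m μ) 0 * μ.getD i 0) % (m + 1))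
def dm (m : ℕ) (μ a : List ℕ) : List ℕ × List ℕ := a.foldr (dstep m μ) ([], [])
def md (m : ℕ) (μ a : List ℕ) : List ℕ := nf m (dm m μ a).2
def dv (m : ℕ) (μ a : List ℕ) : List ℕ := nf m (dm m μ a).1
def mon (m : ℕ) (a : List ℕ) : List ℕ := nf m (sm (minv m (a.getD (dg m a) 0)) a)
def gstep (m : ℕ) (s : List ℕ × List ℕ) : List ℕ × List ℕ :=
  if (nf m s.2).isEmpty then s else (mon m s.2, md m (mon m s.2) s.1)
def gc (m : ℕ) (a b : List ℕ) : List ℕ := mon m ((gstep m)^[(0 :: b).length] (nf m a, nf m b)).1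
def pw (m : ℕ) (μ a : List ℕ) (e : ℕ) : List ℕ :=
  e.bits.foldr (fun b y => md m μ (mu (mu y y) (bif b then a else [1]))) (md m μ [1])

/-! sizes -/

def Sm (m L : ℕ) (l : List ℕ) : Prop := l.length ≤ L ∧ ∀ c ∈ l, c ≤ m

theorem Sm.sz {m L : ℕ} {l : List ℕ} (h : Sm m L l) : sz l ≤ L * (4 * sz m + 2) + 1 :=
  (sz_list_le fun c hc => sz_nat_mono (h.2 c hc)).trans (by have := h.1; gcongr)

theorem Sm.mono {m L L' : ℕ} {l : List ℕ} (h : Sm m L l) (hL : L ≤ L') : Sm m L' l := ⟨h.1.trans hL, h.2⟩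

theorem sm_nf (m : ℕ) (l : List ℕ) : Sm m l.length (nf m l) := by
  induction l with
  | nil => exact ⟨le_rfl, by simp [nf]⟩
  | cons c l ih =>
    change Sm m _ (if (nf m l).isEmpty ∧ c % (m + 1) = 0 then [] else c % (m + 1) :: nf m l)
    split_ifs
    · exact ⟨by simp, by simp⟩
    · refine ⟨by simpa using ih.1, fun x hx => ?_⟩
      rcases List.mem_cons.1 hx with rfl | hx
      · exact Nat.le_of_lt_succ (Nat.mod_lt _ (by omega))
      · exact ih.2 x hx

theorem len_dm (m : ℕ) (μ a : List ℕ) : (dm m μ a).1.length = a.length ∧ (dm m μ a).2.length ≤ dg m μ := by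
  induction a with
  | nil => simp [dm]
  | cons c a ih =>
    change (dstep m μ c (dm m μ a)).1.length = _ ∧ (dstep m μ c (dm m μ a)).2.length ≤ _
    simp [dstep, ih.1, dg]

theorem dg_le (m : ℕ) (μ : List ℕ) : dg m μ ≤ μ.length := by
  have := (sm_nf m μ).1
  simp only [dg, List.length_tail]; omega

theorem sm_md (m : ℕ) (μ a : List ℕ) : Sm m μ.length (md m μ a) :=
  (sm_nf _ _).mono ((len_dm m μ a).2.trans (dg_le m μ))

theorem sm_dv (m : ℕ) (μ a : List ℕ) : Sm m a.length (dv m μ a) := (sm_nf _ _).mono (len_dm m μ a).1.le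

theorem sm_mon (m : ℕ) (a : List ℕ) : Sm m a.length (mon m a) := (sm_nf _ _).mono (by simp [sm])

/-! polynomial time -/

theorem pt_foldr {h : α → γ → β → β} {l : α → List γ} {b : α → β}
    (hh : PT fun p : α × β × γ => h p.1 p.2.2 p.2.1) (hl : PT l) (hb : PT b)
    (ψ : α × γ → ℕ) (hψ : Pb ψ) (hB : ∀ a y x, sz (h a x y) ≤ sz y + ψ (a, x)) :
    PT fun a => (l a).foldr (h a) (b a) :=
  (PT.foldl_add (h := fun a y x => h a x y) hh hl.reverse hb ψ hψ hB).of_eq fun _ => List.foldl_reverse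

@[fun_prop] theorem pt_ps {L : α → List (List ℕ)} (hL : PT L) : PT fun x => ps (L x) := by
  unfold ps; fun_prop
@[fun_prop] theorem pt_sm {c : α → ℕ} {l : α → List ℕ} (hc : PT c) (hl : PT l) : PT fun x => sm (c x) (l x) := by
  unfold sm; fun_prop
@[fun_prop] theorem pt_mu {a b : α → List ℕ} (ha : PT a) (hb : PT b) : PT fun x => mu (a x) (b x) := by
  unfold mu; fun_prop
@[fun_prop] theorem pt_nf {m : α → ℕ} {l : α → List ℕ} (hm : PT m) (hl : PT l) : PT fun x => nf (m x) (l x) :=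
  pt_foldr (h := fun x c r => if r.isEmpty ∧ c % (m x + 1) = 0 then [] else c % (m x + 1) :: r) (by fun_prop) hl
    (PT.const _) (fun p => 4 * sz p.2 + 2) (by fun_prop) fun a y x => by
      have := sz_nat_mono (Nat.mod_le x (m a + 1))
      have := sz_pos y
      split_ifs <;> simp <;> omega
@[fun_prop] theorem pt_dg {m : α → ℕ} {l : α → List ℕ} (hm : PT m) (hl : PT l) : PT fun x => dg (m x) (l x) := by
  unfold dg; fun_prop
@[fun_prop] theorem pt_dm {m : α → ℕ} {μ a : α → List ℕ} (hm : PT m) (hμ : PT μ) (ha : PT a) :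
    PT fun x => dm (m x) (μ x) (a x) :=
  pt_foldr (h := fun x => dstep (m x) (μ x)) (by unfold dstep; fun_prop) ha (PT.const _)
    (fun p => ((μ p.1).length + 1) * (4 * sz (m p.1) + 2) + 1) (by fun_prop) fun a y x => by
      have h1 : Sm (m a) (μ a).length (dstep (m a) (μ a) x y).2 := ⟨by
        simpa [dstep, dg] using dg_le (m a) (μ a), fun c hc => by
        obtain ⟨i, -, rfl⟩ := List.mem_map.1 hc
        exact Nat.le_of_lt_succ (Nat.mod_lt _ (by omega))⟩
      have h2 := h1.sz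
      have h3 := sz_nat_mono (Nat.le_of_lt_succ (Nat.mod_lt ((x :: y.2).getD (dg (m a) (μ a)) 0) (m a).succ_pos))
      have h4 : sz (dstep (m a) (μ a) x y).1 =
        sz ((x :: y.2).getD (dg (m a) (μ a)) 0 % (m a + 1)) + sz y.1 + 1 := sz_cons _ _
      have := sz_pos y.2
      rw [sz_pair', sz_pair' y, add_one_mul]
      simp only [Nat.succ_eq_add_one] at h3 ⊢
      omega
@[fun_prop] theorem pt_md {m : α → ℕ} {μ a : α → List ℕ} (hm : PT m) (hμ : PT μ) (ha : PT a) :
    PT fun x => md (m x) (μ x) (a x) := by unfold md; fun_prop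
@[fun_prop] theorem pt_dv {m : α → ℕ} {μ a : α → List ℕ} (hm : PT m) (hμ : PT μ) (ha : PT a) :
    PT fun x => dv (m x) (μ x) (a x) := by unfold dv; fun_prop
attribute [fun_prop] pt_minv
@[fun_prop] theorem pt_mon {m : α → ℕ} {a : α → List ℕ} (hm : PT m) (ha : PT a) :
    PT fun x => mon (m x) (a x) := by unfold mon; fun_prop

theorem sm_gstep {m L : ℕ} {s : List ℕ × List ℕ} (h : Sm m L s.1 ∧ Sm m L s.2) (i : ℕ) :
    Sm m L ((gstep m)^[i] s).1 ∧ Sm m L ((gstep m)^[i] s).2 := by
  induction i with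
  | zero => exact h
  | succ i ih =>
    rw [Function.iterate_succ_apply']
    generalize (gstep m)^[i] s = t at *
    unfold gstep
    split_ifs
    · exact ih
    · exact ⟨(sm_mon _ _).mono ih.2.1, (sm_md _ _ _).mono ((sm_mon _ _).1.trans ih.2.1)⟩

@[fun_prop] theorem pt_gc {m : α → ℕ} {a b : α → List ℕ} (hm : PT m) (ha : PT a) (hb : PT b) :
    PT fun x => gc (m x) (a x) (b x) :=
  pt_mon hm (PT.iterate (h := fun x => gstep (m x)) (l := fun x => 0 :: b x) (b := fun x => (nf (m x) (a x), nf (m x) (b x)))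
    (by unfold gstep; fun_prop) (by fun_prop) (by fun_prop)
    (fun x => 2 * (((a x).length + (b x).length) * (4 * sz (m x) + 2) + 1) + 1) (by fun_prop) fun x i _ => by
      have h := sm_gstep (s := (nf (m x) (a x), nf (m x) (b x))) (L := (a x).length + (b x).length)
        ⟨(sm_nf _ _).mono (by omega), (sm_nf _ _).mono (by omega)⟩ i
      have := h.1.sz
      have := h.2.sz
      rw [sz_pair']; omega).fst

@[fun_prop] theorem pt_pw {m e : α → ℕ} {μ a : α → List ℕ} (hm : PT m) (hμ : PT μ) (ha : PT a) (he : PT e) :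
    PT fun x => pw (m x) (μ x) (a x) (e x) :=
  pt_foldr (h := fun x b y => md (m x) (μ x) (mu (mu y y) (bif b then a x else [1]))) (by fun_prop) he.bits
    (by fun_prop) (fun p => (μ p.1).length * (4 * sz (m p.1) + 2) + 1) (by fun_prop) fun a y x =>
      (sm_md _ _ _).sz.trans (Nat.le_add_left _ _)

/-! meaning -/

variable {m : ℕ}

theorem tp_cons (c : ℕ) (l : List ℕ) : tp m (c :: l) = C (c : ZMod (m + 1)) + X * tp m l := rfl
@[simp] theorem tp_nil : tp m [] = 0 := rfl
theorem tp_one (c : ℕ) : tp m [c] = C (c : ZMod (m + 1)) := by simp [tp_cons]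
theorem cm : (m : ZMod (m + 1)) = -1 := eq_neg_of_add_eq_zero_left (by exact_mod_cast ZMod.natCast_self (m + 1))

theorem tp_ps (L : List (List ℕ)) : tp m (ps L) = (L.map (tp m)).sum := by
  ext i
  have : ∀ L : List (List ℕ), ((L.map (tp m)).sum).coeff i = ((L.map fun l => l.getD i 0).sum : ℕ) := by
    intro L
    induction L with
    | nil => simp
    | cons a L ih => rw [List.map_cons, List.sum_cons, coeff_add, ih, coeff_toPoly]; simp
  rw [coeff_toPoly, this]
  congr 1
  by_cases h : i < L.flatten.length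
  · rw [ps, List.getD_eq_getElem _ _ (by simpa using h)]; simp
  · rw [List.getD_eq_default _ _ (by simpa [ps] using h)]
    refine (List.sum_eq_zero fun x hx => ?_).symm
    obtain ⟨l, hl, rfl⟩ := List.mem_map.1 hx
    exact List.getD_eq_default _ _ ((List.sublist_flatten_of_mem hl).length_le.trans (not_lt.1 h))

theorem tp_sm (c : ℕ) (l : List ℕ) : tp m (sm c l) = C (c : ZMod (m + 1)) * tp m l := by
  induction l with
  | nil => simp [sm]
  | cons a l ih =>
    change tp m (c * a :: sm c l) = _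
    rw [tp_cons, tp_cons, ih]; push_cast; rw [C_mul]; ring

theorem tp_sh (z l : List ℕ) : tp m ((z.map fun _ => 0) ++ l) = X ^ z.length * tp m l := by
  induction z with
  | nil => simp
  | cons a z ih => rw [List.map_cons, List.cons_append, tp_cons, ih]; simp; ring

theorem lsum {M : Type} [AddCommMonoid M] (f : ℕ → M) (n : ℕ) :
    ((List.range n).map f).sum = ∑ i ∈ Finset.range n, f i := by
  induction n with
  | zero => simp
  | succ n ih => simp [List.range_succ, Finset.sum_range_succ, ih]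

theorem tp_sum (a : List ℕ) : tp m a = ∑ i ∈ Finset.range a.length, C (a.getD i 0 : ZMod (m + 1)) * X ^ i := by
  ext i
  simp only [finset_sum_coeff, coeff_C_mul_X_pow, Finset.sum_ite_eq, Finset.mem_range, coeff_toPoly]
  split_ifs with h
  · rfl
  · rw [List.getD_eq_default _ _ (not_lt.1 h)]; simp

theorem tp_mu (a b : List ℕ) : tp m (mu a b) = tp m a * tp m b := by
  rw [mu, tp_ps, List.map_map, lsum, tp_sum a, Finset.sum_mul]
  refine Finset.sum_congr rfl fun i hi => ?_
  rw [Function.comp, tp_sh, tp_sm, List.length_take, min_eq_left (Finset.mem_range.1 hi).le]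
  ring

theorem nf_spec [Fact (m + 1).Prime] (l : List ℕ) : tp m (nf m l) = tp m l ∧ (nf m l = [] ↔ tp m l = 0) ∧
    dg m l = (tp m l).natDegree := by
  induction l with
  | nil => simp [nf, dg]
  | cons c l ih =>
    obtain ⟨i1, i2, i3⟩ := ih
    have e : nf m (c :: l) = if (nf m l).isEmpty ∧ c % (m + 1) = 0 then [] else c % (m + 1) :: nf m l := rfl
    have z : c % (m + 1) = 0 ↔ (c : ZMod (m + 1)) = 0 := by
      rw [ZMod.natCast_eq_zero_iff, Nat.dvd_iff_mod_eq_zero]
    rw [dg, e, tp_cons]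
    simp only [List.isEmpty_iff, i2, z]
    by_cases h : tp m l = 0
    · by_cases h' : (c : ZMod (m + 1)) = 0
      · simp [h, h']
      · simp [h, h', tp_cons, i2.2 h, -map_natCast]
    · have d : (C (c : ZMod (m + 1)) + X * tp m l).natDegree = (tp m l).natDegree + 1 := by
        rw [add_comm (C _), natDegree_add_C, natDegree_X_mul h]
      rw [if_neg fun q => h q.1, tp_cons, i1, ZMod.natCast_mod, d, ← i3, dg]
      refine ⟨rfl, ⟨fun q => by simp at q, fun q => by rw [q] at d; simp at d⟩, ?_⟩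
      have := List.length_pos_iff.2 (mt i2.1 h)
      simp only [List.tail_cons, List.length_tail]; omega

variable [hp : Fact (m + 1).Prime]

theorem tp_nf (l : List ℕ) : tp m (nf m l) = tp m l := (nf_spec l).1
theorem nf_nil (l : List ℕ) : (nf m l).isEmpty ↔ tp m l = 0 := List.isEmpty_iff.trans (nf_spec l).2.1
theorem dg_eq (l : List ℕ) : dg m l = (tp m l).natDegree := (nf_spec l).2.2

theorem dm_spec {μ : List ℕ} (h : (tp m μ).Monic) (a : List ℕ) :
    tp m (dm m μ a).2 + tp m μ * tp m (dm m μ a).1 = tp m a := by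
  induction a with
  | nil => simp [dm]
  | cons c a ih =>
    have l := (len_dm m μ a).2
    change tp m (dstep m μ c (dm m μ a)).2 + tp m μ * tp m (dstep m μ c (dm m μ a)).1 = _
    generalize dm m μ a = s at *
    have e : tp m (dstep m μ c s).2 + C (((c :: s.2).getD (dg m μ) 0 : ℕ) : ZMod (m + 1)) * tp m μ =
        tp m (c :: s.2) := by
      ext i
      rw [coeff_add, coeff_C_mul, coeff_toPoly, coeff_toPoly _ (c :: s.2)]
      rcases lt_trichotomy i (dg m μ) with q | rfl | q
      · rw [dstep, List.getD_eq_getElem _ _ (by simpa [dg] using q), coeff_toPoly]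
        simp only [List.getElem_map, List.getElem_range, ZMod.natCast_mod]
        push_cast; rw [cm]; ring
      · rw [List.getD_eq_default _ _ (by simp [dstep, dg]), dg_eq μ, h.coeff_natDegree]; simp
      · rw [List.getD_eq_default _ _ (by simpa [dstep, dg] using q.le), coeff_eq_zero_of_natDegree_lt (by rwa [← dg_eq]),
          List.getD_eq_default (c :: s.2) _ (n := i) (by simp; omega)]
        simp
    have e2 : tp m (dstep m μ c s).1 = C (((c :: s.2).getD (dg m μ) 0 : ℕ) : ZMod (m + 1)) + X * tp m s.1 := by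
      rw [dstep, tp_cons, ZMod.natCast_mod]
    rw [tp_cons] at e ⊢
    rw [e2, ← ih]
    linear_combination e

theorem md_dv {μ : List ℕ} (h : (tp m μ).Monic) (a : List ℕ) :
    tp m a /ₘ tp m μ = tp m (dv m μ a) ∧ tp m a %ₘ tp m μ = tp m (md m μ a) := by
  rw [md, dv, tp_nf, tp_nf]
  refine div_modByMonic_unique _ _ h ⟨dm_spec h a, ?_⟩
  rw [degree_eq_natDegree h.ne_zero, ← dg_eq, degree_lt_iff_coeff_zero]
  intro i hi
  rw [coeff_toPoly, List.getD_eq_default _ _ ((len_dm m μ a).2.trans hi)]; simp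

theorem tp_md {μ : List ℕ} (h : (tp m μ).Monic) (a : List ℕ) : tp m (md m μ a) = tp m a %ₘ tp m μ :=
  (md_dv h a).2.symm
theorem tp_dv {μ : List ℕ} (h : (tp m μ).Monic) (a : List ℕ) : tp m (dv m μ a) = tp m a /ₘ tp m μ :=
  (md_dv h a).1.symm

theorem md_nil {μ : List ℕ} (h : (tp m μ).Monic) (a : List ℕ) : (md m μ a).isEmpty ↔ tp m μ ∣ tp m a := by
  rw [md, nf_nil, ← tp_nf, ← md, tp_md h, modByMonic_eq_zero_iff_dvd h]

theorem hom_md {K : Type} [CommRing K] (π : (ZMod (m + 1))[X] →+* K) {μ : List ℕ} (h : (tp m μ).Monic)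
    (h0 : π (tp m μ) = 0) (a : List ℕ) : π (tp m (md m μ a)) = π (tp m a) := by
  rw [tp_md h, modByMonic_eq_sub_mul_div, map_sub, map_mul, h0, zero_mul, sub_zero]

theorem hom_pw {K : Type} [CommRing K] (π : (ZMod (m + 1))[X] →+* K) {μ : List ℕ} (h : (tp m μ).Monic)
    (h0 : π (tp m μ) = 0) (a : List ℕ) (e : ℕ) : π (tp m (pw m μ a e)) = π (tp m a) ^ e := by
  induction e using Nat.binaryRec' with
  | zero => rw [pw, Nat.zero_bits, List.foldr_nil, hom_md π h h0, tp_one]; simp
  | bit b n hn ih =>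
    rw [pw, Nat.bits_append_bit n b hn, List.foldr_cons, ← pw, hom_md π h h0, tp_mu, tp_mu, map_mul, map_mul, ih,
      Nat.bit_val, pow_add, pow_mul', sq]
    cases b <;> simp [tp_one]

theorem minv_eq (a : ℕ) : (minv m a : ZMod (m + 1)) * a = if (a : ZMod (m + 1)) = 0 then 0 else 1 := cast_minv m a

theorem minv_inv {a : ℕ} (h : (a : ZMod (m + 1)) ≠ 0) : (minv m a : ZMod (m + 1)) = (a : ZMod (m + 1))⁻¹ :=
  eq_inv_of_mul_eq_one_left (by rw [minv_eq, if_neg h])

theorem mon_spec {a : List ℕ} (h : tp m a ≠ 0) :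
    tp m (mon m a) = C (tp m a).leadingCoeff⁻¹ * tp m a ∧ (tp m (mon m a)).Monic := by
  have e : (a.getD (dg m a) 0 : ZMod (m + 1)) = (tp m a).leadingCoeff := by
    rw [leadingCoeff, coeff_toPoly, dg_eq]
  have l := leadingCoeff_ne_zero.2 h
  have e2 : tp m (mon m a) = C (tp m a).leadingCoeff⁻¹ * tp m a := by
    rw [mon, tp_nf, tp_sm, minv_inv (e ▸ l), e]
  exact ⟨e2, by rw [e2, mul_comm]; exact monic_mul_leadingCoeff_inv h⟩

theorem dvd_mon (a : List ℕ) (g : (ZMod (m + 1))[X]) : g ∣ tp m (mon m a) ↔ g ∣ tp m a := by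
  by_cases h : tp m a = 0
  · rw [mon, tp_nf, tp_sm, h, mul_zero]
  · rw [(mon_spec h).1]
    exact IsUnit.dvd_mul_left (isUnit_C.2 (inv_ne_zero (leadingCoeff_ne_zero.2 h)).isUnit)

theorem dvd_gc (a b : List ℕ) (g : (ZMod (m + 1))[X]) : g ∣ tp m (gc m a b) ↔ g ∣ tp m a ∧ g ∣ tp m b := by
  have key : ∀ i s, s = (gstep m)^[i] (nf m a, nf m b) → (g ∣ tp m s.1 ∧ g ∣ tp m s.2 ↔ g ∣ tp m a ∧ g ∣ tp m b) ∧
      (tp m s.2 = 0 ∨ (nf m s.2).length + i ≤ b.length) := by
    intro i
    induction i with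
    | zero =>
      rintro s rfl
      exact ⟨by simp [tp_nf], Or.inr ((sm_nf _ _).1.trans (sm_nf m b).1)⟩
    | succ i ih =>
      rintro s rfl
      rw [Function.iterate_succ_apply']
      obtain ⟨i1, i2⟩ := ih _ rfl
      generalize (gstep m)^[i] (nf m a, nf m b) = s at *
      unfold gstep
      split_ifs with c
      · exact ⟨i1, Or.inl ((nf_nil _).1 c)⟩
      have c' := mt (nf_nil _).2 c
      obtain ⟨e, h⟩ := mon_spec c'
      refine ⟨?_, Or.inr ?_⟩
      · rw [← i1, tp_md h, ← dvd_mon s.2, and_comm (a := g ∣ tp m s.1)]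
        refine and_congr_right fun q => ?_
        rw [modByMonic_eq_sub_mul_div]
        exact dvd_sub_left (q.mul_right _)
      · have a1 := (sm_nf m (md m (mon m s.2) s.1)).1.trans ((sm_nf _ _).1.trans (len_dm m (mon m s.2) s.1).2)
        rw [dg_eq, e, natDegree_C_mul (inv_ne_zero (leadingCoeff_ne_zero.2 c')), ← dg_eq, dg, List.length_tail] at a1
        have := List.length_pos_iff.2 (mt List.isEmpty_iff.2 c)
        have := i2.resolve_left c'
        dsimp only
        omega
  obtain ⟨k1, k2⟩ := key (0 :: b).length _ rfl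
  rw [gc, dvd_mon, ← k1, k2.resolve_right (by simp; omega)]
  simp

theorem gc_monic {a : List ℕ} (h : tp m a ≠ 0) (b : List ℕ) : (tp m (gc m a b)).Monic := by
  refine (mon_spec fun z => h ?_).2
  have : (0 : (ZMod (m + 1))[X]) ∣ tp m (gc m a b) := by rw [gc, dvd_mon, z]
  exact zero_dvd_iff.1 ((dvd_gc a b 0).1 this).1

end Vale.Agent.P319.Q
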