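import Vale.Agent.P319.QG

/-! P319: splitting a product of at most four irreducible polynomials of the same degree. -/

namespace Vale.Agent.P319.Q

open Vale.Agent.Lib.H24.T Vale.Agent.P338.PTX Polynomial
open scoped Classical

section alg
variable {p : ℕ} [Fact p.Prime]

noncomputable def tr (h : (ZMod p)[X]) : (ZMod p)[X] →ₗ[ZMod p] ZMod p :=
  Algebra.trace (ZMod p) (AdjoinRoot h) ∘ₗ (AdjoinRoot.mkₐ h).toLinearMap

theorem tr_apply (h a : (ZMod p)[X]) : tr h a = Algebra.trace (ZMod p) (AdjoinRoot h) (AdjoinRoot.mk h a) := rfl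

theorem tr_eq {h : (ZMod p)[X]} (hi : Irreducible h) (a : (ZMod p)[X]) :
    AdjoinRoot.mk h (C (tr h a)) = ∑ i ∈ Finset.range h.natDegree, AdjoinRoot.mk h a ^ p ^ i := by
  have := Fact.mk hi
  obtain ⟨_, -⟩ := adj_card h
  have := FiniteField.algebraMap_trace_eq_sum_pow (ZMod p) (AdjoinRoot h) (AdjoinRoot.mk h a)
  rw [(AdjoinRoot.powerBasis hi.ne_zero).finrank, AdjoinRoot.powerBasis_dim, Nat.card_zmod] at this
  exact this

theorem mi_eq {h h' : (ZMod p)[X]} (m1 : h.Monic) (i1 : Irreducible h) (m2 : h'.Monic) (i2 : Irreducible h')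
    (d : h ∣ h') : h = h' := eq_of_monic_of_associated m1 m2 (i1.associated_of_dvd i2 d)

theorem sep {h h' g : (ZMod p)[X]} (m1 : h.Monic) (i1 : Irreducible h) (m2 : h'.Monic) (i2 : Irreducible h')
    (ne : h ≠ h') (d1 : h ∣ g) (d2 : h' ∣ g) (mg : g.Monic) {L : ℕ} (hL : g.natDegree < L) :
    ∃ j < L, tr h (X ^ j) ≠ tr h' (X ^ j) := by
  by_contra! c
  have := Fact.mk i1
  obtain ⟨_, -⟩ := adj_card h
  have : Module.Finite (ZMod p) (AdjoinRoot h) := (AdjoinRoot.powerBasis i1.ne_zero).finite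
  obtain ⟨θ, hθ⟩ := Algebra.trace_surjective (ZMod p) (AdjoinRoot h) 1
  have n0 : AdjoinRoot.mk h h' ≠ 0 := fun z => ne (mi_eq m1 i1 m2 i2 (AdjoinRoot.mk_eq_zero.1 z))
  obtain ⟨b, hb⟩ := AdjoinRoot.mk_surjective (g := h) (θ / AdjoinRoot.mk h h')
  have e : tr h (b * h' %ₘ g) = tr h' (b * h' %ₘ g) := by
    rw [(b * h' %ₘ g).as_sum_range_C_mul_X_pow' ((natDegree_modByMonic_le _ mg).trans_lt hL), map_sum, map_sum]
    refine Finset.sum_congr rfl fun j hj => ?_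
    rw [← smul_eq_C_mul, map_smul, map_smul, c j (Finset.mem_range.1 hj)]
  have e1 : AdjoinRoot.mk h (b * h' %ₘ g) = θ := by
    rw [modByMonic_eq_sub_mul_div, map_sub, map_mul, map_mul, hb, AdjoinRoot.mk_eq_zero.2 d1, div_mul_cancel₀ _ n0,
      zero_mul, sub_zero]
  have e2 : AdjoinRoot.mk h' (b * h' %ₘ g) = 0 := by
    rw [modByMonic_eq_sub_mul_div, map_sub, map_mul, map_mul, AdjoinRoot.mk_eq_zero.2 d2, AdjoinRoot.mk_self,
      zero_mul, mul_zero, sub_zero]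
  rw [tr_apply, tr_apply, e1, e2, hθ, map_zero] at e
  exact one_ne_zero e

theorem euler {s : Finset (ZMod p)[X]} {d : ℕ} (d0 : 0 < d) (hs : ∀ h ∈ s, h.Monic ∧ h.natDegree = d)
    (t : (ZMod p)[X] → ZMod p) {W : (ZMod p)[X]} (hW : ∀ h ∈ s, h ∣ W - C (t h)) :
    (W * derivative (∏ h ∈ s, h) %ₘ ∏ h ∈ s, h).coeff ((∏ h ∈ s, h).natDegree - 1) = d * ∑ h ∈ s, t h := by
  have mg : (∏ h ∈ s, h).Monic := monic_prod_of_monic _ _ fun h hh => (hs h hh).1
  have me : ∀ h, (∏ b ∈ s.erase h, b).Monic := fun h =>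
    monic_prod_of_monic _ _ fun b hb => (hs b (Finset.mem_of_mem_erase hb)).1
  have e : (∏ h ∈ s, h) ∣ W * derivative (∏ h ∈ s, h) -
      ∑ h ∈ s, C (t h) * ((∏ b ∈ s.erase h, b) * derivative h) := by
    rw [derivative_prod_finset, Finset.mul_sum, ← Finset.sum_sub_distrib]
    refine Finset.dvd_sum fun h hh => ?_
    rw [← sub_mul, ← mul_assoc, ← Finset.mul_prod_erase s (fun b => b) hh]
    exact (mul_dvd_mul_right (hW h hh) _).mul_right _
  rw [modByMonic_eq_of_dvd_sub mg e, (modByMonic_eq_self_iff mg).2, finset_sum_coeff, Finset.mul_sum]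
  · refine Finset.sum_congr rfl fun h hh => ?_
    obtain ⟨a, b⟩ := hs h hh
    rw [coeff_C_mul, ← Finset.mul_prod_erase s (fun b => b) hh, a.natDegree_mul (me h), b,
      show d + (∏ b ∈ s.erase h, b).natDegree - 1 = (∏ b ∈ s.erase h, b).natDegree + (d - 1) by omega,
      coeff_mul_add_eq_of_natDegree_le le_rfl (b ▸ natDegree_derivative_le h), (me h).coeff_natDegree,
      coeff_derivative, Nat.sub_add_cancel d0, ← b, a.coeff_natDegree, ← Nat.cast_succ, Nat.succ_eq_add_one,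
      Nat.sub_add_cancel (b ▸ d0)]
    ring
  · refine (degree_sum_le _ _).trans_lt ((Finset.sup_lt_iff (bot_lt_iff_ne_bot.2 (mt degree_eq_bot.1 mg.ne_zero))).2
      fun h hh => ?_)
    rw [← smul_eq_C_mul, ← Finset.prod_erase_mul s (fun b => b) hh]
    refine (degree_smul_le _ _).trans_lt ?_
    rw [degree_mul, degree_mul]
    exact WithBot.add_lt_add_left (mt degree_eq_bot.1 (me h).ne_zero) (degree_derivative_lt (hs h hh).1.ne_zero)

theorem iso {s : Finset (ZMod p)[X]} (hs : ∀ h ∈ s, h.Monic ∧ Irreducible h) {G h : (ZMod p)[X]} (mG : G.Monic)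
    (dG : G ∣ ∏ h ∈ s, h) (hh : h ∈ s) (d : h ∣ G) (o : ∀ h' ∈ s.erase h, ¬ h' ∣ G) : G = h := by
  obtain ⟨G', rfl⟩ := d
  rw [← Finset.mul_prod_erase s (fun b => b) hh, mul_dvd_mul_iff_left (hs h hh).1.ne_zero] at dG
  have u : IsUnit G' := by
    by_contra c
    obtain ⟨q, q1, q2⟩ := WfDvdMonoid.exists_irreducible_factor c (right_ne_zero_of_mul mG.ne_zero)
    obtain ⟨b, b1, b2⟩ := q1.prime.exists_mem_finset_dvd (q2.trans dG)
    exact o b b1 ((q1.associated_of_dvd (hs b (Finset.mem_of_mem_erase b1)).2 b2).symm.dvd.trans (q2.mul_left _))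
  rw [((hs h hh).1.of_mul_monic_left mG).eq_one_of_isUnit u, mul_one]

end alg

theorem three {β γ M : Type} [AddCommMonoid M] {u : Finset β} (hu : u.card ≤ 3) (f : β → γ) (e : γ) :
    ∃ a b c : γ, (∀ P : γ → Prop, P e → (∀ x ∈ u, P (f x)) → P a ∧ P b ∧ P c) ∧
      (∀ x ∈ u, f x = a ∨ f x = b ∨ f x = c) ∧ ∀ φ : γ → M, φ e = 0 → ∑ x ∈ u, φ (f x) = φ a + φ b + φ c := by
  obtain h | h | h | h : u.card = 0 ∨ u.card = 1 ∨ u.card = 2 ∨ u.card = 3 := by omega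
  · obtain rfl := Finset.card_eq_zero.1 h
    exact ⟨e, e, e, fun P h _ => ⟨h, h, h⟩, by simp, fun φ h => by simp [h]⟩
  · obtain ⟨x, rfl⟩ := Finset.card_eq_one.1 h
    exact ⟨f x, e, e, fun P h k => ⟨k x (by simp), h, h⟩, by simp, fun φ h => by simp [h]⟩
  · obtain ⟨x, y, n, rfl⟩ := Finset.card_eq_two.1 h
    exact ⟨f x, f y, e, fun P h k => ⟨k x (by simp), k y (by simp), h⟩, by simp, fun φ h => by simp [h, n]⟩
  · obtain ⟨x, y, z, n1, n2, n3, rfl⟩ := Finset.card_eq_three.1 h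
    exact ⟨f x, f y, f z, fun P h k => ⟨k x (by simp), k y (by simp), k z (by simp)⟩, by simp,
      fun φ h => by simp [n1, n2, n3, add_assoc]⟩

variable {α : Type} [Enc α]

def der (g : List ℕ) : List ℕ := (List.range g.length).map fun i => (i + 1) * g.getD (i + 1) 0
def xp (m : ℕ) (g : List ℕ) (e : ℕ) : List ℕ := pw m g [0, 1] e
def TT (m : ℕ) (g D : List ℕ) (j : ℕ) : List ℕ :=
  ps ((List.range D.length).map fun i => xp m g (j * (m + 1) ^ (D.take i).length))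
def psum (m : ℕ) (g D T : List ℕ) (r : ℕ) : ℕ :=
  (md m g (mu (pw m g T r) (der g))).getD (dg m g - 1) 0 * minv m D.length
def Cs (m : ℕ) (R g D T : List ℕ) : List ℕ :=
  R ++ rtp m R (psum m g D T 1) (psum m g D T 2) (psum m g D T 3) (psum m g D T 4)
def Dj (m : ℕ) (R g D T : List ℕ) : List (List ℕ) := (Cs m R g D T).map fun c => gc m g (ps [T, [m * c]])
def Ds (m : ℕ) (R g D : List ℕ) : List (List ℕ) :=
  g :: (List.range g.length).flatMap fun j => Dj m R g D (TT m g D j)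
def tri3 (m : ℕ) (g : List ℕ) (L : List (List ℕ)) : List (List ℕ) :=
  L.flatMap fun a => L.flatMap fun b => L.map fun c => gc m (gc m (gc m g a) b) c
def Hs (m : ℕ) (R g D : List ℕ) : List (List ℕ) := tri3 m g (Ds m R g D)

section
variable {m e : α → ℕ} {R g D T : α → List ℕ} {L : α → List (List ℕ)}
@[fun_prop] theorem pt_der (hg : PT g) : PT fun x => der (g x) := by unfold der; fun_prop
@[fun_prop] theorem pt_xp (hm : PT m) (hg : PT g) (he : PT e) : PT fun x => xp (m x) (g x) (e x) := by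
  unfold xp; fun_prop
@[fun_prop] theorem pt_TT (hm : PT m) (hg : PT g) (hD : PT D) (he : PT e) :
    PT fun x => TT (m x) (g x) (D x) (e x) := by unfold TT; fun_prop
@[fun_prop] theorem pt_psum (hm : PT m) (hg : PT g) (hD : PT D) (hT : PT T) (he : PT e) :
    PT fun x => psum (m x) (g x) (D x) (T x) (e x) :=
  (PT.getD (pt_md hm hg (pt_mu (pt_pw hm hg hT he) (pt_der hg))) (pt_dg hm hg).pred (PT.const 0)).mul
    (pt_minv hm hD.length)
@[fun_prop] theorem pt_Cs (hm : PT m) (hR : PT R) (hg : PT g) (hD : PT D) (hT : PT T) :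
    PT fun x => Cs (m x) (R x) (g x) (D x) (T x) := by unfold Cs; fun_prop
@[fun_prop] theorem pt_Dj (hm : PT m) (hR : PT R) (hg : PT g) (hD : PT D) (hT : PT T) :
    PT fun x => Dj (m x) (R x) (g x) (D x) (T x) := by unfold Dj; fun_prop
@[fun_prop] theorem pt_Ds (hm : PT m) (hR : PT R) (hg : PT g) (hD : PT D) :
    PT fun x => Ds (m x) (R x) (g x) (D x) := by unfold Ds; fun_prop
@[fun_prop] theorem pt_tri3 (hm : PT m) (hg : PT g) (hL : PT L) : PT fun x => tri3 (m x) (g x) (L x) := by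
  unfold tri3; fun_prop
@[fun_prop] theorem pt_Hs (hm : PT m) (hR : PT R) (hg : PT g) (hD : PT D) :
    PT fun x => Hs (m x) (R x) (g x) (D x) := by unfold Hs; fun_prop
end

variable {m : ℕ} [hp : Fact (m + 1).Prime]

omit hp in
theorem tp_der (g : List ℕ) : tp m (der g) = derivative (tp m g) := by
  ext i
  rw [coeff_derivative, coeff_toPoly, coeff_toPoly]
  by_cases h : i < g.length
  · rw [der, List.getD_eq_getElem _ _ (by simpa using h)]; simp [mul_comm]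
  · rw [List.getD_eq_default _ _ (by simpa [der] using h), List.getD_eq_default _ _ (by omega)]; simp

omit hp in
theorem tp_X : tp m [0, 1] = X := by simp [tp_cons]

theorem nd_lt {g : List ℕ} (h : tp m g ≠ 0) : (tp m g).natDegree < g.length := by
  by_contra c
  refine leadingCoeff_ne_zero.2 h ?_
  rw [leadingCoeff, coeff_toPoly, List.getD_eq_default _ _ (not_lt.1 c), Nat.cast_zero]

theorem TT_spec {g D : List ℕ} (mg : (tp m g).Monic) {h : (ZMod (m + 1))[X]} (hi : Irreducible h)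
    (hd : h.natDegree = D.length) (d : h ∣ tp m g) (j : ℕ) : h ∣ tp m (TT m g D j) - C (tr h (X ^ j)) := by
  rw [← AdjoinRoot.mk_eq_mk, tr_eq hi, TT, tp_ps, List.map_map, lsum, map_sum, hd]
  refine Finset.sum_congr rfl fun i hi => ?_
  rw [Function.comp, xp, hom_pw _ mg (AdjoinRoot.mk_eq_zero.2 d), tp_X, List.length_take,
    min_eq_left (Finset.mem_range.1 hi).le, pow_mul, map_pow]

theorem Hs_dvd {R g D : List ℕ} (h : tp m g ≠ 0) {H : List ℕ} (hH : H ∈ Hs m R g D) :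
    (tp m H).Monic ∧ tp m H ∣ tp m g := by
  obtain ⟨a, -, hH⟩ := List.mem_flatMap.1 hH
  obtain ⟨b, -, hH⟩ := List.mem_flatMap.1 hH
  obtain ⟨c, -, rfl⟩ := List.mem_map.1 hH
  exact ⟨gc_monic (gc_monic (gc_monic h _).ne_zero _).ne_zero _,
    ((dvd_gc _ _ _).1 ((dvd_gc _ _ _).1 ((dvd_gc _ _ _).1 dvd_rfl).1).1).1⟩

theorem Hs_mem {R g D : List ℕ} {s : Finset (ZMod (m + 1))[X]} (d0 : 0 < D.length)
    (hR : (∀ x : ZMod (m + 1), ∃ r ∈ R, (r : ZMod (m + 1)) = x) ∨ (RT m R ∧ D.length ≤ m))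
    (hs : ∀ h ∈ s, h.Monic ∧ Irreducible h ∧ h.natDegree = D.length) (hc : s.card ≤ 4)
    (hg : tp m g = ∏ h ∈ s, h) {h : (ZMod (m + 1))[X]} (hh : h ∈ s) : ∃ H ∈ Hs m R g D, tp m H = h := by
  have mg : (tp m g).Monic := hg ▸ monic_prod_of_monic _ _ fun h hh => (hs h hh).1
  have dv : ∀ h ∈ s, h ∣ tp m g := fun h hh => hg ▸ Finset.dvd_prod_of_mem (fun b => b) hh
  have c3 : (s.erase h).card ≤ 3 := by rw [Finset.card_erase_of_mem hh]; omega
  have T := fun j h hh => TT_spec mg (hs h hh).2.1 (hs h hh).2.2 (dv h hh) j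
  have C1 : ∀ j, ∃ c ∈ Cs m R g D (TT m g D j), (c : ZMod (m + 1)) = tr h (X ^ j) := fun j => by
    rcases hR with hR | ⟨hR, dm⟩
    · obtain ⟨r, r1, r2⟩ := hR (tr h (X ^ j))
      exact ⟨r, List.mem_append_left _ r1, r2⟩
    obtain ⟨y, z, w, -, -, k⟩ := three (M := ZMod (m + 1)) c3 (fun b => tr b (X ^ j)) 0
    have P : ∀ r, r ≠ 0 → (psum m g D (TT m g D j) r : ZMod (m + 1)) = tr h (X ^ j) ^ r + y ^ r + z ^ r + w ^ r :=
      fun r r0 => by
        have := euler d0 (fun h hh => ⟨(hs h hh).1, (hs h hh).2.2⟩) (fun b => tr b (X ^ j) ^ r)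
          (W := tp m (pw m g (TT m g D j) r)) fun b hb => by
            rw [← AdjoinRoot.mk_eq_mk, hom_pw _ mg (AdjoinRoot.mk_eq_zero.2 (dv b hb)),
              AdjoinRoot.mk_eq_mk.2 (T j b hb), C_pow, map_pow (AdjoinRoot.mk b)]
        rw [psum, Nat.cast_mul, ← coeff_toPoly, ← tp, tp_md mg, tp_mu, tp_der, dg_eq, hg, this, mul_comm, ← mul_assoc,
          minv_mul d0 dm, one_mul, ← Finset.add_sum_erase s _ hh, k (fun x => x ^ r) (zero_pow r0)]
        ring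
    obtain ⟨r, r1, r2⟩ := hR _ _ _ _ _ y z w (by simpa using P 1 one_ne_zero) (P 2 two_ne_zero) (P 3 three_ne_zero)
      (P 4 four_ne_zero)
    exact ⟨r, List.mem_append_right _ r1, r2⟩
  have C2 : ∀ b ∈ s.erase h, ∃ a, (a ∈ Ds m R g D ∧ h ∣ tp m a) ∧ ¬ b ∣ tp m a := fun b hb => by
    obtain ⟨ne, hb⟩ := Finset.mem_erase.1 hb
    obtain ⟨j, j1, j2⟩ := sep (hs h hh).1 (hs h hh).2.1 (hs b hb).1 (hs b hb).2.1 ne.symm (dv h hh) (dv b hb) mg
      (nd_lt mg.ne_zero)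
    obtain ⟨c, c1, c2⟩ := C1 j
    have e : tp m (ps [TT m g D j, [m * c]]) = tp m (TT m g D j) - C (tr h (X ^ j)) := by
      rw [tp_ps, ← c2]
      simp [tp_one, cm, sub_eq_add_neg, -map_natCast]
    refine ⟨gc m g (ps [TT m g D j, [m * c]]), ⟨List.mem_cons_of_mem _ (List.mem_flatMap.2
      ⟨j, List.mem_range.2 j1, List.mem_map_of_mem c1⟩), ?_⟩, ?_⟩
    · rw [dvd_gc, e]; exact ⟨dv h hh, T j h hh⟩
    · rw [dvd_gc, e]
      rintro ⟨-, q⟩
      have := dvd_sub (T j b hb) q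
      rw [sub_sub_sub_cancel_left, ← C_sub] at this
      exact (hs b hb).2.1.not_isUnit (isUnit_of_dvd_unit this (isUnit_C.2 (sub_ne_zero.2 j2).isUnit))
  choose! f f1 f2 using C2
  obtain ⟨a, b, c, k1, k2, -⟩ := three (M := ℕ) c3 f g
  obtain ⟨⟨a1, a2⟩, ⟨b1, b2⟩, c1, c2⟩ := k1 (fun a => a ∈ Ds m R g D ∧ h ∣ tp m a) ⟨List.mem_cons_self, dv h hh⟩ f1
  have mem : gc m (gc m (gc m g a) b) c ∈ Hs m R g D :=
    List.mem_flatMap.2 ⟨a, a1, List.mem_flatMap.2 ⟨b, b1, List.mem_map_of_mem c1⟩⟩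
  refine ⟨_, mem, iso (fun h hh => ⟨(hs h hh).1, (hs h hh).2.1⟩) (Hs_dvd mg.ne_zero mem).1
    (hg ▸ (Hs_dvd mg.ne_zero mem).2) hh ?_ fun x hx => ?_⟩
  · simp only [dvd_gc]; exact ⟨⟨⟨dv h hh, a2⟩, b2⟩, c2⟩
  · simp only [dvd_gc]
    rintro ⟨⟨⟨-, q1⟩, q2⟩, q3⟩
    rcases k2 x hx with e | e | e <;> exact f2 x hx (by rwa [e])

end Vale.Agent.P319.Q
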