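import Vale.Agent.P319.QE

/-! P319: distinct degree factorization and the main loop. -/

namespace Vale.Agent.P319.Q

open Vale.Agent.Lib.H24.T Vale.Agent.P338.PTX Polynomial UniqueFactorizationMonoid
open scoped Classical

variable {α : Type} [Enc α]

def fr (m : ℕ) (g E : List ℕ) : List ℕ := ps [xp m g ((m + 1) ^ E.length), [0, m]]
def WW (m : ℕ) (G E : List ℕ) (L : List ℕ) : List ℕ :=
  L.foldr (fun i y => md m G (mu y (fr m G (0 :: E.take i)))) [1]
def gd (m : ℕ) (G E : List ℕ) : List ℕ := dv m (gc m G (WW m G E (List.range E.length))) G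
def cd (m : ℕ) (R f E : List ℕ) : List (List ℕ) :=
  (Hs m R (gd m (gc m f (fr m f (0 :: E))) E) (0 :: E)).filter fun H => decide (dg m H = E.length + 1)
def cands (m : ℕ) (R f : List ℕ) : List (List ℕ) := (List.range f.tail.length).flatMap fun i => cd m R f (f.take i)
def fstep (m n : ℕ) (h : List ℕ) (s : List ℕ × List (List ℕ)) : List ℕ × List (List ℕ) :=
  if (md m h s.1).isEmpty then ((dv m h s.1).take n, h :: s.2) else s
def fac (m : ℕ) (f : List ℕ) (L : List (List ℕ)) : List ℕ × List (List ℕ) := L.foldr (fstep m f.length) (f, [])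
def full (m : ℕ) (R f : List ℕ) : List (List ℕ) :=
  (fac m f ((cands m R f).flatMap fun h => List.replicate f.length h)).2
def UU (A : ℕ) (w : List ℕ) : List Bool :=
  un (false :: false :: (w.getD 0 0).bits) A ++ (0 :: 0 :: w).map fun _ => false
def alg4 (A : ℕ) (w : List ℕ) : List (List ℕ) :=
  [w.tail.getD (dg (w.getD 0 0 - 1) w.tail) 0] :: full (w.getD 0 0 - 1)
    (List.range (false :: (UU A w ++ UU A w)).length) (mon (w.getD 0 0 - 1) w.tail)

section
variable {m : α → ℕ} {R g E L : α → List ℕ} {S : α → List (List ℕ)}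
@[fun_prop] theorem pt_fr (hm : PT m) (hg : PT g) (hE : PT E) : PT fun x => fr (m x) (g x) (E x) := by
  unfold fr; fun_prop
@[fun_prop] theorem pt_WW (hm : PT m) (hg : PT g) (hE : PT E) (hL : PT L) :
    PT fun x => WW (m x) (g x) (E x) (L x) :=
  pt_foldr (h := fun x i y => md (m x) (g x) (mu y (fr (m x) (g x) (0 :: (E x).take i)))) (by fun_prop) hL
    (PT.const _) (fun p => (g p.1).length * (4 * sz (m p.1) + 2) + 1) (by fun_prop) fun a y x =>
      (sm_md _ _ _).sz.trans (Nat.le_add_left _ _)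
@[fun_prop] theorem pt_gd (hm : PT m) (hg : PT g) (hE : PT E) : PT fun x => gd (m x) (g x) (E x) := by
  unfold gd; fun_prop
@[fun_prop] theorem pt_cd (hm : PT m) (hR : PT R) (hg : PT g) (hE : PT E) :
    PT fun x => cd (m x) (R x) (g x) (E x) :=
  PT.filter (g := fun x H => decide (dg (m x) H = (E x).length + 1)) (by fun_prop)
    ((pt_dg (hm.comp PT.id.fst) PT.id.snd).eq (hE.length.succ.comp PT.id.fst))
@[fun_prop] theorem pt_cands (hm : PT m) (hR : PT R) (hg : PT g) : PT fun x => cands (m x) (R x) (g x) := by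
  unfold cands; fun_prop
@[fun_prop] theorem pt_fac (hm : PT m) (hg : PT g) (hS : PT S) : PT fun x => fac (m x) (g x) (S x) :=
  pt_foldr (h := fun x => fstep (m x) (g x).length) (by unfold fstep; fun_prop) hS (by fun_prop)
    (fun p => (g p.1).length * (4 * sz (m p.1) + 2) + 2 + sz p.2) (by fun_prop) fun a y x => by
      have h : Sm (m a) (g a).length ((dv (m a) x y.1).take (g a).length) :=
        ⟨List.length_take_le _ _, fun c hc => (sm_dv _ _ _).2 c (List.mem_of_mem_take hc)⟩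
      have := h.sz
      have := sz_cons x y.2
      unfold fstep
      split_ifs
      · rw [sz_pair', sz_pair' y]; dsimp only; omega
      · omega
@[fun_prop] theorem pt_full (hm : PT m) (hR : PT R) (hg : PT g) : PT fun x => full (m x) (R x) (g x) := by
  unfold full; fun_prop
end

theorem pt_alg4 (A : ℕ) : PT (alg4 A) := by
  have h0 : PT fun w : List ℕ => w.getD 0 0 := PT.getD PT.id (PT.const 0) (PT.const 0)
  have ht : PT fun w : List ℕ => w.tail := by fun_prop
  have hU : PT (UU A) := (pt_un ((PT.const false).cons ((PT.const false).cons h0.bits)) A).append (by fun_prop)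
  exact (pt_l1 (PT.getD ht (pt_dg h0.pred ht) (PT.const 0))).cons
    (pt_full h0.pred (PT.range_length ((PT.const false).cons (hU.append hU))) (pt_mon h0.pred ht))

variable {m : ℕ} [hp : Fact (m + 1).Prime]

theorem fr_dvd {g : List ℕ} (mg : (tp m g).Monic) {h : (ZMod (m + 1))[X]} (d : h ∣ tp m g) (E : List ℕ) :
    h ∣ tp m (fr m g E) ↔ h ∣ X ^ (m + 1) ^ E.length - X := by
  rw [← AdjoinRoot.mk_eq_zero, ← AdjoinRoot.mk_eq_zero, fr, tp_ps]
  simp only [List.map_cons, List.map_nil, List.sum_cons, List.sum_nil, map_add, add_zero, xp]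
  rw [hom_pw _ mg (AdjoinRoot.mk_eq_zero.2 d), tp_X, tp_cons, tp_one, cm]
  simp [sub_eq_add_neg]

theorem ir_dvd {h : (ZMod (m + 1))[X]} (hi : Irreducible h) (n : ℕ) :
    h ∣ X ^ (m + 1) ^ n - X ↔ h.natDegree ∣ n := by
  rw [hi.natDegree_dvd_iff_dvd_X_pow_card_pow_sub_X, Nat.card_zmod]

theorem WW_dvd {G : List ℕ} (mg : (tp m G).Monic) {h : (ZMod (m + 1))[X]} (hi : Irreducible h) (d : h ∣ tp m G)
    (E L : List ℕ) : h ∣ tp m (WW m G E L) ↔ ∃ i ∈ L, h.natDegree ∣ (E.take i).length + 1 := by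
  induction L with
  | nil => simpa [WW, tp_one] using hi.not_dvd_one
  | cons i L ih =>
    change h ∣ tp m (md m G (mu (WW m G E L) (fr m G (0 :: E.take i)))) ↔ _
    rw [← AdjoinRoot.mk_eq_zero, hom_md _ mg (AdjoinRoot.mk_eq_zero.2 d), AdjoinRoot.mk_eq_zero, tp_mu,
      hi.prime.dvd_mul, ih, fr_dvd mg d, ir_dvd hi, List.length_cons]
    simp [or_comm]

theorem gd_spec {f : List ℕ} (mf : (tp m f).Monic) (E : List ℕ) :
    (tp m (gd m (gc m f (fr m f (0 :: E))) E)).Monic ∧ Squarefree (tp m (gd m (gc m f (fr m f (0 :: E))) E)) ∧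
    ∀ h, Irreducible h → (h ∣ tp m (gd m (gc m f (fr m f (0 :: E))) E) ↔
      h ∣ tp m f ∧ h.natDegree = E.length + 1) := by
  have mG := gc_monic mf.ne_zero (fr m f (0 :: E))
  have dG : ∀ h, h ∣ tp m (gc m f (fr m f (0 :: E))) ↔ h ∣ tp m f ∧ h ∣ X ^ (m + 1) ^ (E.length + 1) - X :=
    fun h => by rw [dvd_gc]; exact and_congr_right fun d => fr_dvd mf d _
  generalize gc m f (fr m f (0 :: E)) = G at *
  have sG : Squarefree (tp m G) := (galois_poly_separable (m + 1) _
    (dvd_pow_self _ E.length.succ_ne_zero)).squarefree.squarefree_of_dvd ((dG _).1 dvd_rfl).2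
  have mH := gc_monic mG.ne_zero (WW m G E (List.range E.length))
  have dH := dvd_gc (m := m) G (WW m G E (List.range E.length))
  have e : tp m (gc m G (WW m G E (List.range E.length))) * tp m (gd m G E) = tp m G := by
    rw [gd, tp_dv mH]
    have := modByMonic_add_div (tp m G) (tp m (gc m G (WW m G E (List.range E.length))))
    rwa [(modByMonic_eq_zero_iff_dvd mH).2 ((dH _).1 dvd_rfl).1, zero_add] at this
  generalize gc m G (WW m G E (List.range E.length)) = H at *
  refine ⟨mH.of_mul_monic_left (e ▸ mG), sG.squarefree_of_dvd (Dvd.intro_left _ e), fun h hi => ⟨fun d => ?_, ?_⟩⟩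
  · have d1 : h ∣ tp m G := d.trans (Dvd.intro_left _ e)
    obtain ⟨d2, d3⟩ := (dG h).1 d1
    refine ⟨d2, (Nat.le_of_dvd E.length.succ_pos ((ir_dvd hi _).1 d3)).antisymm (not_lt.1 fun c => ?_)⟩
    have p := hi.natDegree_pos
    have : h ∣ tp m H := (dH h).2 ⟨d1, (WW_dvd mG hi d1 _ _).2 ⟨h.natDegree - 1, List.mem_range.2 (by omega), by
      rw [List.length_take, min_eq_left (by omega), Nat.sub_add_cancel p]⟩⟩
    exact hi.not_isUnit (sG h (e ▸ mul_dvd_mul this d))
  · rintro ⟨d1, d2⟩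
    have d3 : h ∣ tp m G := (dG h).2 ⟨d1, (ir_dvd hi _).2 d2.dvd⟩
    refine (hi.prime.dvd_mul.1 (e ▸ d3)).resolve_left fun c => ?_
    obtain ⟨i, i1, i2⟩ := (WW_dvd mG hi d3 _ _).1 ((dH h).1 c).2
    have := Nat.le_of_dvd (Nat.succ_pos _) i2
    have := List.mem_range.1 i1
    rw [List.length_take] at *
    omega

theorem cd_ok {R f E H : List ℕ} (mf : (tp m f).Monic) (hH : H ∈ cd m R f E) :
    (tp m H).Monic ∧ Irreducible (tp m H) := by
  obtain ⟨g1, -, g3⟩ := gd_spec mf E
  obtain ⟨h1, h2⟩ := List.mem_filter.1 hH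
  obtain ⟨a, b⟩ := Hs_dvd g1.ne_zero h1
  rw [decide_eq_true_iff, dg_eq] at h2
  refine ⟨a, ?_⟩
  obtain ⟨q, q1, q2⟩ := WfDvdMonoid.exists_irreducible_factor
    (not_isUnit_of_natDegree_pos _ (h2 ▸ E.length.succ_pos)) a.ne_zero
  exact (associated_of_dvd_of_natDegree_le q2 a.ne_zero
    (h2.trans ((g3 q q1).1 (q2.trans b)).2.symm).le).irreducible q1

theorem cd_mem {R f E : List ℕ} (mf : (tp m f).Monic)
    (hR : (∀ x : ZMod (m + 1), ∃ r ∈ R, (r : ZMod (m + 1)) = x) ∨ (RT m R ∧ E.length + 1 ≤ m))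
    (h4 : ∀ (d : ℕ) (s : Finset (ZMod (m + 1))[X]),
      (∀ h ∈ s, h.Monic ∧ Irreducible h ∧ h ∣ tp m f ∧ h.natDegree = d) → s.card ≤ 4)
    {h : (ZMod (m + 1))[X]} (hm : h.Monic) (hi : Irreducible h) (d : h ∣ tp m f) (hd : h.natDegree = E.length + 1) :
    ∃ H ∈ cd m R f E, tp m H = h := by
  obtain ⟨g1, g2, g3⟩ := gd_spec mf E
  have k := fun q => (Multiset.mem_toFinset.trans (Polynomial.mem_normalizedFactors_iff (p := q) g1.ne_zero))
  have k2 : ∀ q ∈ (normalizedFactors (tp m (gd m (gc m f (fr m f (0 :: E))) E))).toFinset,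
      q.Monic ∧ Irreducible q ∧ q ∣ tp m f ∧ q.natDegree = E.length + 1 := fun q hq =>
    ⟨((k q).1 hq).2.1, ((k q).1 hq).1, (g3 q ((k q).1 hq).1).1 ((k q).1 hq).2.2⟩
  obtain ⟨H, H1, H2⟩ := Hs_mem (R := R) (g := gd m (gc m f (fr m f (0 :: E))) E) (D := 0 :: E) (by simp) hR
    (fun q hq => ⟨(k2 q hq).1, (k2 q hq).2.1, (k2 q hq).2.2.2⟩) (h4 _ _ k2) (by
      have := leadingCoeff_mul_prod_normalizedFactors (tp m (gd m (gc m f (fr m f (0 :: E))) E))
      rw [g1.leadingCoeff, C_1, one_mul] at this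
      rw [Finset.prod_eq_multiset_prod, Multiset.map_id', Multiset.toFinset_val, Multiset.dedup_eq_self.2
        ((squarefree_iff_nodup_normalizedFactors g1.ne_zero).1 g2), this])
    ((k h).2 ⟨hi, hm, (g3 h hi).2 ⟨d, hd⟩⟩)
  exact ⟨H, List.mem_filter.2 ⟨H1, by rw [decide_eq_true_iff, dg_eq, H2, hd]⟩, H2⟩

theorem fac_spec {f : List ℕ} (mf : (tp m f).Monic) (L : List (List ℕ))
    (hL : ∀ H ∈ L, (tp m H).Monic ∧ Irreducible (tp m H)) :
    (fac m f L).1.length ≤ f.length ∧ (tp m (fac m f L).1).Monic ∧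
    tp m f = tp m (fac m f L).1 * ((fac m f L).2.map (tp m)).prod ∧ (∀ H ∈ (fac m f L).2, H ∈ L) ∧
    ∀ H, tp m H ∣ tp m (fac m f L).1 → (tp m (fac m f L).1).natDegree + L.count H ≤ (tp m f).natDegree := by
  induction L with
  | nil => exact ⟨le_rfl, mf, by simp [fac], by simp [fac], fun H _ => by simp [fac]⟩
  | cons a L ih =>
    obtain ⟨i1, i2, i3, i4, i5⟩ := ih fun H hH => hL H (List.mem_cons_of_mem _ hH)
    obtain ⟨a1, a2⟩ := hL a List.mem_cons_self
    have e : fac m f (a :: L) = fstep m f.length a (fac m f L) := rfl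
    rw [e]
    generalize fac m f L = s at *
    unfold fstep
    split_ifs with c
    · have l := (sm_dv m a s.1).1.trans i1
      have e2 : tp m a * tp m (dv m a s.1) = tp m s.1 := by
        rw [tp_dv a1]
        have := modByMonic_add_div (tp m s.1) (tp m a)
        rwa [(modByMonic_eq_zero_iff_dvd a1).2 ((md_nil a1 _).1 c), zero_add] at this
      have m2 := a1.of_mul_monic_left (e2 ▸ i2)
      dsimp only
      rw [List.take_of_length_le l]
      refine ⟨l, m2, by rw [i3, ← e2, List.map_cons, List.prod_cons]; ring, fun H hH => ?_, fun H hH => ?_⟩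
      · exact List.mem_cons.2 ((List.mem_cons.1 hH).imp_right (i4 H))
      · have := i5 H (hH.trans (Dvd.intro_left _ e2))
        have := a2.natDegree_pos
        have := List.count_cons (a := H) (b := a) (l := L)
        rw [← e2, a1.natDegree_mul m2] at *
        split_ifs at this <;> omega
    · refine ⟨i1, i2, i3, fun H hH => List.mem_cons_of_mem _ (i4 H hH), fun H hH => ?_⟩
      have ne : a ≠ H := fun z => c ((md_nil a1 _).2 (z ▸ hH))
      rw [List.count_cons_of_ne ne]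
      exact i5 H hH

theorem full_spec {R f : List ℕ} (mf : (tp m f).Monic)
    (hR : (∀ x : ZMod (m + 1), ∃ r ∈ R, (r : ZMod (m + 1)) = x) ∨ (RT m R ∧ f.length ≤ m))
    (h4 : ∀ (d : ℕ) (s : Finset (ZMod (m + 1))[X]),
      (∀ h ∈ s, h.Monic ∧ Irreducible h ∧ h ∣ tp m f ∧ h.natDegree = d) → s.card ≤ 4) :
    tp m f = ((full m R f).map (tp m)).prod ∧ ∀ H ∈ full m R f, (tp m H).Monic ∧ Irreducible (tp m H) := by
  have hL : ∀ H ∈ (cands m R f).flatMap fun h => List.replicate f.length h,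
      (tp m H).Monic ∧ Irreducible (tp m H) := fun H hH => by
    obtain ⟨a, a1, a2⟩ := List.mem_flatMap.1 hH
    obtain ⟨i, -, i2⟩ := List.mem_flatMap.1 a1
    exact List.eq_of_mem_replicate a2 ▸ cd_ok mf i2
  obtain ⟨-, i2, i3, i4, i5⟩ := fac_spec mf _ hL
  refine ⟨?_, fun H hH => hL H (i4 H hH)⟩
  by_cases u : IsUnit (tp m (fac m f ((cands m R f).flatMap fun h => List.replicate f.length h)).1)
  · rwa [i2.eq_one_of_isUnit u, one_mul] at i3
  obtain ⟨q, q1, q2, q3⟩ := exists_monic_irreducible_factor _ u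
  have d : q ∣ tp m f := q3.trans (Dvd.intro _ i3.symm)
  have n1 := natDegree_le_of_dvd d mf.ne_zero
  have n2 := nd_lt mf.ne_zero
  have n3 := q2.natDegree_pos
  have l : (f.take (q.natDegree - 1)).length + 1 = q.natDegree := by rw [List.length_take]; omega
  obtain ⟨H, H1, H2⟩ := cd_mem (E := f.take (q.natDegree - 1)) mf (hR.imp_right fun z => ⟨z.1, by omega⟩) h4 q1 q2 d
    l.symm
  have H3 : H ∈ cands m R f := List.mem_flatMap.2 ⟨_, List.mem_range.2 (by simp; omega), H1⟩
  have := i5 H (H2 ▸ q3)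
  have c := (List.sublist_flatten_of_mem (List.mem_map_of_mem (f := fun h => List.replicate f.length h) H3)).count_le H
  rw [List.count_replicate_self, ← List.flatMap_def] at c
  omega

omit hp in
theorem alg4_spec (A p : ℕ) (f : List ℕ) (hp : p.Prime) (hf : toPoly p f ≠ 0)
    (hA : ∀ (m B : ℕ), (m + 1).Prime → 3 < m → ((m + 1).size + 2) ^ A ≤ B → RT m (List.range (2 * B + 1)))
    (h4 : ∀ (d : ℕ) (s : Finset (ZMod p)[X]),
      (∀ h ∈ s, h.Monic ∧ Irreducible h ∧ h ∣ toPoly p f ∧ h.natDegree = d) → s.card ≤ 4) :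
    IsFactorization p (toPoly p f) (alg4 A (p :: f)) := by
  obtain ⟨m, rfl⟩ : ∃ m, p = m + 1 := ⟨p - 1, by have := hp.pos; omega⟩
  have := Fact.mk hp
  obtain ⟨e, mf⟩ := mon_spec (m := m) hf
  have l : (UU A ((m + 1) :: f)).length = ((m + 1).size + 2) ^ A + (f.length + 3) := by
    simp [UU, length_un, Nat.size_eq_bits_len]
  have l2 : (false :: (UU A ((m + 1) :: f) ++ UU A ((m + 1) :: f))).length =
      2 * (((m + 1).size + 2) ^ A + (f.length + 3)) + 1 := by
    rw [List.length_cons, List.length_append, l]; ring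
  have l3 := (sm_mon m f).1
  obtain ⟨k1, k2⟩ := full_spec (R := List.range (false :: (UU A ((m + 1) :: f) ++ UU A ((m + 1) :: f))).length) mf
    (by
      rw [l2]
      by_cases c : 3 < m ∧ f.length ≤ m
      · exact Or.inr ⟨hA m _ hp c.1 (Nat.le_add_right _ _), l3.trans c.2⟩
      · refine Or.inl fun x => ⟨x.val, List.mem_range.2 ?_, ZMod.natCast_zmod_val x⟩
        have := x.val_lt
        omega)
    fun d s hs => h4 d s fun h hh => ⟨(hs h hh).1, (hs h hh).2.1, (dvd_mon f h).1 (hs h hh).2.2.1, (hs h hh).2.2.2⟩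
  refine ⟨f.getD (dg m f) 0, _, rfl, ?_, k2⟩
  have e2 : (f.getD (dg m f) 0 : ZMod (m + 1)) = (tp m f).leadingCoeff := by
    rw [leadingCoeff, coeff_toPoly, dg_eq]
  rw [e2]
  refine Eq.trans ?_ (congrArg _ k1)
  rw [e, ← mul_assoc, ← C_mul, mul_inv_cancel₀ (leadingCoeff_ne_zero.2 hf), C_1, one_mul]

end Vale.Agent.P319.Q
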