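import Vale.Agent.P006.C4
import Vale.Agent.P006.Pit

/-! P319: a small cubic nonresidue. -/

namespace Vale.Agent.P319.Q

open Vale.Agent.P026 Vale.Agent.P006 W1 Vau Filter Topology
open scoped Classical

/-- size of the residue field of the Eisenstein integers above `p` -/
def qq (p : ℕ) : ℕ := if p % 3 = 1 then p else p ^ 2

def ev {K : Type} [Field K] {w : K} (hw : w ^ 2 + w + 1 = 0) : O →+* K where
  toFun a := (a.re : K) + (a.im : K) * w
  map_one' := by simp [QuadraticAlgebra.re_one, QuadraticAlgebra.im_one]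
  map_mul' a b := by
    simp only [QuadraticAlgebra.re_mul, QuadraticAlgebra.im_mul]
    push_cast
    linear_combination (-(a.im : K) * b.im) * hw
  map_zero' := by simp
  map_add' a b := by simp; ring

theorem kerp {p : ℕ} (hp : p.Prime) (h3 : p ≠ 3) {K : Type} [Field K] [CharP K p] (φ : O →+* K) :
    ∃ π : O, Prime π ∧ Prim π ∧ Nn π = qq p ∧ ∀ n, φ n = 0 ↔ π ∣ n := by
  have := RingHom.ker_isPrime φ
  have hb : RingHom.ker φ ≠ ⊥ := fun e => by
    have h : ((p : ℕ) : O) ∈ RingHom.ker φ := by rw [RingHom.mem_ker, map_natCast, CharP.cast_eq_zero]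
    rw [e, Ideal.mem_bot] at h
    have := bas.b1.N_int p
    rw [Int.cast_natCast, h, bas.b1.N_zero] at this
    exact absurd this.symm (pow_ne_zero 2 (by exact_mod_cast hp.ne_zero))
  have h0 := Submodule.IsPrincipal.prime_generator_of_isPrime _ hb
  have hm : ∀ n, φ n = 0 ↔ Submodule.IsPrincipal.generator (RingHom.ker φ) ∣ n := fun n =>
    Submodule.IsPrincipal.mem_iff_generator_dvd (RingHom.ker φ)
  generalize Submodule.IsPrincipal.generator (RingHom.ker φ) = r at h0 hm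
  obtain ⟨u, hu, hr⟩ := bas.b2.ex r (h0.irreducible.coprime_iff_not_dvd.2 fun d => h3 (by
    have := (hm 3).2 d
    rw [map_ofNat, ← Nat.cast_ofNat, CharP.cast_eq_zero_iff K p] at this
    exact (Nat.prime_dvd_prime_iff_eq hp Nat.prime_three).1 this))
  have h1 : Prime (u * r) := ((associated_unit_mul_right r u hu).prime h0)
  have h2 : ∀ n, φ n = 0 ↔ u * r ∣ n := fun n => (hm n).trans hu.mul_left_dvd.symm
  refine ⟨u * r, h1, hr, ?_, h2⟩
  have h4 : p ∣ Nn (u * r) := by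
    rw [← CharP.cast_eq_zero_iff K p, ← map_natCast φ, ← bas.b1.cj_mul, map_mul, (h2 _).2 dvd_rfl, zero_mul]
  unfold qq
  rcases ZKM.cls bas p hp h3 with ⟨e, a, b, a1, a2, b1, b2, -, a3, b3, h⟩ | ⟨e, a, a1, a2, a3, h⟩
  · rw [if_pos e]
    rcases (h _).1 h4 with d | d
    · rwa [← PitM.eq_of_dvd bas a1 a2 h1 hr d]
    · rwa [← PitM.eq_of_dvd bas b1 b2 h1 hr d]
  · rw [if_neg (by omega), ← PitM.eq_of_dvd bas a1 a2 h1 hr ((h _).1 h4), a3]

theorem exn : ∃ A : ℕ, ∀ (L : ℕ) (π : O), 2 ≤ L → Prime π → Prim π → Real.log (N π * 3) ≤ 2 * L →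
    ∃ n, Prime n ∧ Prim n ∧ Nn n ≤ L ^ A ∧ n ≠ π ∧ cub π n ≠ 1 := by
  obtain ⟨C, C0, hC⟩ := QG.primes_cub
  have h := (pit0 bas (fun X => (PS X).filter Prime) fun X p => by
    rw [Finset.mem_filter, mem_PS]; tauto).eventually (lt_mem_nhds (show (1 / 2 : ℝ) < 1 by norm_num))
  obtain ⟨x0, hx⟩ := eventually_atTop.1 h
  obtain ⟨k, hk⟩ := pow_unbounded_of_one_lt (|x0| + 400 * (2 + 2 * C)) (one_lt_two (α := ℝ))
  refine ⟨(k + 1) * 200, fun L π hL h1 h2 h3 => ?_⟩
  by_contra! hn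
  have L2 : (2 : ℝ) ≤ L := by exact_mod_cast hL
  obtain ⟨y, hy⟩ : ∃ y : ℝ, y = (L : ℝ) ^ (k + 1) := ⟨_, rfl⟩
  have y2 : L * 2 ^ k ≤ y := by rw [hy, pow_succ']; gcongr
  have a0 := abs_nonneg x0
  have k0 : (1 : ℝ) ≤ 2 ^ k := one_le_pow₀ one_le_two
  have y1 : 2 ≤ y := by nlinarith
  have y0 : 0 < y := by linarith
  have yx : y ≤ y ^ 200 := le_self_pow₀ (by linarith) (by norm_num)
  have a := hx (y ^ 200) (by nlinarith [le_abs_self x0])
  have b := hC π h1.ne_zero (fun ⟨c, e⟩ => not_irreducible_pow (n := 3) (by norm_num) (e ▸ h1.irreducible)) 0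
    (y ^ 200) (by linarith)
  have l0 : 0 < Real.log y := Real.log_pos (by linarith)
  have l1 := Real.log_le_sub_one_of_pos y0
  rw [Real.log_pow, lt_div_iff₀ (by positivity)] at a
  rw [← Real.rpow_natCast y 200, ← Real.rpow_mul y0.le, show ((200 : ℕ) : ℝ) * (99 / 100) = (198 : ℕ) by norm_num,
    Real.rpow_natCast, Real.rpow_natCast, ← Finset.sum_filter] at b
  simp only [Complex.ofReal_zero, zero_mul, Complex.cpow_zero, mul_one, abs_zero, zero_add] at b
  generalize hs : (PS (y ^ 200)).filter Prime = s at a b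
  have c : ‖∑ n ∈ s, (1 - cub π n)‖ ≤ 2 := by
    refine (norm_sum_le _ _).trans ((Finset.sum_le_sum (g := fun n => if n = π then (2 : ℝ) else 0)
      fun n hn' => ?_).trans ?_)
    · rw [← hs, Finset.mem_filter, mem_PS] at hn'
      split_ifs with e
      · exact (norm_sub_le _ _).trans (by linarith [bas.b6.norm_le π n, norm_one (α := ℂ)])
      · rw [hn n hn'.2 hn'.1.1 (by
          have := hn'.1.2
          rw [hy, ← pow_mul, N] at this
          exact_mod_cast this) e]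
        simp
    · rw [Finset.sum_ite_eq']; split_ifs <;> norm_num
  have d : (s.card : ℝ) ≤ 2 + C * y ^ 198 * (2 * L) := by
    have e : ((s.card : ℝ) : ℂ) = ∑ n ∈ s, (1 - cub π n) + ∑ n ∈ s, cub π n := by
      rw [← Finset.sum_add_distrib]; simp
    have := congrArg norm e
    rw [Complex.norm_real, Real.norm_of_nonneg (Nat.cast_nonneg _)] at this
    rw [this]
    exact (norm_add_le _ _).trans (add_le_add c (b.trans (by gcongr)))
  have f : y ^ 199 / 400 ≤ 1 / 2 * (y ^ 200 / ((200 : ℕ) * Real.log y)) := by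
    rw [← mul_div_assoc, div_le_div_iff₀ (by norm_num) (by positivity)]
    have : y ^ 200 = y ^ 199 * y := pow_succ y 199
    push_cast
    nlinarith [pow_pos y0 199]
  have g : y ^ 199 = y * y ^ 198 := pow_succ' y 198
  have t : 1 ≤ y ^ 198 := one_le_pow₀ (by linarith)
  generalize y ^ 198 = z at *
  have u : L * (400 * (2 + 2 * C)) * z ≤ y * z := by gcongr; nlinarith
  nlinarith

theorem cnr : ∃ A : ℕ, ∀ p : ℕ, p.Prime → p ≠ 3 → ∀ (K : Type) [Field K] [CharP K p] (w : K), w ^ 2 + w + 1 = 0 →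
    ∃ a b : ℤ, a.natAbs ≤ (p.size + 2) ^ A ∧ b.natAbs ≤ (p.size + 2) ^ A ∧ (a : K) + b * w ≠ 0 ∧
      ((a : K) + b * w) ^ ((qq p - 1) / 3) ≠ 1 := by
  obtain ⟨A, hA⟩ := exn
  refine ⟨A + 1, fun p hp h3 K _ _ w hw => ?_⟩
  obtain ⟨π, p1, p2, p3, p4⟩ := kerp hp h3 (ev hw)
  obtain ⟨n, n1, n2, n3, n4, n5⟩ := hA (p.size + 2) π (by omega) p1 p2 (by
    have a : N π * 3 ≤ 2 ^ (2 * (p.size + 1)) := by
      have b : qq p ≤ p ^ 2 := by unfold qq; split_ifs <;> nlinarith
      have c := Nat.pow_le_pow_left (Nat.lt_size_self p).le 2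
      have : Nn π * 3 ≤ 2 ^ (2 * (p.size + 1)) := by rw [p3, mul_add, pow_add, pow_mul']; omega
      rw [N]; exact_mod_cast this
    have := Real.log_le_log (by linarith [bas.b1.N_one_le π p1.ne_zero]) a
    rw [Real.log_pow] at this
    push_cast at this ⊢
    nlinarith [Real.log_two_lt_d9, Nat.cast_nonneg (α := ℝ) p.size])
  have e : (nz n : ℤ) = Nn n := (Int.natAbs_of_nonneg (nz_nonneg n)).symm
  have f : ∀ a : ℤ, a ^ 2 ≤ 2 * nz n → a.natAbs ≤ (p.size + 2) ^ (A + 1) := fun a h => by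
    have := Int.natAbs_le_self_sq a
    have : a.natAbs ≤ 2 * Nn n := by omega
    rw [pow_succ']
    nlinarith
  refine ⟨n.re, n.im, f _ (by unfold nz; nlinarith [sq_nonneg (n.re - n.im), sq_nonneg n.im]),
    f _ (by unfold nz; nlinarith [sq_nonneg (n.re - n.im), sq_nonneg n.re]),
    fun z => n4 (PitM.eq_of_dvd bas p1 p2 n1 n2 ((p4 n).1 z)).symm, fun z => n5 ?_⟩
  rw [cr π n p2 n2, bas.b6.spec' n π 0 p1 (bas.b2.cop π p2) ((p4 _).1 ?_), pow_zero]
  rw [pow_zero, map_sub, map_pow, map_one, p3, sub_eq_zero]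
  exact z

end Vale.Agent.P319.Q
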