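import Vale.Agent.P319.QR
import Vale.Agent.P319.QN
import Vale.Agent.P319.NonRes

/-! P319: roots from the first four power sums. -/

namespace Vale.Agent.P319.Q

open Vale.Agent.Lib.H24.T Vale.Agent.P338.PTX Polynomial

variable {α : Type} [Enc α]

def mus (m : ℕ) (R : List ℕ) : List (List ℕ) :=
  if (m + 1) % 3 = 1 then (sqs m R (m * 3)).map fun s => [m * ((s + m) * minv m 2), 1] else [[1, 1, 1]]
def QQ (m : ℕ) : ℕ := if (m + 1) % 3 = 1 then m / 3 else ((m + 1) * (m + 1) - 1) / 3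
def gss (m : ℕ) (R : List ℕ) : List (List ℕ) :=
  R.flatMap fun i => R.map fun j => [i + m * (R.length / 2), j + m * (R.length / 2)]
def rts (m : ℕ) (R : List ℕ) (a b c d : ℕ) : List ℕ := (mus m R).flatMap fun μ => qrt m μ (QQ m) (gss m R) R a b c d
def e2 (m a b : ℕ) : ℕ := (a * a + m * b) * minv m 2
def e3 (m a b c : ℕ) : ℕ := (e2 m a b * a + m * (a * b) + c) * minv m 3
def e4 (m a b c d : ℕ) : ℕ := (e3 m a b c * a + m * (e2 m a b * b) + a * c + m * d) * minv m 4
def rtp (m : ℕ) (R : List ℕ) (a b c d : ℕ) : List ℕ := rts m R a (e2 m a b) (e3 m a b c) (e4 m a b c d)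

section
variable {m a b c d : α → ℕ} {R : α → List ℕ}
@[fun_prop] theorem pt_mus (hm : PT m) (hR : PT R) : PT fun x => mus (m x) (R x) := by unfold mus; fun_prop
@[fun_prop] theorem pt_QQ (hm : PT m) : PT fun x => QQ (m x) := by unfold QQ; fun_prop
@[fun_prop] theorem pt_gss (hm : PT m) (hR : PT R) : PT fun x => gss (m x) (R x) := by unfold gss; fun_prop
@[fun_prop] theorem pt_rts (hm : PT m) (hR : PT R) (ha : PT a) (hb : PT b) (hc : PT c) (hd : PT d) :
    PT fun x => rts (m x) (R x) (a x) (b x) (c x) (d x) := by unfold rts; fun_prop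
@[fun_prop] theorem pt_e2 (hm : PT m) (ha : PT a) (hb : PT b) : PT fun x => e2 (m x) (a x) (b x) := by
  unfold e2; fun_prop
@[fun_prop] theorem pt_e3 (hm : PT m) (ha : PT a) (hb : PT b) (hc : PT c) :
    PT fun x => e3 (m x) (a x) (b x) (c x) := by unfold e3; fun_prop
@[fun_prop] theorem pt_e4 (hm : PT m) (ha : PT a) (hb : PT b) (hc : PT c) (hd : PT d) :
    PT fun x => e4 (m x) (a x) (b x) (c x) (d x) := by unfold e4; fun_prop
@[fun_prop] theorem pt_rtp (hm : PT m) (hR : PT R) (ha : PT a) (hb : PT b) (hc : PT c) (hd : PT d) :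
    PT fun x => rtp (m x) (R x) (a x) (b x) (c x) (d x) := by unfold rtp; fun_prop
end

/-- the list `rtp` contains the roots -/
def RT (m : ℕ) (R : List ℕ) : Prop := ∀ (a b c d : ℕ) (x y z t : ZMod (m + 1)), (a : ZMod (m + 1)) = x + y + z + t →
  (b : ZMod (m + 1)) = x ^ 2 + y ^ 2 + z ^ 2 + t ^ 2 → (c : ZMod (m + 1)) = x ^ 3 + y ^ 3 + z ^ 3 + t ^ 3 →
  (d : ZMod (m + 1)) = x ^ 4 + y ^ 4 + z ^ 4 + t ^ 4 → ∃ r ∈ rtp m R a b c d, (r : ZMod (m + 1)) = x

theorem adj_card {p : ℕ} [Fact p.Prime] (h : (ZMod p)[X]) [hi : Fact (Irreducible h)] :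
    ∃ _ : Fintype (AdjoinRoot h), Fintype.card (AdjoinRoot h) = p ^ h.natDegree := by
  have pb := AdjoinRoot.powerBasis hi.out.ne_zero
  have : Module.Finite (ZMod p) (AdjoinRoot h) := pb.finite
  have : Finite (AdjoinRoot h) := Module.finite_of_finite (ZMod p)
  refine ⟨Fintype.ofFinite _, ?_⟩
  rw [@Module.card_eq_pow_finrank (ZMod p) _ _ _ _ _ (Fintype.ofFinite _), ZMod.card,
    (AdjoinRoot.powerBasis hi.out.ne_zero).finrank, AdjoinRoot.powerBasis_dim]

instance adj_char {p : ℕ} [Fact p.Prime] (h : (ZMod p)[X]) [Fact (Irreducible h)] : CharP (AdjoinRoot h) p :=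
  charP_of_injective_algebraMap (algebraMap (ZMod p) (AdjoinRoot h)).injective p

variable {m : ℕ} [hp : Fact (m + 1).Prime]

theorem exmu {R : List ℕ} (h3 : 3 < m)
    (hs : ∀ (a : ℕ) (x : ZMod (m + 1)), x ^ 2 = a → ∃ s ∈ sqs m R a, (s : ZMod (m + 1)) = x) :
    ∃ μ ∈ mus m R, (tp m μ).Monic ∧ Irreducible (tp m μ) ∧ (m + 1) ^ (tp m μ).natDegree = qq (m + 1) ∧
      tp m μ ∣ X ^ 2 + X + 1 := by
  unfold mus qq
  split_ifs with c
  · haveI : Fact (Nat.Prime 3) := ⟨Nat.prime_three⟩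
    obtain ⟨u, hu⟩ := exists_prime_orderOf_dvd_card (G := (ZMod (m + 1))ˣ) 3 (by rw [ZMod.card_units]; omega)
    have u3 : (u : ZMod (m + 1)) ^ 3 = 1 := by rw [← Units.val_pow_eq_pow_val, ← hu, pow_orderOf_eq_one, Units.val_one]
    have u1 : (u : ZMod (m + 1)) ≠ 1 := fun e => by
      rw [Units.val_eq_one.1 e, orderOf_one] at hu; omega
    have a : (u : ZMod (m + 1)) ^ 2 + u + 1 = 0 := mul_left_cancel₀ (sub_ne_zero.2 u1) (by linear_combination u3)
    obtain ⟨s, s1, s2⟩ := hs (m * 3) (2 * u + 1) (by push_cast; rw [cm]; linear_combination 4 * a)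
    have i2 := minv_mul (m := m) two_pos (by omega)
    have e : tp m [m * ((s + m) * minv m 2), 1] = X - C (u : ZMod (m + 1)) := by
      rw [tp, lin, sub_eq_add_neg, ← C_neg]
      congr 2
      push_cast at i2 ⊢
      rw [cm, s2]
      linear_combination (-u) * i2
    refine ⟨_, List.mem_map_of_mem s1, ?_⟩
    rw [e]
    exact ⟨monic_X_sub_C _, irreducible_X_sub_C _, by simp, dvd_iff_isRoot.2 (by simpa using a)⟩
  · have e : tp m [1, 1, 1] = X ^ 2 + X + 1 := by simp [tp_cons]; ring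
    have d : (X ^ 2 + X + 1 : (ZMod (m + 1))[X]).natDegree = 2 := by compute_degree!
    refine ⟨_, List.mem_singleton_self _, ?_⟩
    rw [e]
    refine ⟨by monicity!, (irreducible_iff_roots_eq_zero_of_degree_le_three d.ge (by omega)).2
      (Multiset.eq_zero_of_forall_notMem fun x hx => ?_), by rw [d], dvd_rfl⟩
    have a : x ^ 2 + x + 1 = 0 := by simpa using (mem_roots'.1 hx).2
    have x3 : x ^ 3 = 1 := by linear_combination (x - 1) * a
    have x0 : x ≠ 0 := fun z => by simp [z] at a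
    have f := ZMod.pow_card_sub_one_eq_one x0
    have n3 : (m + 1) % 3 ≠ 0 := fun z => by
      have := (Nat.prime_dvd_prime_iff_eq Nat.prime_three hp.out).1 (Nat.dvd_of_mod_eq_zero z)
      omega
    rw [show m + 1 - 1 = 3 * (m / 3) + 1 by omega, pow_succ, pow_mul, x3, one_pow, one_mul] at f
    exact small_ne (m := m) three_pos h3.le (by rw [f] at a; push_cast; linear_combination a)

omit hp in
theorem exRT : ∃ A : ℕ, ∀ (m B : ℕ), (m + 1).Prime → 3 < m → ((m + 1).size + 2) ^ A ≤ B →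
    RT m (List.range (2 * B + 1)) := by
  obtain ⟨A1, h1⟩ := nonres
  obtain ⟨A2, h2⟩ := cnr
  refine ⟨A1 + A2, fun m B hp h3 hB => ?_⟩
  have := Fact.mk hp
  have b1 : ((m + 1).size + 2) ^ A1 ≤ B := (Nat.pow_le_pow_right (by omega) (by omega)).trans hB
  have b2 : ((m + 1).size + 2) ^ A2 ≤ B := (Nat.pow_le_pow_right (by omega) (by omega)).trans hB
  have hs : ∀ (a : ℕ) (x : ZMod (m + 1)), x ^ 2 = a →
      ∃ s ∈ sqs m (List.range (2 * B + 1)) a, (s : ZMod (m + 1)) = x := fun a x => sqs_spec (by omega) (by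
    by_cases c : (m + 1) % 4 = 1
    · obtain ⟨g, g1, g2⟩ := h1 _ hp c
      exact ⟨g, List.mem_range.2 (by omega), fun _ => g2⟩
    · exact ⟨0, by simp, fun e => absurd e c⟩)
  obtain ⟨μ, m1, m2, m3, m4, m5⟩ := exmu h3 hs
  have := Fact.mk m3
  obtain ⟨_, hc⟩ := adj_card (tp m μ)
  have n3 : (m + 1) % 3 ≠ 0 := fun z => by
    have := (Nat.prime_dvd_prime_iff_eq Nat.prime_three hp).1 (Nat.dvd_of_mod_eq_zero z)
    omega
  have q1 : QQ m = (qq (m + 1) - 1) / 3 := by unfold QQ qq; split_ifs <;> simp [sq]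
  have q2 : 3 * QQ m = qq (m + 1) - 1 ∧ 0 < QQ m := by
    unfold QQ qq
    split_ifs with c
    · omega
    · obtain ⟨k, rfl⟩ : ∃ k, m = 3 * k + 1 := ⟨m / 3, by omega⟩
      have : (3 * k + 1 + 1) * (3 * k + 1 + 1) = 3 * (3 * k * k + 4 * k + 1) + 1 := by ring
      rw [sq, this]; omega
  have om : AdjoinRoot.mk (tp m μ) X ^ 2 + AdjoinRoot.mk (tp m μ) X + 1 = 0 := by
    simpa using AdjoinRoot.mk_eq_zero.2 m5
  have G : Gd m μ (QQ m) (gss m (List.range (2 * B + 1))) (List.range (2 * B + 1)) _ (AdjoinRoot.mk (tp m μ)) := by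
    refine ⟨m2, m3.degree_pos, fun a => AdjoinRoot.mk_eq_zero, q2.2, fun x hx => ?_, om, ?_, hs, h3⟩
    · rw [q2.1, ← m4, ← hc]; exact FiniteField.pow_card_sub_one_eq_one x hx
    · obtain ⟨a, b, a1, a2, a3, a4⟩ := h2 _ hp (by omega) _ _ om
      have e : ∀ a : ℤ, a.natAbs ≤ B → (((a + B).toNat + m * B : ℕ) : ZMod (m + 1)) = a := fun a ha => by
        have : (((a + B).toNat : ℕ) : ℤ) = a + B := Int.toNat_of_nonneg (by omega)
        have := congrArg (Int.cast : ℤ → ZMod (m + 1)) this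
        push_cast at this ⊢
        rw [this, cm]; ring
      have f : AdjoinRoot.mk (tp m μ) (tp m [(a + B).toNat + m * B, (b + B).toNat + m * B]) =
          a + b * AdjoinRoot.mk (tp m μ) X := by
        rw [tp_cons, tp_one, e a (a1.trans b2), e b (a2.trans b2)]
        simp [mul_comm]
      refine ⟨[(a + B).toNat + m * B, (b + B).toNat + m * B], List.mem_flatMap.2 ⟨(a + B).toNat,
        List.mem_range.2 (by omega), List.mem_map.2 ⟨(b + B).toNat, List.mem_range.2 (by omega), ?_⟩⟩, ?_⟩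
      · rw [List.length_range, show (2 * B + 1) / 2 = B by omega]
      · rw [f, q1]; exact ⟨a3, a4⟩
  intro a b c d x y z t ha hb hc hd
  have i2 := minv_mul (m := m) two_pos (by omega)
  have i3 := minv_mul (m := m) three_pos (by omega)
  have i4 := minv_mul (m := m) four_pos (by omega)
  push_cast at i2 i3 i4
  have f2 : (e2 m a b : ZMod (m + 1)) = x * y + x * z + x * t + y * z + y * t + z * t := by
    rw [e2]; push_cast; rw [cm, ha, hb]
    linear_combination (x * y + x * z + x * t + y * z + y * t + z * t) * i2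
  have f3 : (e3 m a b c : ZMod (m + 1)) = x * y * z + x * y * t + x * z * t + y * z * t := by
    rw [e3]; push_cast; rw [cm, f2, ha, hb, hc]
    linear_combination (x * y * z + x * y * t + x * z * t + y * z * t) * i3
  have f4 : (e4 m a b c d : ZMod (m + 1)) = x * y * z * t := by
    rw [e4]; push_cast; rw [cm, f2, f3, ha, hb, hc, hd]
    linear_combination (x * y * z * t) * i4
  obtain ⟨r, r1, r2⟩ := G.qrt x y z t ha f2 f3 f4
  exact ⟨r, List.mem_flatMap.2 ⟨μ, m1, r1⟩, r2⟩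

end Vale.Agent.P319.Q
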