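import Vale.Agent.P319.QF

/-! P319: an equivariant colouring computed in a quotient algebra with a cube root of unity adjoined. -/

namespace Vale.Agent.P319.Q

open Vale.Agent.Lib.H24.T Vale.Agent.P338.PTX Polynomial
open scoped Classical

variable {α : Type} [Enc α]

def pmu (m : ℕ) (G : List ℕ) (a b : List ℕ × List ℕ) : List ℕ × List ℕ :=
  (md m G (ps [mu a.1 b.1, sm m (mu a.2 b.2)]), md m G (ps [mu a.1 b.2, mu a.2 b.1, sm m (mu a.2 b.2)]))
def ppw (m : ℕ) (G : List ℕ) (a : List ℕ × List ℕ) (e : ℕ) : List ℕ × List ℕ :=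
  e.bits.foldr (fun b y => pmu m G (pmu m G y y) (bif b then a else ([1], []))) ([1], [])
def psm (m : ℕ) (G : List ℕ) (L : List (List ℕ × List ℕ)) : List ℕ × List ℕ :=
  (md m G (ps (L.map fun a => a.1)), md m G (ps (L.map fun a => a.2)))
def pind (r m : ℕ) (G : List ℕ) (x : List ℕ × List ℕ) : List ℕ × List ℕ :=
  pmu m G ([minv m r], []) (psm m G ((List.range r).map fun i => ppw m G x (i + 1)))
def ptm (r m : ℕ) (G : List ℕ) (y : List ℕ × List ℕ) (e : ℕ) : List ℕ × List ℕ :=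
  pmu m G y (pind r m G (ppw m G y e))
def pst (r m : ℕ) (G : List ℕ) (s : (List ℕ × List ℕ) × (List ℕ × List ℕ) × ℕ) :
    (List ℕ × List ℕ) × (List ℕ × List ℕ) × ℕ :=
  if s.2.2 % r = 0 then (psm m G ((List.range r).map fun a => ptm r m G (pmu m G s.1 (ppw m G s.2.1 a)) s.2.2),
    pmu m G s.2.1 (ppw m G s.2.1 (r - 1)), s.2.2 / r) else s
def pit (r m : ℕ) (G : List ℕ) (η : List ℕ × List ℕ) (e : ℕ) : (List ℕ × List ℕ) × (List ℕ × List ℕ) × ℕ :=
  (pst r m G)^[e.bits.length] (([0, 1], []), η, e)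
def pchi (r m : ℕ) (G : List ℕ) (η : List ℕ × List ℕ) (e : ℕ) : List ℕ × List ℕ :=
  pind r m G (ppw m G (pit r m G η e).1 (pit r m G η e).2.2)

theorem sz_md2 (m : ℕ) (G a b : List ℕ) : sz (md m G a, md m G b) ≤ 2 * (G.length * (4 * sz m + 2) + 1) + 1 := by
  have := (sm_md m G a).sz
  have := (sm_md m G b).sz
  rw [sz_pair']; dsimp only; omega

section
variable {m e : α → ℕ} {G : α → List ℕ} {a b : α → List ℕ × List ℕ} {L : α → List (List ℕ × List ℕ)}
  {s : α → (List ℕ × List ℕ) × (List ℕ × List ℕ) × ℕ}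
@[fun_prop] theorem pt_pmu (hm : PT m) (hG : PT G) (ha : PT a) (hb : PT b) :
    PT fun x => pmu (m x) (G x) (a x) (b x) := by unfold pmu; fun_prop
@[fun_prop] theorem pt_ppw (hm : PT m) (hG : PT G) (ha : PT a) (he : PT e) :
    PT fun x => ppw (m x) (G x) (a x) (e x) :=
  pt_foldr (h := fun x b y => pmu (m x) (G x) (pmu (m x) (G x) y y) (bif b then a x else ([1], []))) (by fun_prop)
    he.bits (PT.const _) (fun p => 2 * ((G p.1).length * (4 * sz (m p.1) + 2) + 1) + 1) (by fun_prop) fun _ _ _ =>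
      (sz_md2 _ _ _ _).trans (Nat.le_add_left _ _)
@[fun_prop] theorem pt_psm (hm : PT m) (hG : PT G) (hL : PT L) : PT fun x => psm (m x) (G x) (L x) := by
  unfold psm; fun_prop
@[fun_prop] theorem pt_pind (r : ℕ) (hm : PT m) (hG : PT G) (ha : PT a) : PT fun x => pind r (m x) (G x) (a x) := by
  unfold pind; fun_prop
@[fun_prop] theorem pt_ptm (r : ℕ) (hm : PT m) (hG : PT G) (ha : PT a) (he : PT e) :
    PT fun x => ptm r (m x) (G x) (a x) (e x) := by unfold ptm; fun_prop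
@[fun_prop] theorem pt_pst (r : ℕ) (hm : PT m) (hG : PT G) (hs : PT s) : PT fun x => pst r (m x) (G x) (s x) := by
  unfold pst; fun_prop
@[fun_prop] theorem pt_pit (r : ℕ) (hm : PT m) (hG : PT G) (ha : PT a) (he : PT e) :
    PT fun x => pit r (m x) (G x) (a x) (e x) :=
  PT.iterate (h := fun x => pst r (m x) (G x)) (b := fun x => (([0, 1], []), a x, e x)) (by fun_prop) he.bits
    (by fun_prop) (fun x => 2 * (2 * ((G x).length * (4 * sz (m x) + 2) + 1) + 1) + 4 * sz (e x) + 3 +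
      sz ((([0, 1], []), a x, e x) : (List ℕ × List ℕ) × (List ℕ × List ℕ) × ℕ)) (by fun_prop) fun x i _ => by
      have key : ∀ i, ((pst r (m x) (G x))^[i] (([0, 1], []), a x, e x)).2.2 ≤ e x ∧
          sz ((pst r (m x) (G x))^[i] (([0, 1], []), a x, e x)) ≤
          2 * (2 * ((G x).length * (4 * sz (m x) + 2) + 1) + 1) + 4 * sz (e x) + 3 +
          sz ((([0, 1], []), a x, e x) : (List ℕ × List ℕ) × (List ℕ × List ℕ) × ℕ) := fun i => by
        induction i with
        | zero => exact ⟨le_rfl, Nat.le_add_left _ _⟩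
        | succ i ih =>
          rw [Function.iterate_succ_apply']
          generalize (pst r (m x) (G x))^[i] (([0, 1], []), a x, e x) = t at *
          unfold pst
          split_ifs
          · have h := (Nat.div_le_self t.2.2 r).trans ih.1
            have := sz_nat_mono h
            refine ⟨h, ?_⟩
            rw [sz_pair', sz_pair' (_, _ / r)]
            dsimp only
            exact (Nat.add_le_add_right (Nat.add_le_add (sz_md2 _ _ _ _) (Nat.add_le_add_right
              (Nat.add_le_add_right (sz_md2 _ _ _ _) _) _)) _).trans (by omega)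
          · exact ih
      exact (key i).2
@[fun_prop] theorem pt_pchi (r : ℕ) (hm : PT m) (hG : PT G) (ha : PT a) (he : PT e) :
    PT fun x => pchi r (m x) (G x) (a x) (e x) := by unfold pchi; fun_prop
end

section model
variable {K : Type} [Field K]

noncomputable def ind (r : ℕ) (x : K) : K := (r : K)⁻¹ * ∑ i ∈ Finset.range r, x ^ (i + 1)
noncomputable def kst (r : ℕ) (s : K × K × ℕ) : K × K × ℕ :=
  if s.2.2 % r = 0 then (∑ a ∈ Finset.range r, s.1 * s.2.1 ^ a * ind r ((s.1 * s.2.1 ^ a) ^ s.2.2),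
    s.2.1 * s.2.1 ^ (r - 1), s.2.2 / r) else s

theorem ind_zero (r : ℕ) : ind r (0 : K) = 0 := by simp [ind]

theorem ind_eq {r : ℕ} (r0 : (r : K) ≠ 0) {x : K} (h : x ^ r = 1) : ind r x = if x = 1 then 1 else 0 := by
  split_ifs with c
  · simp [ind, c, r0]
  · have := mul_geom_sum x r
    rw [h, sub_self, mul_eq_zero, sub_eq_zero] at this
    simp only [ind, pow_succ, ← Finset.sum_mul, this.resolve_left c, zero_mul, mul_zero]

theorem kst_eqv {r : ℕ} {ρ : K} (h : ρ ^ r = 1) (u η : K) (e i : ℕ) :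
    (kst r)^[i] (ρ * u, η, e) = (ρ * ((kst r)^[i] (u, η, e)).1, ((kst r)^[i] (u, η, e)).2) := by
  induction i with
  | zero => rfl
  | succ i ih =>
    rw [Function.iterate_succ_apply', Function.iterate_succ_apply', ih]
    generalize (kst r)^[i] (u, η, e) = t
    unfold kst
    dsimp only
    split_ifs with c
    · obtain ⟨k, hk⟩ := Nat.dvd_of_mod_eq_zero c
      rw [Finset.mul_sum]
      congr 1
      refine Finset.sum_congr rfl fun a _ => ?_
      rw [mul_assoc ρ, mul_pow ρ, hk, pow_mul, h, one_pow, one_mul, mul_assoc ρ]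
    · rfl

theorem kst_inv {r : ℕ} (hr : r.Prime) (r0 : (r : K) ≠ 0) {u η : K} {e : ℕ} (hη : IsPrimitiveRoot (η ^ e) r)
    (hu : u ^ (e * r) = 1) (i : ℕ) : IsPrimitiveRoot (((kst r)^[i] (u, η, e)).2.1 ^ ((kst r)^[i] (u, η, e)).2.2) r ∧
      ((kst r)^[i] (u, η, e)).1 ^ (((kst r)^[i] (u, η, e)).2.2 * r) = 1 := by
  induction i with
  | zero => exact ⟨hη, hu⟩
  | succ i ih =>
    rw [Function.iterate_succ_apply']
    generalize (kst r)^[i] (u, η, e) = t at *
    obtain ⟨y, z, f⟩ := t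
    unfold kst
    dsimp only at *
    split_ifs with c
    swap
    · exact ih
    have d := Nat.div_mul_cancel (Nat.dvd_of_mod_eq_zero c)
    have : NeZero r := ⟨hr.ne_zero⟩
    obtain ⟨i1, i2⟩ := ih
    have y0 : y ^ f ≠ 0 := fun q => by rw [pow_mul, q, zero_pow hr.ne_zero] at i2; exact zero_ne_one i2
    obtain ⟨a, a1, a2⟩ := i1.eq_pow_of_pow_eq_one (ξ := (y ^ f)⁻¹) (by rw [inv_pow, ← pow_mul, i2, inv_one])
    have q : ∀ b, (y * z ^ b) ^ f = y ^ f * (z ^ f) ^ b := fun b => by ring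
    dsimp only
    refine ⟨by rwa [← pow_succ', Nat.sub_add_cancel hr.pos, ← pow_mul, mul_comm, d], ?_⟩
    rw [d, Finset.sum_eq_single_of_mem a (Finset.mem_range.2 a1) fun b hb ne => ?_, q, a2, mul_inv_cancel₀ y0,
      ind_eq r0 (one_pow _), if_pos rfl, mul_one, q, a2, mul_inv_cancel₀ y0]
    rw [ind_eq r0 (by rw [q, mul_pow, ← pow_mul, i2, ← pow_mul, mul_comm b, pow_mul, i1.pow_eq_one]; simp), if_neg,
      mul_zero]
    intro w
    rw [q] at w
    exact ne (i1.pow_inj (Finset.mem_range.1 hb) a1 (a2 ▸ eq_inv_of_mul_eq_one_right w))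

theorem kst_end {r : ℕ} (hr : r.Prime) (u η : K) {e : ℕ} (e0 : e ≠ 0) :
    ¬ r ∣ ((kst r)^[e.bits.length] (u, η, e)).2.2 := by
  have key : ∀ i, ((kst r)^[i] (u, η, e)).2.2 ≠ 0 ∧
      (¬ r ∣ ((kst r)^[i] (u, η, e)).2.2 ∨ ((kst r)^[i] (u, η, e)).2.2 * 2 ^ i ≤ e) := fun i => by
    induction i with
    | zero => exact ⟨e0, Or.inr (by simp)⟩
    | succ i ih =>
      rw [Function.iterate_succ_apply']
      generalize (kst r)^[i] (u, η, e) = t at *
      unfold kst
      split_ifs with c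
      · have c' := Nat.dvd_of_mod_eq_zero c
        have d := Nat.div_mul_cancel c'
        have := ih.2.resolve_left fun q => q c'
        have := hr.two_le
        dsimp only
        refine ⟨fun q => ih.1 (by rw [← d, q, zero_mul]), Or.inr ?_⟩
        calc t.2.2 / r * 2 ^ (i + 1) = t.2.2 / r * 2 * 2 ^ i := by ring
          _ ≤ t.2.2 / r * r * 2 ^ i := by gcongr
          _ ≤ e := by rwa [d]
      · exact ⟨ih.1, Or.inl fun q => c (Nat.mod_eq_zero_of_dvd q)⟩
  obtain ⟨k1, k2⟩ := key e.bits.length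
  refine k2.resolve_right fun q => ?_
  have := Nat.lt_size_self e
  rw [← Nat.size_eq_bits_len] at this
  nlinarith [Nat.pos_of_ne_zero k1]

end model

variable {m : ℕ} [hp : Fact (m + 1).Prime] {K : Type} [Field K]

noncomputable def ev2 (π : (ZMod (m + 1))[X] →+* K) (ρ : K) (a : List ℕ × List ℕ) : K :=
  π (tp m a.1) + π (tp m a.2) * ρ

section
variable {π : (ZMod (m + 1))[X] →+* K} {ρ : K} (hρ : ρ ^ 2 + ρ + 1 = 0) {G : List ℕ} (mG : (tp m G).Monic)
  (h0 : π (tp m G) = 0)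
include mG h0

theorem ev_psm (L : List (List ℕ × List ℕ)) : ev2 π ρ (psm m G L) = (L.map (ev2 π ρ)).sum := by
  rw [psm, ev2, hom_md π mG h0, hom_md π mG h0, tp_ps, tp_ps]
  induction L with
  | nil => simp
  | cons a L ih => simp only [List.map_cons, List.sum_cons, map_add, ← ih, ev2]; ring

include hρ

theorem ev_pmu (a b : List ℕ × List ℕ) : ev2 π ρ (pmu m G a b) = ev2 π ρ a * ev2 π ρ b := by
  rw [pmu, ev2, hom_md π mG h0, hom_md π mG h0, tp_ps, tp_ps]
  simp only [List.map_cons, List.map_nil, List.sum_cons, List.sum_nil, map_add, tp_sm, tp_mu, cm, map_mul, map_neg,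
    map_one, ev2, add_zero]
  linear_combination (-π (tp m a.2) * π (tp m b.2)) * hρ

theorem ev_ppw (a : List ℕ × List ℕ) (e : ℕ) : ev2 π ρ (ppw m G a e) = ev2 π ρ a ^ e := by
  induction e using Nat.binaryRec' with
  | zero => simp [ppw, ev2, tp_one]
  | bit b n hn ih =>
    rw [ppw, Nat.bits_append_bit n b hn, List.foldr_cons, ← ppw, ev_pmu hρ mG h0, ev_pmu hρ mG h0, ih,
      Nat.bit_val, pow_add, pow_mul', sq]
    cases b <;> simp [ev2, tp_one]

theorem ev_pind {r : ℕ} (r0 : 0 < r) (r1 : r ≤ m) (x : List ℕ × List ℕ) :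
    ev2 π ρ (pind r m G x) = ind r (ev2 π ρ x) := by
  rw [pind, ev_pmu hρ mG h0, ev_psm mG h0, List.map_map, lsum, ind]
  congr 1
  · have := congrArg (fun z => π (C z)) (minv_mul r0 r1)
    simp only [map_mul, map_natCast, map_one] at this
    simpa [ev2, tp_one] using eq_inv_of_mul_eq_one_left this
  · exact Finset.sum_congr rfl fun i _ => ev_ppw hρ mG h0 _ _

theorem ev_pit {r : ℕ} (r0 : 0 < r) (r1 : r ≤ m) (η : List ℕ × List ℕ) (e i : ℕ) :
    (kst r)^[i] (π X, ev2 π ρ η, e) = (ev2 π ρ ((pst r m G)^[i] (([0, 1], []), η, e)).1,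
      ev2 π ρ ((pst r m G)^[i] (([0, 1], []), η, e)).2.1, ((pst r m G)^[i] (([0, 1], []), η, e)).2.2) := by
  induction i with
  | zero => simp [ev2, tp_X]
  | succ i ih =>
    rw [Function.iterate_succ_apply', Function.iterate_succ_apply', ih]
    generalize (pst r m G)^[i] (([0, 1], []), η, e) = t
    unfold kst pst
    dsimp only
    split_ifs
    · dsimp only
      rw [ev_psm mG h0, List.map_map, lsum, ev_pmu hρ mG h0, ev_ppw hρ mG h0]
      congr 1
      refine Finset.sum_congr rfl fun a _ => ?_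
      rw [Function.comp, ptm, ev_pmu hρ mG h0, ev_pind hρ mG h0 r0 r1, ev_ppw hρ mG h0, ev_pmu hρ mG h0,
        ev_ppw hρ mG h0]
    · rfl

end

theorem pchi_spec {r : ℕ} (hr : r.Prime) (r1 : r ≤ m) (r0 : (r : K) ≠ 0) {ρ η0 : K} (hρ : ρ ^ 2 + ρ + 1 = 0)
    {e : ℕ} (e0 : e ≠ 0) (hη : IsPrimitiveRoot (η0 ^ e) r) : ∃ (φ : K → K) (f : ℕ), ¬ r ∣ f ∧ φ 0 = 0 ∧
      (∀ u, u ^ (e * r) = 1 → φ u ^ r = 1) ∧ (∀ ζ u, ζ ^ r = 1 → φ (ζ * u) = ζ ^ f * φ u) ∧
      ∀ (π : (ZMod (m + 1))[X] →+* K) (G : List ℕ) (η : List ℕ × List ℕ), (tp m G).Monic → π (tp m G) = 0 →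
        ev2 π ρ η = η0 → ev2 π ρ (pchi r m G η e) = ind r (φ (π X)) := by
  have s2 : ∀ i (u : K), ((kst r)^[i] (u, η0, e)).2 = ((kst r)^[i] (0, η0, e)).2 ∧
      ((kst r)^[i] ((0 : K), η0, e)).1 = 0 := fun i u => by
    induction i with
    | zero => exact ⟨rfl, rfl⟩
    | succ i ih =>
      rw [Function.iterate_succ_apply', Function.iterate_succ_apply']
      generalize (kst r)^[i] (u, η0, e) = t at *
      generalize (kst r)^[i] ((0 : K), η0, e) = t' at *
      unfold kst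
      rw [ih.1, ih.2]
      split_ifs
      · simp
      · exact ih
  have en := kst_end hr (0 : K) η0 e0
  refine ⟨fun u => ((kst r)^[e.bits.length] (u, η0, e)).1 ^ ((kst r)^[e.bits.length] ((0 : K), η0, e)).2.2, _, en,
    ?_, fun u hu => ?_, fun ζ u h => ?_, fun π G η mG h0 h => ?_⟩ <;> beta_reduce
  · rw [(s2 _ 0).2]; exact zero_pow fun q => en (by rw [q]; exact dvd_zero r)
  · rw [← pow_mul, ← (s2 _ u).1]; exact (kst_inv hr r0 hη hu _).2
  · rw [kst_eqv h, mul_pow]
  · rw [pchi, ev_pind hρ mG h0 hr.pos r1, ev_ppw hρ mG h0, ← (s2 _ (π X)).1, ← h, ev_pit hρ mG h0 hr.pos r1, pit]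

end Vale.Agent.P319.Q
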