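import Vale.Agent.P319.QH
import Vale.Agent.P319.NW

/-! P319: power sum sequences, composed sums and scores. -/

namespace Vale.Agent.P319.Q

open Vale.Agent.Lib.H24.T Vale.Agent.P338.PTX Polynomial
open scoped Classical

variable {α : Type} [Enc α]

def ch (U : List ℕ) (c s : ℕ) : ℕ :=
  if s ≤ c then (U.take c).length.factorial / ((U.take s).length.factorial * (U.take (c - s)).length.factorial) else 0
def bl (m : ℕ) (f : List ℕ → List ℕ → ℕ) (A B : List ℕ × List ℕ) : ℕ × ℕ :=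
  (f A.1 B.1 + m * f A.2 B.2, f A.1 B.2 + f A.2 B.1 + m * f A.2 B.2)
def cv1 (U : List ℕ) (c : ℕ) (A B : List ℕ) : ℕ :=
  ((List.range U.length).map fun s => ch U c s * A.getD s 0 * B.getD (c - s) 0).sum
def cv2 (U : List ℕ) (e : ℕ) (A B : List ℕ) : ℕ :=
  ((List.range U.length).map fun c => ch U c e * A.getD c 0 * B.getD (c - e) 0).sum
def cvp (m : ℕ) (U : List ℕ) (A B : List ℕ × List ℕ) : List ℕ × List ℕ :=
  ((List.range U.length).map fun c => (bl m (cv1 U c) A B).1, (List.range U.length).map fun c => (bl m (cv1 U c) A B).2)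
def al (m e : ℕ) : ℕ := if e % 3 = 0 then 1 else if e % 3 = 1 then 0 else m
def be (m e : ℕ) : ℕ := if e % 3 = 0 then 0 else if e % 3 = 1 then 1 else m
def tw (m j : ℕ) (U P : List ℕ) : List ℕ × List ℕ :=
  ((List.range U.length).map fun c => al m (j * c) * P.getD c 0, (List.range U.length).map fun c => be m (j * c) * P.getD c 0)
def ng (m : ℕ) (U P : List ℕ) : List ℕ × List ℕ :=
  ((List.range U.length).map fun c => (if c % 2 = 0 then 1 else m) * P.getD c 0, [])
def nwl (m : ℕ) (U : List ℕ) (W : List ℕ × List ℕ) : List ℕ :=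
  (List.range U.tail.length).map fun i => 2 * W.1.getD (i + 1) 0 + m * W.2.getD (i + 1) 0
def cG (m : ℕ) (U P : List ℕ) (Q : List ℕ × List ℕ) : List ℕ := NWm.run m (nwl m U (cvp m U (P, []) Q))
def psi (m : ℕ) (U : List ℕ) (Φ Q : List ℕ × List ℕ) (w : ℕ) : List ℕ :=
  (List.range U.length).map fun e => (bl m (cv2 U e) Φ Q).1 + w * (bl m (cv2 U e) Φ Q).2
def sco (r m : ℕ) (U P : List ℕ) (Q η : List ℕ × List ℕ) (e w : ℕ) : List ℕ :=
  psi m U (pchi r m (cG m U P Q) η e) Q w

section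
variable {m c e w : α → ℕ} {U P A B : α → List ℕ} {a b : α → List ℕ × List ℕ}
@[fun_prop] theorem pt_ch (hU : PT U) (hc : PT c) (he : PT e) : PT fun x => ch (U x) (c x) (e x) := by
  unfold ch; fun_prop
@[fun_prop] theorem pt_cv1 (hU : PT U) (hc : PT c) (hA : PT A) (hB : PT B) :
    PT fun x => cv1 (U x) (c x) (A x) (B x) := by unfold cv1; fun_prop
@[fun_prop] theorem pt_cv2 (hU : PT U) (hc : PT c) (hA : PT A) (hB : PT B) :
    PT fun x => cv2 (U x) (c x) (A x) (B x) := by unfold cv2; fun_prop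
@[fun_prop] theorem pt_bl1 (hm : PT m) (hU : PT U) (hc : PT c) (ha : PT a) (hb : PT b) :
    PT fun x => bl (m x) (cv1 (U x) (c x)) (a x) (b x) := by unfold bl; fun_prop
@[fun_prop] theorem pt_bl2 (hm : PT m) (hU : PT U) (hc : PT c) (ha : PT a) (hb : PT b) :
    PT fun x => bl (m x) (cv2 (U x) (c x)) (a x) (b x) := by unfold bl; fun_prop
@[fun_prop] theorem pt_cvp (hm : PT m) (hU : PT U) (ha : PT a) (hb : PT b) :
    PT fun x => cvp (m x) (U x) (a x) (b x) :=
  (PT.map (g := fun x c => (bl (m x) (cv1 (U x) c) (a x) (b x)).1) hU.range_length (pt_bl1 (hm.comp PT.id.fst)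
    (hU.comp PT.id.fst) PT.id.snd (ha.comp PT.id.fst) (hb.comp PT.id.fst)).fst).pair
  (PT.map (g := fun x c => (bl (m x) (cv1 (U x) c) (a x) (b x)).2) hU.range_length (pt_bl1 (hm.comp PT.id.fst)
    (hU.comp PT.id.fst) PT.id.snd (ha.comp PT.id.fst) (hb.comp PT.id.fst)).snd)
@[fun_prop] theorem pt_al (hm : PT m) (he : PT e) : PT fun x => al (m x) (e x) := by unfold al; fun_prop
@[fun_prop] theorem pt_be (hm : PT m) (he : PT e) : PT fun x => be (m x) (e x) := by unfold be; fun_prop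
@[fun_prop] theorem pt_tw (j : ℕ) (hm : PT m) (hU : PT U) (hP : PT P) : PT fun x => tw (m x) j (U x) (P x) := by
  unfold tw; fun_prop
@[fun_prop] theorem pt_ng (hm : PT m) (hU : PT U) (hP : PT P) : PT fun x => ng (m x) (U x) (P x) := by
  unfold ng; fun_prop
@[fun_prop] theorem pt_nwl (hm : PT m) (hU : PT U) (ha : PT a) : PT fun x => nwl (m x) (U x) (a x) := by
  unfold nwl; fun_prop
@[fun_prop] theorem pt_cG (hm : PT m) (hU : PT U) (hP : PT P) (ha : PT a) : PT fun x => cG (m x) (U x) (P x) (a x) :=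
  NWm.pt_run hm (pt_nwl hm hU (pt_cvp hm hU (hP.pair (PT.const [])) ha))
@[fun_prop] theorem pt_psi (hm : PT m) (hU : PT U) (ha : PT a) (hb : PT b) (hw : PT w) :
    PT fun x => psi (m x) (U x) (a x) (b x) (w x) := by
  have h := pt_bl2 (α := α × ℕ) (hm.comp PT.id.fst) (hU.comp PT.id.fst) PT.id.snd (ha.comp PT.id.fst)
    (hb.comp PT.id.fst)
  exact PT.map (g := fun x e => (bl (m x) (cv2 (U x) e) (a x) (b x)).1 + w x * (bl (m x) (cv2 (U x) e) (a x) (b x)).2)
    hU.range_length (h.fst.add ((hw.comp PT.id.fst).mul h.snd))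
@[fun_prop] theorem pt_sco (r : ℕ) (hm : PT m) (hU : PT U) (hP : PT P) (ha : PT a) (hb : PT b) (he : PT e)
    (hw : PT w) : PT fun x => sco r (m x) (U x) (P x) (a x) (b x) (e x) (w x) :=
  pt_psi hm hU (pt_pchi r hm (pt_cG hm hU hP ha) hb he) ha hw
end

theorem gd_rm (f : ℕ → ℕ) {n c : ℕ} (h : c < n) : ((List.range n).map f).getD c 0 = f c := by
  rw [List.getD_eq_getElem _ _ (by simpa using h)]; simp

theorem ch_eq {U : List ℕ} {c : ℕ} (h : c < U.length) (s : ℕ) : ch U c s = c.choose s := by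
  unfold ch
  split_ifs with k
  · rw [List.length_take, List.length_take, List.length_take, min_eq_left h.le, min_eq_left (k.trans h.le),
      min_eq_left (by omega), Nat.choose_eq_factorial_div_factorial k]
  · rw [Nat.choose_eq_zero_of_lt (not_le.1 k)]

variable {K : Type} [Field K] {ρ : K} {m : ℕ}

def sv (ρ : K) (A : List ℕ × List ℕ) (c : ℕ) : K := (A.1.getD c 0 : ℕ) + (A.2.getD c 0 : ℕ) * ρ

def Rep (M : ℕ) (ρ : K) (A : List ℕ × List ℕ) {ι : Type} (S : Finset ι) (a : ι → K) : Prop :=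
  ∀ c < M, sv ρ A c = ∑ x ∈ S, a x ^ c

theorem bl_eq (hm : (m : K) = -1) (hρ : ρ ^ 2 + ρ + 1 = 0) (n : ℕ) (k i j : ℕ → ℕ) (A B : List ℕ × List ℕ)
    {f : List ℕ → List ℕ → ℕ} (hf : ∀ A B, f A B = ((List.range n).map fun s => k s * A.getD (i s) 0 * B.getD (j s) 0).sum) :
    ((bl m f A B).1 : K) + (bl m f A B).2 * ρ = ∑ s ∈ Finset.range n, k s * sv ρ A (i s) * sv ρ B (j s) := by
  simp only [bl, hf, Nat.cast_add, Nat.cast_mul, NWm.cast_sum, hm, Finset.mul_sum, Finset.sum_mul, add_mul,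
    ← Finset.sum_add_distrib, sv]
  refine Finset.sum_congr rfl fun s _ => ?_
  linear_combination (-(k s : K) * (A.2.getD (i s) 0 : ℕ) * (B.2.getD (j s) 0 : ℕ)) * hρ

theorem binom {M c : ℕ} (h : c < M) (x y : K) :
    ∑ s ∈ Finset.range M, (c.choose s : K) * x ^ s * y ^ (c - s) = (x + y) ^ c := by
  rw [add_pow, ← Finset.sum_subset (Finset.range_subset_range.2 (Nat.succ_le_of_lt h)) fun s _ hs => by
    rw [Nat.choose_eq_zero_of_lt (by simpa using hs)]; simp]
  exact Finset.sum_congr rfl fun s _ => by ring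

theorem rep_cvp (hm : (m : K) = -1) (hρ : ρ ^ 2 + ρ + 1 = 0) {U : List ℕ} {A B : List ℕ × List ℕ} {ι κ : Type}
    {S : Finset ι} {T : Finset κ} {a : ι → K} {b : κ → K} (hA : Rep U.length ρ A S a) (hB : Rep U.length ρ B T b) :
    Rep U.length ρ (cvp m U A B) (S ×ˢ T) fun x => a x.1 + b x.2 := fun c hc => by
  rw [sv, cvp, gd_rm _ hc, gd_rm _ hc, bl_eq hm hρ U.length (ch U c) id (c - ·) A B (f := cv1 U c) fun _ _ => rfl,
    Finset.sum_product]
  simp only [← binom hc]
  rw [Finset.sum_congr rfl fun x _ => Finset.sum_comm, Finset.sum_comm]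
  refine Finset.sum_congr rfl fun s hs => ?_
  rw [id, hA s (Finset.mem_range.1 hs), hB _ (by omega), ch_eq hc, mul_assoc, Finset.sum_mul_sum]
  simp only [Finset.mul_sum, mul_assoc]

theorem al_be (hm : (m : K) = -1) (hρ : ρ ^ 2 + ρ + 1 = 0) (e : ℕ) : (al m e : K) + be m e * ρ = ρ ^ e := by
  have h3 : ρ ^ 3 = 1 := by linear_combination (ρ - 1) * hρ
  rw [← Nat.div_add_mod e 3, pow_add, pow_mul, h3, one_pow, one_mul, Nat.div_add_mod, al, be]
  obtain h | h | h : e % 3 = 0 ∨ e % 3 = 1 ∨ e % 3 = 2 := by omega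
  · simp [h]
  · simp [h]
  · simp only [h, hm, Nat.reduceEqDiff, if_false]; linear_combination -hρ

theorem rep_tw (hm : (m : K) = -1) (hρ : ρ ^ 2 + ρ + 1 = 0) {U P : List ℕ} {ι : Type} {S : Finset ι} {a : ι → K}
    (h : Rep U.length ρ (P, []) S a) (j : ℕ) : Rep U.length ρ (tw m j U P) S fun x => ρ ^ j * a x := fun c hc => by
  have := h c hc
  simp only [sv, List.getD_nil, Nat.cast_zero, zero_mul, add_zero] at this
  simp only [sv, tw, gd_rm _ hc, Nat.cast_mul, this, mul_pow, ← Finset.mul_sum, ← pow_mul]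
  rw [← al_be hm hρ]
  ring

theorem rep_ng (hm : (m : K) = -1) {U P : List ℕ} {ι : Type} {S : Finset ι} {a : ι → K}
    (h : Rep U.length ρ (P, []) S a) : Rep U.length ρ (ng m U P) S fun x => -a x := fun c hc => by
  have := h c hc
  simp only [sv, List.getD_nil, Nat.cast_zero, zero_mul, add_zero] at this
  simp only [sv, ng, gd_rm _ hc, Nat.cast_mul, this, List.getD_nil, Nat.cast_zero, zero_mul, add_zero, neg_pow (a _),
    ← Finset.mul_sum]
  congr 1
  split_ifs with k
  · rw [Even.neg_one_pow (Nat.even_iff.2 k), Nat.cast_one]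
  · rw [Odd.neg_one_pow (Nat.odd_iff.2 (by omega)), hm]

variable [hp : Fact (m + 1).Prime] [Algebra (ZMod (m + 1)) K]

theorem cmK : (m : K) = -1 := by rw [← map_natCast (algebraMap (ZMod (m + 1)) K), cm]; simp

theorem runK (l : List ℕ) (hl : l.length ≤ m) {ι : Type} (s : Finset ι) (δ : ι → K)
    (h : ∀ i < l.length, ((l.getD i 0 : ℕ) : K) = ∑ x ∈ s, δ x ^ (i + 1)) (i : ℕ) (hi : i ≤ l.length) :
    ((NWm.st m l)^[i] [1]).length = i + 1 ∧ ∀ t ≤ i, ((((NWm.st m l)^[i] [1]).getD t 0 : ℕ) : K) =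
      (-1) ^ (i - t) * (s.val.map δ).esymm (i - t) := by
  induction i with
  | zero =>
    refine ⟨rfl, fun t ht => ?_⟩
    obtain rfl : t = 0 := by omega
    simp [Multiset.esymm]
  | succ i ih =>
    obtain ⟨i1, i2⟩ := ih (by omega)
    rw [Function.iterate_succ_apply']
    generalize (NWm.st m l)^[i] [1] = r at *
    refine ⟨by simp [NWm.st, i1], fun t ht => ?_⟩
    cases t with
    | succ t => rw [NWm.st, List.getD_cons_succ, i2 t (by omega), Nat.add_sub_add_right]
    | zero =>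
      have iv := congrArg (algebraMap (ZMod (m + 1)) K) (minv_mul (m := m) i.succ_pos (by omega))
      rw [map_mul, map_natCast, map_natCast, map_one] at iv
      have nw := NWm.newton s δ i
      rw [NWm.st, List.getD_cons_zero, ← map_natCast (algebraMap (ZMod (m + 1)) K), ZMod.natCast_mod, map_natCast,
        Nat.cast_mul, Nat.cast_mul, NWm.cast_sum, i1, cmK, Nat.sub_zero, Finset.sum_congr rfl
          (g := fun t => (∑ x ∈ s, δ x ^ (t + 1)) * ((-1) ^ (i - t) * (s.val.map δ).esymm (i - t))) fun t ht => by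
            have := Finset.mem_range.1 ht
            rw [Nat.cast_mul, h t (by omega), i2 t (by omega)]]
      linear_combination (-(minv m (i + 1) : K)) * nw + ((-1) ^ (i + 1) * (s.val.map δ).esymm (i + 1)) * iv

theorem run_spec (l : List ℕ) (hl : l.length ≤ m) {ι : Type} (s : Finset ι) (δ : ι → K) (hs : s.card = l.length)
    (h : ∀ i < l.length, ((l.getD i 0 : ℕ) : K) = ∑ x ∈ s, δ x ^ (i + 1)) : (NWm.run m l).length = l.length + 1 ∧
    (tp m (NWm.run m l)).Monic ∧ ∀ x ∈ s, aeval (δ x) (tp m (NWm.run m l)) = 0 := by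
  obtain ⟨i1, i2⟩ := runK l hl s δ h l.length le_rfl
  have c : Multiset.card (s.val.map δ) = l.length := by rw [Multiset.card_map, ← hs]; rfl
  have e : (tp m (NWm.run m l)).map (algebraMap _ K) = ∏ x ∈ s, (X - C (δ x)) := by
    rw [show ∏ x ∈ s, (X - C (δ x)) = ((s.val.map δ).map fun t => X - C t).prod by rw [Multiset.map_map]; rfl]
    ext k
    rw [coeff_map, coeff_toPoly, map_natCast, NWm.run]
    by_cases hk : k ≤ l.length
    · rw [i2 k hk, Multiset.prod_X_sub_C_coeff _ (c ▸ hk), c]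
    · rw [List.getD_eq_default _ _ (by omega), coeff_eq_zero_of_natDegree_lt (by
        rw [natDegree_multiset_prod_X_sub_C_eq_card]; omega), Nat.cast_zero]
  refine ⟨i1, monic_of_injective (algebraMap _ K).injective (e ▸ monic_prod_of_monic _ _ fun x _ => monic_X_sub_C _),
    fun x hx => ?_⟩
  rw [← eval_map_algebraMap, e, eval_prod]
  exact Finset.prod_eq_zero hx (by simp)

theorem cG_spec (hρ : ρ ^ 2 + ρ + 1 = 0) {U P : List ℕ} {Q : List ℕ × List ℕ} {ι κ : Type} {S : Finset ι}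
    {T : Finset κ} {a : ι → K} {b b' : κ → K} (hP : ∀ ρ, Rep U.length ρ (P, []) S a) (h1 : Rep U.length ρ Q T b)
    (h2 : Rep U.length (ρ ^ 2) Q T b') (hU : U.length ≤ m + 1) (hc : 2 * (S.card * T.card) < U.length) :
    (cG m U P Q).length = U.length ∧ (tp m (cG m U P Q)).Monic ∧
      ∀ x ∈ S, ∀ y ∈ T, aeval (a x + b y) (tp m (cG m U P Q)) = 0 := by
  have r1 := rep_cvp (m := m) cmK hρ (hP ρ) h1
  have r2 := rep_cvp (m := m) (ρ := ρ ^ 2) cmK (by linear_combination (ρ ^ 2 - ρ + 1) * hρ) (hP _) h2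
  have l : (nwl m U (cvp m U (P, []) Q)).length = U.length - 1 := by simp [nwl]
  obtain ⟨k1, k2, k3⟩ := run_spec (m := m) (K := K) (nwl m U (cvp m U (P, []) Q)) (by omega)
    (((S ×ˢ T).disjSum (S ×ˢ T)).disjSum (Finset.range (U.length - 1 - 2 * (S.card * T.card))))
    (Sum.elim (Sum.elim (fun x => a x.1 + b x.2) fun x => a x.1 + b' x.2) fun _ => 0)
    (by simp only [Finset.card_disjSum, Finset.card_product, Finset.card_range]; omega) fun i hi => by
      simp only [Finset.sum_disjSum, Sum.elim_inl, Sum.elim_inr]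
      rw [← r1 (i + 1) (by omega), ← r2 (i + 1) (by omega), nwl, gd_rm _ (by simpa [l] using hi), sv, sv]
      simp only [Nat.cast_add, Nat.cast_mul, cmK, ne_eq, Nat.add_eq_zero_iff, one_ne_zero, and_false,
        not_false_eq_true, zero_pow, Finset.sum_const_zero, Nat.cast_ofNat]
      linear_combination (-((cvp m U (P, []) Q).2.getD (i + 1) 0 : ℕ) : K) * hρ
  exact ⟨by rw [cG, k1]; omega, k2, fun x hx y hy => k3 (.inl (.inl (x, y))) (by simp [hx, hy])⟩

omit [Algebra (ZMod (m + 1)) K] in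
theorem aev_sum {M : ℕ} {l : List ℕ} (h : l.length ≤ M) {R : Type} [CommRing R] (π : (ZMod (m + 1))[X] →+* R) :
    π (tp m l) = ∑ c ∈ Finset.range M, (l.getD c 0 : R) * π X ^ c := by
  rw [tp_sum, map_sum, ← Finset.sum_subset (Finset.range_subset_range.2 h) fun s _ hs => by
    rw [List.getD_eq_default _ _ (by simpa using hs)]; simp]
  simp

theorem psi_spec (hρ : ρ ^ 2 + ρ + 1 = 0) {U : List ℕ} {Φ Q : List ℕ × List ℕ} {κ : Type} {T : Finset κ} {b : κ → K}
    (hQ : Rep U.length ρ Q T b) (l1 : Φ.1.length ≤ U.length) (l2 : Φ.2.length ≤ U.length) {w : ℕ}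
    (hw : ∀ x y z : ZMod (m + 1), algebraMap _ K x + algebraMap _ K y * ρ = algebraMap _ K z → x + w * y = z)
    (t : ZMod (m + 1)) (N : ℕ)
    (hN : ∑ y ∈ T, ev2 (m := m) (aeval (algebraMap _ K t + b y)).toRingHom ρ Φ = N) : (tp m (psi m U Φ Q w)).eval t = N := by
  have e := hw (∑ e ∈ Finset.range U.length, (bl m (cv2 U e) Φ Q).1 * t ^ e)
    (∑ e ∈ Finset.range U.length, (bl m (cv2 U e) Φ Q).2 * t ^ e) N (by
      rw [map_natCast, ← hN]
      simp only [map_sum, map_mul, map_natCast, map_pow, Finset.sum_mul, ← Finset.sum_add_distrib]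
      have : ∀ y, ev2 (m := m) (aeval (algebraMap _ K t + b y)).toRingHom ρ Φ = ∑ c ∈ Finset.range U.length,
          ∑ e ∈ Finset.range U.length, sv ρ Φ c * ((c.choose e : K) * algebraMap _ K t ^ e * b y ^ (c - e)) := fun y => by
        rw [ev2, aev_sum l1, aev_sum l2, Finset.sum_mul, ← Finset.sum_add_distrib]
        refine Finset.sum_congr rfl fun c hc => ?_
        rw [← Finset.mul_sum, binom (Finset.mem_range.1 hc), sv]
        simp; ring
      simp only [this]
      rw [Finset.sum_comm, Finset.sum_congr rfl fun c _ => Finset.sum_comm, Finset.sum_comm]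
      refine Finset.sum_congr rfl fun e _ => ?_
      rw [mul_right_comm, ← add_mul, bl_eq cmK hρ U.length (ch U · e) id (· - e) Φ Q (f := cv2 U e) fun _ _ => rfl,
        Finset.sum_mul]
      refine Finset.sum_congr rfl fun c hc => ?_
      have := Finset.mem_range.1 hc
      rw [id, ch_eq this, hQ _ (by omega), Finset.mul_sum, Finset.sum_mul]
      exact Finset.sum_congr rfl fun y _ => by ring)
  rw [← e, ← coe_evalRingHom, aev_sum (M := U.length) (by simp [psi]), Finset.mul_sum, ← Finset.sum_add_distrib]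
  refine Finset.sum_congr rfl fun c hc => ?_
  rw [psi, gd_rm _ (Finset.mem_range.1 hc)]
  simp; ring

end Vale.Agent.P319.Q
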