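import Vale.Agent.P319.QS

/-! P319: factorization into pieces whose number of irreducible factors is prime to six. -/

namespace Vale.Agent.P319.Q

open Vale.Agent.Lib.H24.T Vale.Agent.P338.PTX Polynomial UniqueFactorizationMonoid
open scoped Classical

variable {α : Type} [Enc α]

def sml (m : ℕ) (R g D : List ℕ) : List (List ℕ) :=
  (List.range g.length).flatMap fun j => R.map fun c => ps [TT m g D j, [m * c]]
def cl (m : ℕ) (R U g E : List ℕ) : List (List ℕ) :=
  gd m (gc m g (fr m g (0 :: E))) E :: (sml m R g (0 :: E) ++ SP m R U g (0 :: E))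
def cls (m : ℕ) (R U g : List ℕ) : List (List ℕ) :=
  ((List.range g.length).flatMap fun i => cl m R U g (g.take i)).map fun a => gc m g a
def flt (m : ℕ) (R U g : List ℕ) : List (List ℕ) :=
  (cls m R U g).filter fun u => decide (0 < dg m u ∧ dg m u < dg m g)
def sh (m : ℕ) (R U g : List ℕ) : List ℕ :=
  if (flt m R U g).isEmpty then g else (nf m ((flt m R U g).getD 0 g)).take g.length
def pc (m : ℕ) (R U g : List ℕ) : List ℕ := (sh m R U)^[g.length] g
def lst (m : ℕ) (R U : List ℕ) (s : List ℕ × List (List ℕ)) : List ℕ × List (List ℕ) :=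
  if dg m s.1 = 0 then s else (dv m (pc m R U s.1) s.1, nf m (pc m R U s.1) :: s.2)
def pcs (m : ℕ) (R U f : List ℕ) : List (List ℕ) := ((lst m R U)^[f.length] (f, [])).2
def U4 (w : List ℕ) : List ℕ := 0 :: (w ++ w).flatMap fun _ => w.flatMap fun _ => w.flatMap fun _ => w
def RR (A : ℕ) (w : List ℕ) : List ℕ := List.range (false :: ((UU A w ++ (U4 w).map fun _ => false) ++
  (UU A w ++ (U4 w).map fun _ => false))).length
def alg6 (A : ℕ) (w : List ℕ) : List (List ℕ) :=
  [w.tail.getD (dg (w.getD 0 0 - 1) w.tail) 0] :: pcs (w.getD 0 0 - 1) (RR A w) (U4 w) (mon (w.getD 0 0 - 1) w.tail)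

theorem len_sh (m : ℕ) (R U g : List ℕ) (i : ℕ) : ((sh m R U)^[i] g).length ≤ g.length ∧
    sz ((sh m R U)^[i] g) ≤ g.length * (4 * sz m + 2) + 1 + sz g := by
  induction i with
  | zero => exact ⟨le_rfl, Nat.le_add_left _ _⟩
  | succ i ih =>
    rw [Function.iterate_succ_apply']
    generalize (sh m R U)^[i] g = t at *
    unfold sh
    split_ifs
    · exact ih
    · have h : Sm m g.length ((nf m ((flt m R U t).getD 0 t)).take t.length) :=
        ⟨(List.length_take_le _ _).trans ih.1, fun c hc => (sm_nf _ _).2 c (List.mem_of_mem_take hc)⟩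
      exact ⟨h.1, h.sz.trans (Nat.le_add_right _ _)⟩

section
variable {m : α → ℕ} {R U g E : α → List ℕ} {s : α → List ℕ × List (List ℕ)}
@[fun_prop] theorem pt_sml (hm : PT m) (hR : PT R) (hg : PT g) (hE : PT E) : PT fun x => sml (m x) (R x) (g x) (E x) := by
  unfold sml; fun_prop
@[fun_prop] theorem pt_cl (hm : PT m) (hR : PT R) (hU : PT U) (hg : PT g) (hE : PT E) :
    PT fun x => cl (m x) (R x) (U x) (g x) (E x) := by unfold cl; fun_prop
@[fun_prop] theorem pt_cls (hm : PT m) (hR : PT R) (hU : PT U) (hg : PT g) :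
    PT fun x => cls (m x) (R x) (U x) (g x) := by unfold cls; fun_prop
@[fun_prop] theorem pt_flt (hm : PT m) (hR : PT R) (hU : PT U) (hg : PT g) :
    PT fun x => flt (m x) (R x) (U x) (g x) :=
  PT.filter (g := fun x u => decide (0 < dg (m x) u ∧ dg (m x) u < dg (m x) (g x))) (pt_cls hm hR hU hg) (by fun_prop)
@[fun_prop] theorem pt_sh (hm : PT m) (hR : PT R) (hU : PT U) (hg : PT g) :
    PT fun x => sh (m x) (R x) (U x) (g x) := by unfold sh; fun_prop
@[fun_prop] theorem pt_pc (hm : PT m) (hR : PT R) (hU : PT U) (hg : PT g) :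
    PT fun x => pc (m x) (R x) (U x) (g x) :=
  PT.iterate (h := fun x => sh (m x) (R x) (U x)) (by fun_prop) hg hg
    (fun x => (g x).length * (4 * sz (m x) + 2) + 1 + sz (g x)) (by fun_prop) fun x i _ => (len_sh _ _ _ _ i).2
@[fun_prop] theorem pt_lst (hm : PT m) (hR : PT R) (hU : PT U) (hs : PT s) :
    PT fun x => lst (m x) (R x) (U x) (s x) := by unfold lst; fun_prop
@[fun_prop] theorem pt_pcs (hm : PT m) (hR : PT R) (hU : PT U) (hg : PT g) :
    PT fun x => pcs (m x) (R x) (U x) (g x) :=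
  (PT.iterate (h := fun x => lst (m x) (R x) (U x)) (b := fun x => (g x, [])) (by fun_prop) hg (by fun_prop)
    (fun x => sz (g x) + 3 + ((g x).length + 1) * ((g x).length * (4 * sz (m x) + 2) + 2)) (by fun_prop)
    fun x i hi => by
      have key : ∀ i, ((lst (m x) (R x) (U x))^[i] (g x, [])).1.length ≤ (g x).length ∧
          sz ((lst (m x) (R x) (U x))^[i] (g x, [])).1 ≤ sz (g x) + ((g x).length * (4 * sz (m x) + 2) + 2) ∧
          sz ((lst (m x) (R x) (U x))^[i] (g x, [])).2 ≤ 1 + i * ((g x).length * (4 * sz (m x) + 2) + 2) := fun i => by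
        induction i with
        | zero => exact ⟨le_rfl, Nat.le_add_right _ _, by simp⟩
        | succ i ih =>
          rw [Function.iterate_succ_apply']
          generalize (lst (m x) (R x) (U x))^[i] (g x, []) = t at *
          unfold lst
          rw [add_one_mul]
          split_ifs
          · exact ⟨ih.1, ih.2.1, by omega⟩
          · have a := (sm_dv (m x) (pc (m x) (R x) (U x) t.1) t.1).mono ih.1
            have b := ((sm_nf (m x) (pc (m x) (R x) (U x) t.1)).mono ((len_sh _ _ _ _ _).1.trans ih.1)).sz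
            have := a.sz
            have := ih.2.2
            refine ⟨a.1, by dsimp only; omega, ?_⟩
            dsimp only
            rw [sz_cons]; omega
      obtain ⟨-, k1, k2⟩ := key i
      have := Nat.mul_le_mul_right ((g x).length * (4 * sz (m x) + 2) + 2) hi
      rw [sz_pair', add_one_mul]; omega).snd
end

theorem pt_alg6 (A : ℕ) : PT (alg6 A) := by
  have h0 : PT fun w : List ℕ => w.getD 0 0 := PT.getD PT.id (PT.const 0) (PT.const 0)
  have ht : PT fun w : List ℕ => w.tail := by fun_prop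
  have hU : PT (UU A) := (pt_un ((PT.const false).cons ((PT.const false).cons h0.bits)) A).append (by fun_prop)
  have h4 : PT U4 := by unfold U4; fun_prop
  have h5 : PT fun w => UU A w ++ (U4 w).map fun _ => false := hU.append (by fun_prop)
  exact (pt_l1 (PT.getD ht (pt_dg h0.pred ht) (PT.const 0))).cons
    (pt_pcs h0.pred (PT.range_length ((PT.const false).cons (h5.append h5))) h4 (pt_mon h0.pred ht))

/-- a product of distinct monic irreducible polynomials of one degree, their number prime to six -/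
def Pc {p : ℕ} (g : (ZMod p)[X]) : Prop := ∃ (d : ℕ) (s : Finset (ZMod p)[X]),
  (∀ h ∈ s, h.Monic ∧ Irreducible h ∧ h.natDegree = d) ∧ g = ∏ h ∈ s, h ∧ s.card.Coprime 6

variable {m : ℕ} [hp : Fact (m + 1).Prime]

def Ok (m : ℕ) [Fact (m + 1).Prime] (R U : List ℕ) (n : ℕ) : Prop :=
  (∀ x : ZMod (m + 1), ∃ r ∈ R, (r : ZMod (m + 1)) = x) ∨ (3 < m ∧ U.length ≤ m + 1 ∧ 2 * n ^ 4 < U.length ∧
    ∃ (K : Type) (_ : Field K) (_ : Algebra (ZMod (m + 1)) K) (ρ : K), GK m R K ρ)

theorem fix_pc {R U g : List ℕ} {n : ℕ} (H : Ok m R U n) (hn : g.length ≤ n) (mg : (tp m g).Monic)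
    (g0 : 0 < (tp m g).natDegree) (h : ∀ u ∈ cls m R U g, ¬ (0 < dg m u ∧ dg m u < dg m g)) : Pc (tp m g) := by
  have k : ∀ i < g.length, ∀ a ∈ cl m R U g (g.take i), ∀ q, Irreducible q → q ∣ tp m g → q ∣ tp m a →
      tp m g ∣ tp m a := fun i hi a ha q q1 q2 q3 => by
    have := h _ (List.mem_map_of_mem (List.mem_flatMap.2 ⟨i, List.mem_range.2 hi, ha⟩))
    have mu := gc_monic mg.ne_zero a
    obtain ⟨d1, d2⟩ := (dvd_gc (m := m) g a _).1 dvd_rfl
    have := q1.natDegree_pos.trans_le (natDegree_le_of_dvd ((dvd_gc g a q).2 ⟨q2, q3⟩) mu.ne_zero)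
    simp only [dg_eq] at *
    exact (associated_of_dvd_of_natDegree_le d1 mg.ne_zero (by omega)).symm.dvd.trans d2
  obtain ⟨q, q1, q2, q3⟩ := exists_monic_irreducible_factor _ (not_isUnit_of_natDegree_pos _ g0)
  have n1 := natDegree_le_of_dvd q3 mg.ne_zero
  have n2 := nd_lt mg.ne_zero
  have n3 := q2.natDegree_pos
  have l : (g.take (q.natDegree - 1)).length + 1 = q.natDegree := by rw [List.length_take]; omega
  have k := k (q.natDegree - 1) (by omega)
  generalize g.take (q.natDegree - 1) = E at *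
  obtain ⟨g1, g2, g3⟩ := gd_spec mg E
  have d := k _ List.mem_cons_self q q2 q3 ((g3 q q2).2 ⟨q3, l.symm⟩)
  have sq := g2.squarefree_of_dvd d
  have me := fun q => (Multiset.mem_toFinset.trans (Polynomial.mem_normalizedFactors_iff (p := q) mg.ne_zero))
  have hg : tp m g = ∏ h ∈ (normalizedFactors (tp m g)).toFinset, h := by
    have := leadingCoeff_mul_prod_normalizedFactors (tp m g)
    rw [mg.leadingCoeff, C_1, one_mul] at this
    rw [Finset.prod_eq_multiset_prod, Multiset.map_id', Multiset.toFinset_val, Multiset.dedup_eq_self.2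
      ((squarefree_iff_nodup_normalizedFactors mg.ne_zero).1 sq), this]
  generalize (normalizedFactors (tp m g)).toFinset = s at *
  have hs : ∀ h ∈ s, h.Monic ∧ Irreducible h ∧ h.natDegree = (0 :: E).length := fun h hh =>
    ⟨((me h).1 hh).2.1, ((me h).1 hh).1, ((g3 h ((me h).1 hh).1).1 (((me h).1 hh).2.2.trans d)).2⟩
  have qs := (me q).2 ⟨q2, q1, q3⟩
  refine ⟨_, s, hs, hg, ?_⟩
  rcases H with H | ⟨h3, hU, hc, K, _, _, ρ, G⟩
  · rw [Finset.card_eq_one.2 ⟨q, Finset.eq_singleton_iff_unique_mem.2 ⟨qs, fun b hb => by_contra fun ne => ?_⟩⟩]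
    · norm_num
    have db := ((me b).1 hb).2.2
    obtain ⟨j, j1, j2⟩ := sep (hs b hb).1 (hs b hb).2.1 q1 q2 ne db q3 mg n2
    obtain ⟨c, c1, c2⟩ := H (tr q (X ^ j))
    have e : tp m (ps [TT m g (0 :: E) j, [m * c]]) = tp m (TT m g (0 :: E) j) - C (tr q (X ^ j)) := by
      rw [tp_ps, ← c2]
      simp [tp_one, cm, sub_eq_add_neg, -map_natCast]
    have := db.trans (k _ (List.mem_cons_of_mem _ (List.mem_append_left _ (List.mem_flatMap.2 ⟨j, List.mem_range.2 j1,
      List.mem_map_of_mem c1⟩))) q q2 q3 (e ▸ TT_spec mg q2 (hs q qs).2.2 q3 j))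
    rw [e] at this
    have := dvd_sub this (TT_spec mg (hs b hb).2.1 (hs b hb).2.2 db j)
    rw [sub_sub_sub_cancel_left, ← C_sub] at this
    exact (hs b hb).2.1.not_isUnit (isUnit_of_dvd_unit this (isUnit_C.2 (sub_ne_zero.2 j2).isUnit))
  · have c4 : 2 * g.length ^ 4 ≤ 2 * n ^ 4 := by gcongr
    have c5 : g.length ≤ g.length ^ 4 := Nat.le_self_pow (by norm_num) _
    have : ¬ (2 ∣ s.card ∨ 3 ∣ s.card) := fun c => by
      obtain ⟨a, a1, b, b1, b', b2, b3, b4⟩ := SP_spec (D := 0 :: E) G h3 (by simp) (by simp; omega) hs hg hU (by omega)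
        ⟨q, qs⟩ c
      exact b4 (((me b').1 b2).2.2.trans (k a (List.mem_cons_of_mem _ (List.mem_append_right _ a1)) b (hs b b1).2.1
        ((me b).1 b1).2.2 b3))
    rw [not_or] at this
    exact Nat.Coprime.mul_right ((Nat.prime_two.coprime_iff_not_dvd.2 this.1).symm)
      (Nat.prime_three.coprime_iff_not_dvd.2 this.2).symm

theorem tp_take {l : List ℕ} {n : ℕ} (h : (tp m l).natDegree < n) : tp m ((nf m l).take n) = tp m l := by
  rw [List.take_of_length_le, tp_nf]
  have := dg_eq (m := m) l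
  rw [dg, List.length_tail] at this
  omega

theorem pc_spec {R U g : List ℕ} {n : ℕ} (H : Ok m R U n) (hn : g.length ≤ n) (mg : (tp m g).Monic)
    (g0 : 0 < (tp m g).natDegree) : (tp m (pc m R U g)).Monic ∧ tp m (pc m R U g) ∣ tp m g ∧
      0 < (tp m (pc m R U g)).natDegree ∧ Pc (tp m (pc m R U g)) := by
  have key : ∀ i, (tp m ((sh m R U)^[i] g)).Monic ∧ tp m ((sh m R U)^[i] g) ∣ tp m g ∧
      0 < (tp m ((sh m R U)^[i] g)).natDegree ∧ (flt m R U ((sh m R U)^[i] g) = [] ∨
        (tp m ((sh m R U)^[i] g)).natDegree + i ≤ (tp m g).natDegree) := fun i => by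
    induction i with
    | zero => exact ⟨mg, dvd_rfl, g0, Or.inr le_rfl⟩
    | succ i ih =>
      rw [Function.iterate_succ_apply']
      generalize (sh m R U)^[i] g = t at *
      obtain ⟨i1, i2, i3, i4⟩ := ih
      unfold sh
      rcases e : flt m R U t with _ | ⟨u, v⟩
      · exact ⟨i1, i2, i3, Or.inl e⟩
      · obtain ⟨u1, u2⟩ := List.mem_filter.1 (show u ∈ flt m R U t from e ▸ List.mem_cons_self)
        rw [decide_eq_true_iff, dg_eq, dg_eq] at u2
        obtain ⟨a, -, rfl⟩ := List.mem_map.1 u1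
        rw [if_neg (by simp), List.getD_cons_zero, tp_take (u2.2.trans (nd_lt i1.ne_zero))]
        have := i4.resolve_left (by simp [e])
        exact ⟨gc_monic i1.ne_zero a, ((dvd_gc t a _).1 dvd_rfl).1.trans i2, u2.1, Or.inr (by omega)⟩
  obtain ⟨k1, k2, k3, k4⟩ := key g.length
  have := nd_lt mg.ne_zero
  exact ⟨k1, k2, k3, fix_pc H ((len_sh _ _ _ _ _).1.trans hn) k1 k3 fun u hu => by
    simpa [pc] using List.filter_eq_nil_iff.1 (k4.resolve_right (by omega)) u hu⟩

theorem pcs_spec {R U f : List ℕ} (H : Ok m R U f.length) (mf : (tp m f).Monic) :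
    tp m f = ((pcs m R U f).map (tp m)).prod ∧ ∀ g ∈ pcs m R U f, Pc (tp m g) := by
  have key : ∀ i s, s = (lst m R U)^[i] (f, []) → s.1.length ≤ f.length ∧ (tp m s.1).Monic ∧
      tp m f = tp m s.1 * (s.2.map (tp m)).prod ∧ (∀ g ∈ s.2, Pc (tp m g)) ∧
      ((tp m s.1).natDegree = 0 ∨ (tp m s.1).natDegree + i ≤ (tp m f).natDegree) := fun i => by
    induction i with
    | zero => rintro s rfl; exact ⟨le_rfl, mf, by simp, by simp, Or.inr le_rfl⟩
    | succ i ih =>
      rintro s rfl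
      rw [Function.iterate_succ_apply']
      obtain ⟨i1, i2, i3, i4, i5⟩ := ih _ rfl
      generalize (lst m R U)^[i] (f, []) = t at *
      unfold lst
      rw [dg_eq]
      split_ifs with c
      · exact ⟨i1, i2, i3, i4, Or.inl c⟩
      obtain ⟨a1, a2, a3, a4⟩ := pc_spec H i1 i2 (Nat.pos_of_ne_zero c)
      generalize pc m R U t.1 = a at *
      have e2 : tp m a * tp m (dv m a t.1) = tp m t.1 := by
        rw [tp_dv a1]
        have := modByMonic_add_div (tp m t.1) (tp m a)
        rwa [(modByMonic_eq_zero_iff_dvd a1).2 a2, zero_add] at this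
      have m2 := a1.of_mul_monic_left (e2 ▸ i2)
      have := i5.resolve_left c
      rw [← e2, a1.natDegree_mul m2] at this
      refine ⟨(sm_dv m a t.1).1.trans i1, m2, by rw [i3, ← e2, List.map_cons, List.prod_cons, tp_nf]; ring,
        fun g hg => ?_, Or.inr (by dsimp only; omega)⟩
      rcases List.mem_cons.1 hg with rfl | hg
      · rwa [tp_nf]
      · exact i4 g hg
  obtain ⟨-, k1, k2, k3, k4⟩ := key f.length _ rfl
  have := nd_lt mf.ne_zero
  rw [k1.natDegree_eq_zero.1 (k4.resolve_right (by omega)), one_mul] at k2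
  exact ⟨k2, k3⟩

omit hp in
theorem exGK : ∃ A : ℕ, ∀ (m B : ℕ) [Fact (m + 1).Prime], 3 < m → ((m + 1).size + 2) ^ A ≤ B →
    ∃ (K : Type) (_ : Field K) (_ : Algebra (ZMod (m + 1)) K) (ρ : K), GK m (List.range (2 * B + 1)) K ρ := by
  obtain ⟨A1, h1⟩ := nonres
  obtain ⟨A2, h2⟩ := cnr
  refine ⟨A1 + A2, fun m B hp' h3 hB => ?_⟩
  have hp := hp'.out
  have b1 : ((m + 1).size + 2) ^ A1 ≤ B := (Nat.pow_le_pow_right (by omega) (by omega)).trans hB
  have b2 : ((m + 1).size + 2) ^ A2 ≤ B := (Nat.pow_le_pow_right (by omega) (by omega)).trans hB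
  have od := hp.eq_two_or_odd.resolve_left (by omega)
  have nr : ∃ g ∈ m :: List.range (2 * B + 1), ¬ IsSquare (g : ZMod (m + 1)) := by
    by_cases c : (m + 1) % 4 = 1
    · obtain ⟨g, g1, g2⟩ := h1 _ hp c
      exact ⟨g, List.mem_cons_of_mem _ (List.mem_range.2 (by omega)), g2⟩
    · exact ⟨m, List.mem_cons_self, by rw [cm, ZMod.exists_sq_eq_neg_one_iff]; omega⟩
  have hs : ∀ (a : ℕ) (x : ZMod (m + 1)), x ^ 2 = a →
      ∃ s ∈ sqs m (List.range (2 * B + 1)) a, (s : ZMod (m + 1)) = x := fun a x => sqs_spec (by omega) (by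
    by_cases c : (m + 1) % 4 = 1
    · obtain ⟨g, g1, g2⟩ := h1 _ hp c
      exact ⟨g, List.mem_range.2 (by omega), fun _ => g2⟩
    · exact ⟨0, by simp, fun e => absurd e c⟩)
  obtain ⟨μ, m1, m2, m3, m4, m5⟩ := exmu h3 hs
  have := Fact.mk m3
  obtain ⟨_, hc⟩ := adj_card (tp m μ)
  have n3 : (m + 1) % 3 ≠ 0 := fun z => by
    have := (Nat.prime_dvd_prime_iff_eq Nat.prime_three hp).1 (Nat.dvd_of_mod_eq_zero z)
    omega
  have q1 : QQ m = (qq (m + 1) - 1) / 3 := by unfold QQ qq; split_ifs <;> simp [sq]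
  have q2 : 3 * QQ m = qq (m + 1) - 1 ∧ 0 < QQ m := by
    unfold QQ qq
    split_ifs with c
    · omega
    · obtain ⟨k, rfl⟩ : ∃ k, m = 3 * k + 1 := ⟨m / 3, by omega⟩
      have : (3 * k + 1 + 1) * (3 * k + 1 + 1) = 3 * (3 * k * k + 4 * k + 1) + 1 := by ring
      rw [sq, this]; omega
  have om : AdjoinRoot.mk (tp m μ) X ^ 2 + AdjoinRoot.mk (tp m μ) X + 1 = 0 := by
    simpa using AdjoinRoot.mk_eq_zero.2 m5
  have fe : ∀ x : AdjoinRoot (tp m μ), x ≠ 0 → x ^ (QQ m * 3) = 1 := fun x hx => by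
    rw [mul_comm, q2.1, ← m4, ← hc]; exact FiniteField.pow_card_sub_one_eq_one x hx
  refine ⟨AdjoinRoot (tp m μ), inferInstance, inferInstance, _, om, ⟨μ, m1, fun x y z h => ?_⟩, fe, q2.2.ne', ?_, ?_⟩
  · have d : tp m μ ∣ C y * X + C (x - z) := by
      rw [← AdjoinRoot.mk_eq_zero, C_sub, map_add, map_sub, map_mul]
      simp only [AdjoinRoot.mk_C, ← AdjoinRoot.algebraMap_eq]
      linear_combination h
    unfold mus at m1
    split_ifs at m1 with c
    · obtain ⟨s, -, rfl⟩ := List.mem_map.1 m1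
      rw [tp, lin, ← sub_neg_eq_add, ← C_neg, dvd_iff_isRoot] at d
      rw [List.getD_cons_zero, Nat.cast_mul, cm]
      simp only [IsRoot, eval_add, eval_mul, eval_C, eval_X] at d
      linear_combination d
    · have e : (tp m μ).natDegree = 2 := Nat.pow_right_injective hp.two_le (by simpa [qq, c] using m4)
      have := eq_zero_of_dvd_of_natDegree_lt d (natDegree_linear_le.trans_lt (by omega))
      have a1 := congrArg (coeff · 1) this
      have a0 := congrArg (coeff · 0) this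
      simp only [coeff_add, coeff_C_mul, coeff_X_one, coeff_C_succ, coeff_zero, coeff_X_zero, coeff_C_zero] at a0 a1
      linear_combination a0 + ((m * μ.getD 0 0 : ℕ) : ZMod (m + 1)) * a1
  · obtain ⟨a, b, a1, a2, a3, a4⟩ := h2 _ hp (by omega) _ _ om
    have e : ∀ a : ℤ, a.natAbs ≤ B → (((a + B).toNat + m * B : ℕ) : AdjoinRoot (tp m μ)) = a := fun a ha => by
      have : (((a + B).toNat : ℕ) : ℤ) = a + B := Int.toNat_of_nonneg (by omega)
      have := congrArg (Int.cast : ℤ → AdjoinRoot (tp m μ)) this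
      push_cast at this ⊢
      rw [this, cmK (m := m)]; ring
    refine ⟨(a + B).toNat + m * B, (b + B).toNat + m * B, List.mem_append_left _ (List.mem_map.2
      ⟨[(a + B).toNat + m * B, (b + B).toNat + m * B], List.mem_flatMap.2 ⟨(a + B).toNat,
        List.mem_range.2 (by omega), List.mem_map.2 ⟨(b + B).toNat, List.mem_range.2 (by omega), ?_⟩⟩, rfl⟩), ?_⟩
    · rw [List.length_range, show (2 * B + 1) / 2 = B by omega]
    · haveI : Fact (Nat.Prime 3) := ⟨Nat.prime_three⟩
      rw [e a (a1.trans b2), e b (a2.trans b2)]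
      exact IsPrimitiveRoot.iff_orderOf.2 (orderOf_eq_prime (by rw [← pow_mul, fe _ a3]) (q1 ▸ a4))
  · obtain ⟨g, g1, g2⟩ := nr
    refine ⟨g, List.mem_append_right _ (List.mem_map_of_mem g1), ?_⟩
    have g0 : (g : ZMod (m + 1)) ≠ 0 := fun z => g2 (z ▸ IsSquare.zero)
    have := (ZMod.pow_div_two_eq_neg_one_or_one (m + 1) g0).resolve_left (mt (ZMod.euler_criterion _ g0).2 g2)
    rw [← map_natCast (algebraMap (ZMod (m + 1)) _), ← map_pow, show m / 2 = (m + 1) / 2 by omega, this, map_neg,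
      map_one]
    exact IsPrimitiveRoot.neg_one (m + 1) (by omega)

omit hp in
theorem alg6_spec (A p : ℕ) (f : List ℕ) (hp : p.Prime) (hf : toPoly p f ≠ 0)
    (hA : ∀ (m B : ℕ) [Fact (m + 1).Prime], 3 < m → ((m + 1).size + 2) ^ A ≤ B →
    ∃ (K : Type) (_ : Field K) (_ : Algebra (ZMod (m + 1)) K) (ρ : K), GK m (List.range (2 * B + 1)) K ρ) :
    ∃ (c : ℕ) (L : List (List ℕ)), alg6 A (p :: f) = [c] :: L ∧
      toPoly p f = C (c : ZMod p) * (L.map (toPoly p)).prod ∧ ∀ g ∈ L, Pc (toPoly p g) := by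
  obtain ⟨m, rfl⟩ : ∃ m, p = m + 1 := ⟨p - 1, by have := hp.pos; omega⟩
  have := Fact.mk hp
  obtain ⟨e, mf⟩ := mon_spec (m := m) hf
  have l : (UU A ((m + 1) :: f)).length = ((m + 1).size + 2) ^ A + (f.length + 3) := by
    simp [UU, length_un, Nat.size_eq_bits_len]
  have l4 : (U4 ((m + 1) :: f)).length = 2 * (f.length + 1) ^ 4 + 1 := by
    simp only [U4, List.length_cons, List.length_flatMap, List.map_const', List.sum_replicate, List.length_append,
      smul_eq_mul]
    ring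
  have l2 : RR A ((m + 1) :: f) =
      List.range (2 * (((m + 1).size + 2) ^ A + (f.length + 3) + (U4 ((m + 1) :: f)).length) + 1) := by
    rw [RR, List.length_cons, List.length_append, List.length_append, l, List.length_map, two_mul]
  have l3 := (sm_mon m f).1
  obtain ⟨k1, k2⟩ := pcs_spec (R := RR A ((m + 1) :: f)) (U := U4 ((m + 1) :: f)) (by
      rw [l2]
      by_cases c : 3 < m ∧ (U4 ((m + 1) :: f)).length ≤ m + 1
      · refine Or.inr ⟨c.1, c.2, ?_, hA m _ c.1 (by omega)⟩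
        rw [l4, Nat.lt_succ_iff]
        gcongr
        omega
      · refine Or.inl fun x => ⟨x.val, List.mem_range.2 ?_, ZMod.natCast_zmod_val x⟩
        have := x.val_lt
        omega) mf
  refine ⟨f.getD (dg m f) 0, _, rfl, ?_, k2⟩
  have e2 : (f.getD (dg m f) 0 : ZMod (m + 1)) = (tp m f).leadingCoeff := by
    rw [leadingCoeff, coeff_toPoly, dg_eq]
  rw [e2]
  refine Eq.trans ?_ (congrArg _ k1)
  rw [e, ← mul_assoc, ← C_mul, mul_inv_cancel₀ (leadingCoeff_ne_zero.2 hf), C_1, one_mul]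

omit hp in
theorem Pc.irr {p : ℕ} [Fact p.Prime] {g : (ZMod p)[X]} (h : Pc g)
    (h4 : ∀ (d : ℕ) (s : Finset (ZMod p)[X]),
      (∀ h ∈ s, h.Monic ∧ Irreducible h ∧ h ∣ g ∧ h.natDegree = d) → s.card ≤ 4) : g.Monic ∧ Irreducible g := by
  obtain ⟨d, s, h1, rfl, h2⟩ := h
  have := h4 d s fun h hh => ⟨(h1 h hh).1, (h1 h hh).2.1, Finset.dvd_prod_of_mem (fun b => b) hh, (h1 h hh).2.2⟩
  obtain ⟨q, rfl⟩ := Finset.card_eq_one.1 (show s.card = 1 by
    generalize s.card = k at *
    interval_cases k <;> first | rfl | exact absurd h2 (by decide))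
  simpa using ⟨(h1 q (by simp)).1, (h1 q (by simp)).2.1⟩

end Vale.Agent.P319.Q
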