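import Vale.Agent.P319.QU

/-! P319: factorization into pieces, all primes up to a fixed bound. -/

namespace Vale.Agent.P319.Q.M

open Vale.Agent.Lib.H24.T Vale.Agent.P338.PTX Polynomial UniqueFactorizationMonoid
open scoped Classical

variable {α : Type} [Enc α]

def SK (m : ℕ) (R U g D : List ℕ) : ℕ → List (List ℕ)
  | 0 => SP m R U g D
  | j + 1 => SR j m R U g D ++ SK m R U g D j

variable (k : ℕ)

def cl (m : ℕ) (R U g E : List ℕ) : List (List ℕ) :=
  gd m (gc m g (fr m g (0 :: E))) E :: (sml m R g (0 :: E) ++ SK m R U g (0 :: E) k)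
def cls (m : ℕ) (R U g : List ℕ) : List (List ℕ) :=
  ((List.range g.length).flatMap fun i => cl k m R U g (g.take i)).map fun a => gc m g a
def flt (m : ℕ) (R U g : List ℕ) : List (List ℕ) :=
  (cls k m R U g).filter fun u => decide (0 < dg m u ∧ dg m u < dg m g)
def sh (m : ℕ) (R U g : List ℕ) : List ℕ :=
  if (flt k m R U g).isEmpty then g else (nf m ((flt k m R U g).getD 0 g)).take g.length
def pc (m : ℕ) (R U g : List ℕ) : List ℕ := (sh k m R U)^[g.length] g
def lst (m : ℕ) (R U : List ℕ) (s : List ℕ × List (List ℕ)) : List ℕ × List (List ℕ) :=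
  if dg m s.1 = 0 then s else (dv m (pc k m R U s.1) s.1, nf m (pc k m R U s.1) :: s.2)
def pcs (m : ℕ) (R U f : List ℕ) : List (List ℕ) := ((lst k m R U)^[f.length] (f, [])).2
def UJ (J : ℕ) (w : List ℕ) : List ℕ := 0 :: (un ((0 :: 0 :: w).map fun _ => false) J).map fun _ => 0
def RJ (A J : ℕ) (w : List ℕ) : List ℕ := List.range (false :: ((UU A w ++ (UJ J w).map fun _ => false) ++
  (UU A w ++ (UJ J w).map fun _ => false))).length
def algk (A J : ℕ) (w : List ℕ) : List (List ℕ) :=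
  [w.tail.getD (dg (w.getD 0 0 - 1) w.tail) 0] ::
    pcs k (w.getD 0 0 - 1) (RJ A J w) (UJ J w) (mon (w.getD 0 0 - 1) w.tail)

theorem len_sh (m : ℕ) (R U g : List ℕ) (i : ℕ) : ((sh k m R U)^[i] g).length ≤ g.length ∧
    sz ((sh k m R U)^[i] g) ≤ g.length * (4 * sz m + 2) + 1 + sz g := by
  induction i with
  | zero => exact ⟨le_rfl, Nat.le_add_left _ _⟩
  | succ i ih =>
    rw [Function.iterate_succ_apply']
    generalize (sh k m R U)^[i] g = t at *
    unfold sh
    split_ifs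
    · exact ih
    · have h : Sm m g.length ((nf m ((flt k m R U t).getD 0 t)).take t.length) :=
        ⟨(List.length_take_le _ _).trans ih.1, fun c hc => (sm_nf _ _).2 c (List.mem_of_mem_take hc)⟩
      exact ⟨h.1, h.sz.trans (Nat.le_add_right _ _)⟩

section
variable {m : α → ℕ} {R U g E : α → List ℕ} {s : α → List ℕ × List (List ℕ)}
@[fun_prop] theorem pt_SK (hm : PT m) (hR : PT R) (hU : PT U) (hg : PT g) (hE : PT E) :
    PT fun x => SK (m x) (R x) (U x) (g x) (E x) k := by
  induction k with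
  | zero => exact pt_SP hm hR hU hg hE
  | succ j ih => exact (pt_SR j hm hR hU hg hE).append ih
@[fun_prop] theorem pt_cl (hm : PT m) (hR : PT R) (hU : PT U) (hg : PT g) (hE : PT E) :
    PT fun x => cl k (m x) (R x) (U x) (g x) (E x) := by unfold cl; fun_prop
@[fun_prop] theorem pt_cls (hm : PT m) (hR : PT R) (hU : PT U) (hg : PT g) :
    PT fun x => cls k (m x) (R x) (U x) (g x) := by unfold cls; fun_prop
@[fun_prop] theorem pt_flt (hm : PT m) (hR : PT R) (hU : PT U) (hg : PT g) :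
    PT fun x => flt k (m x) (R x) (U x) (g x) :=
  PT.filter (g := fun x u => decide (0 < dg (m x) u ∧ dg (m x) u < dg (m x) (g x))) (pt_cls k hm hR hU hg) (by fun_prop)
@[fun_prop] theorem pt_sh (hm : PT m) (hR : PT R) (hU : PT U) (hg : PT g) :
    PT fun x => sh k (m x) (R x) (U x) (g x) := by unfold sh; fun_prop
@[fun_prop] theorem pt_pc (hm : PT m) (hR : PT R) (hU : PT U) (hg : PT g) :
    PT fun x => pc k (m x) (R x) (U x) (g x) :=
  PT.iterate (h := fun x => sh k (m x) (R x) (U x)) (by fun_prop) hg hg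
    (fun x => (g x).length * (4 * sz (m x) + 2) + 1 + sz (g x)) (by fun_prop) fun x i _ => (len_sh k _ _ _ _ i).2
@[fun_prop] theorem pt_lst (hm : PT m) (hR : PT R) (hU : PT U) (hs : PT s) :
    PT fun x => lst k (m x) (R x) (U x) (s x) := by unfold lst; fun_prop
@[fun_prop] theorem pt_pcs (hm : PT m) (hR : PT R) (hU : PT U) (hg : PT g) :
    PT fun x => pcs k (m x) (R x) (U x) (g x) :=
  (PT.iterate (h := fun x => lst k (m x) (R x) (U x)) (b := fun x => (g x, [])) (by fun_prop) hg (by fun_prop)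
    (fun x => sz (g x) + 3 + ((g x).length + 1) * ((g x).length * (4 * sz (m x) + 2) + 2)) (by fun_prop)
    fun x i hi => by
      have key : ∀ i, ((lst k (m x) (R x) (U x))^[i] (g x, [])).1.length ≤ (g x).length ∧
          sz ((lst k (m x) (R x) (U x))^[i] (g x, [])).1 ≤ sz (g x) + ((g x).length * (4 * sz (m x) + 2) + 2) ∧
          sz ((lst k (m x) (R x) (U x))^[i] (g x, [])).2 ≤ 1 + i * ((g x).length * (4 * sz (m x) + 2) + 2) := fun i => by
        induction i with
        | zero => exact ⟨le_rfl, Nat.le_add_right _ _, by simp⟩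
        | succ i ih =>
          rw [Function.iterate_succ_apply']
          generalize (lst k (m x) (R x) (U x))^[i] (g x, []) = t at *
          unfold lst
          rw [add_one_mul]
          split_ifs
          · exact ⟨ih.1, ih.2.1, by omega⟩
          · have a := (sm_dv (m x) (pc k (m x) (R x) (U x) t.1) t.1).mono ih.1
            have b := ((sm_nf (m x) (pc k (m x) (R x) (U x) t.1)).mono ((len_sh k _ _ _ _ _).1.trans ih.1)).sz
            have := a.sz
            have := ih.2.2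
            refine ⟨a.1, by dsimp only; omega, ?_⟩
            dsimp only
            rw [sz_cons]; omega
      obtain ⟨-, k1, k2⟩ := key i
      have := Nat.mul_le_mul_right ((g x).length * (4 * sz (m x) + 2) + 2) hi
      rw [sz_pair', add_one_mul]; omega).snd
end

theorem pt_algk (A J : ℕ) : PT (algk k A J) := by
  have h0 : PT fun w : List ℕ => w.getD 0 0 := PT.getD PT.id (PT.const 0) (PT.const 0)
  have ht : PT fun w : List ℕ => w.tail := by fun_prop
  have hU : PT (UU A) := (pt_un ((PT.const false).cons ((PT.const false).cons h0.bits)) A).append (by fun_prop)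
  have h4 : PT (UJ J) := (PT.const 0).cons (PT.map (g := fun _ _ => 0) (pt_un (by fun_prop) J) (PT.const 0))
  have h5 : PT fun w => UU A w ++ (UJ J w).map fun _ => false := hU.append (by fun_prop)
  exact (pt_l1 (PT.getD ht (pt_dg h0.pred ht) (PT.const 0))).cons
    (pt_pcs k h0.pred (PT.range_length ((PT.const false).cons (h5.append h5))) h4 (pt_mon h0.pred ht))

/-- a product of distinct monic irreducible polynomials of one degree, their number having only bad prime factors -/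
def Pk {p : ℕ} (g : (ZMod p)[X]) : Prop := ∃ (d : ℕ) (s : Finset (ZMod p)[X]),
  (∀ h ∈ s, h.Monic ∧ Irreducible h ∧ h.natDegree = d) ∧ g = ∏ h ∈ s, h ∧
    ∀ r : ℕ, r.Prime → r ∣ s.card → 5 ≤ r ∧ (k < r ∨ r ^ 2 ∣ p ^ (r - 1) - 1)

variable {k} {m : ℕ} [hp : Fact (m + 1).Prime]

def Ok (k m : ℕ) [Fact (m + 1).Prime] (R U : List ℕ) (n : ℕ) : Prop :=
  (∀ x : ZMod (m + 1), ∃ r ∈ R, (r : ZMod (m + 1)) = x) ∨ (3 < m ∧ k < m ∧ U.length ≤ m + 1 ∧
    2 * ((k + 1) * (n + 1) ^ (k + 4)) < U.length ∧ (∀ j < k, (j + 1).Prime → NZ j (m + 1)) ∧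
    ∃ (K : Type) (_ : Field K) (_ : Algebra (ZMod (m + 1)) K) (ρ : K), GK m R K ρ)

omit hp in
theorem mem_SK {R U g D a : List ℕ} (h : a ∈ SP m R U g D ∨ ∃ j < k, a ∈ SR j m R U g D) : a ∈ SK m R U g D k := by
  induction k with
  | zero => exact h.resolve_right (by simp)
  | succ k ih =>
    rcases h with h | ⟨j, j1, j2⟩
    · exact List.mem_append_right _ (ih (Or.inl h))
    · rcases Nat.lt_succ_iff_lt_or_eq.1 j1 with q | rfl
      · exact List.mem_append_right _ (ih (Or.inr ⟨j, q, j2⟩))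
      · exact List.mem_append_left _ j2

theorem fix_pc {R U g : List ℕ} {n : ℕ} (H : Ok k m R U n) (hn : g.length ≤ n) (mg : (tp m g).Monic)
    (g0 : 0 < (tp m g).natDegree) (h : ∀ u ∈ cls k m R U g, ¬ (0 < dg m u ∧ dg m u < dg m g)) : Pk k (tp m g) := by
  have kk : ∀ i < g.length, ∀ a ∈ cl k m R U g (g.take i), ∀ q, Irreducible q → q ∣ tp m g → q ∣ tp m a →
      tp m g ∣ tp m a := fun i hi a ha q q1 q2 q3 => by
    have := h _ (List.mem_map_of_mem (List.mem_flatMap.2 ⟨i, List.mem_range.2 hi, ha⟩))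
    have mu := gc_monic mg.ne_zero a
    obtain ⟨d1, d2⟩ := (dvd_gc (m := m) g a _).1 dvd_rfl
    have := q1.natDegree_pos.trans_le (natDegree_le_of_dvd ((dvd_gc g a q).2 ⟨q2, q3⟩) mu.ne_zero)
    simp only [dg_eq] at *
    exact (associated_of_dvd_of_natDegree_le d1 mg.ne_zero (by omega)).symm.dvd.trans d2
  obtain ⟨q, q1, q2, q3⟩ := exists_monic_irreducible_factor _ (not_isUnit_of_natDegree_pos _ g0)
  have n1 := natDegree_le_of_dvd q3 mg.ne_zero
  have n2 := nd_lt mg.ne_zero
  have n3 := q2.natDegree_pos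
  have l : (g.take (q.natDegree - 1)).length + 1 = q.natDegree := by rw [List.length_take]; omega
  have kk := kk (q.natDegree - 1) (by omega)
  generalize g.take (q.natDegree - 1) = E at *
  obtain ⟨g1, g2, g3⟩ := gd_spec mg E
  have d := kk _ List.mem_cons_self q q2 q3 ((g3 q q2).2 ⟨q3, l.symm⟩)
  have sq := g2.squarefree_of_dvd d
  have me := fun q => (Multiset.mem_toFinset.trans (Polynomial.mem_normalizedFactors_iff (p := q) mg.ne_zero))
  have hg : tp m g = ∏ h ∈ (normalizedFactors (tp m g)).toFinset, h := by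
    have := leadingCoeff_mul_prod_normalizedFactors (tp m g)
    rw [mg.leadingCoeff, C_1, one_mul] at this
    rw [Finset.prod_eq_multiset_prod, Multiset.map_id', Multiset.toFinset_val, Multiset.dedup_eq_self.2
      ((squarefree_iff_nodup_normalizedFactors mg.ne_zero).1 sq), this]
  generalize (normalizedFactors (tp m g)).toFinset = s at *
  have hs : ∀ h ∈ s, h.Monic ∧ Irreducible h ∧ h.natDegree = (0 :: E).length := fun h hh =>
    ⟨((me h).1 hh).2.1, ((me h).1 hh).1, ((g3 h ((me h).1 hh).1).1 (((me h).1 hh).2.2.trans d)).2⟩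
  have qs := (me q).2 ⟨q2, q1, q3⟩
  refine ⟨_, s, hs, hg, ?_⟩
  rcases H with H | ⟨h3, hk, hU, hc, hN, K, _, _, ρ, G⟩
  · rw [Finset.card_eq_one.2 ⟨q, Finset.eq_singleton_iff_unique_mem.2 ⟨qs, fun b hb => by_contra fun ne => ?_⟩⟩]
    · exact fun r hr d => absurd d hr.not_dvd_one
    have db := ((me b).1 hb).2.2
    obtain ⟨j, j1, j2⟩ := sep (hs b hb).1 (hs b hb).2.1 q1 q2 ne db q3 mg n2
    obtain ⟨c, c1, c2⟩ := H (tr q (X ^ j))
    have e : tp m (ps [TT m g (0 :: E) j, [m * c]]) = tp m (TT m g (0 :: E) j) - C (tr q (X ^ j)) := by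
      rw [tp_ps, ← c2]
      simp [tp_one, cm, sub_eq_add_neg, -map_natCast]
    have := db.trans (kk _ (List.mem_cons_of_mem _ (List.mem_append_left _ (List.mem_flatMap.2 ⟨j, List.mem_range.2 j1,
      List.mem_map_of_mem c1⟩))) q q2 q3 (e ▸ TT_spec mg q2 (hs q qs).2.2 q3 j))
    rw [e] at this
    have := dvd_sub this (TT_spec mg (hs b hb).2.1 (hs b hb).2.2 db j)
    rw [sub_sub_sub_cancel_left, ← C_sub] at this
    exact (hs b hb).2.1.not_isUnit (isUnit_of_dvd_unit this (isUnit_C.2 (sub_ne_zero.2 j2).isUnit))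
  · have c4 : ∀ j i, j ≤ k + 1 → i ≤ k + 4 → j * g.length ^ i ≤ (k + 1) * (n + 1) ^ (k + 4) := fun j i h1 h2 =>
      Nat.mul_le_mul h1 ((Nat.pow_le_pow_left (hn.trans n.le_succ) i).trans (Nat.pow_le_pow_right n.succ_pos h2))
    have c5 := c4 1 1 (by omega) (by omega)
    have c6 := c4 1 4 (by omega) (by omega)
    rw [one_mul, pow_one] at c5
    have fin : (∃ a ∈ SK m R U g (0 :: E) k, ∃ h ∈ s, ∃ h' ∈ s, h ∣ tp m a ∧ ¬ h' ∣ tp m a) → False :=
      fun ⟨a, a1, b, b1, b', b2, b3, b4⟩ => b4 (((me b').1 b2).2.2.trans (kk a (List.mem_cons_of_mem _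
        (List.mem_append_right _ a1)) b (hs b b1).2.1 ((me b).1 b1).2.2 b3))
    have c7 : ¬ (2 ∣ s.card ∨ 3 ∣ s.card) := fun c => by
      obtain ⟨a, a1, a2⟩ := SP_spec (D := 0 :: E) G h3 (by simp) (by simp; omega) hs hg hU (by omega) ⟨q, qs⟩ c
      exact fin ⟨a, mem_SK (Or.inl a1), a2⟩
    refine fun r hr d => ⟨by_contra fun c => c7 ?_, by_contra fun c => ?_⟩
    · have := hr.two_le
      have : r < 5 := not_le.1 c
      interval_cases r
      · exact Or.inl d
      · exact Or.inr d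
      · exact absurd hr (by decide)
    · obtain ⟨j, rfl⟩ : ∃ j, r = j + 1 := ⟨r - 1, by have := hr.pos; omega⟩
      rw [not_or, not_lt] at c
      have := c4 j (j + 2) (by omega) (by omega)
      obtain ⟨a, a1, a2⟩ := SR_spec (D := 0 :: E) hr (by omega) c.2 (hN j c.1 hr) G (by simp) (by simp; omega) hs hg hU
        (by omega) ⟨q, qs⟩ d
      exact fin ⟨a, mem_SK (Or.inr ⟨j, c.1, a1⟩), a2⟩

theorem pc_spec {R U g : List ℕ} {n : ℕ} (H : Ok k m R U n) (hn : g.length ≤ n) (mg : (tp m g).Monic)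
    (g0 : 0 < (tp m g).natDegree) : (tp m (pc k m R U g)).Monic ∧ tp m (pc k m R U g) ∣ tp m g ∧
      0 < (tp m (pc k m R U g)).natDegree ∧ Pk k (tp m (pc k m R U g)) := by
  have key : ∀ i, (tp m ((sh k m R U)^[i] g)).Monic ∧ tp m ((sh k m R U)^[i] g) ∣ tp m g ∧
      0 < (tp m ((sh k m R U)^[i] g)).natDegree ∧ (flt k m R U ((sh k m R U)^[i] g) = [] ∨
        (tp m ((sh k m R U)^[i] g)).natDegree + i ≤ (tp m g).natDegree) := fun i => by
    induction i with
    | zero => exact ⟨mg, dvd_rfl, g0, Or.inr le_rfl⟩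
    | succ i ih =>
      rw [Function.iterate_succ_apply']
      generalize (sh k m R U)^[i] g = t at *
      obtain ⟨i1, i2, i3, i4⟩ := ih
      unfold sh
      rcases e : flt k m R U t with _ | ⟨u, v⟩
      · exact ⟨i1, i2, i3, Or.inl e⟩
      · obtain ⟨u1, u2⟩ := List.mem_filter.1 (show u ∈ flt k m R U t from e ▸ List.mem_cons_self)
        rw [decide_eq_true_iff, dg_eq, dg_eq] at u2
        obtain ⟨a, -, rfl⟩ := List.mem_map.1 u1
        rw [if_neg (by simp), List.getD_cons_zero, tp_take (u2.2.trans (nd_lt i1.ne_zero))]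
        have := i4.resolve_left (by simp [e])
        exact ⟨gc_monic i1.ne_zero a, ((dvd_gc t a _).1 dvd_rfl).1.trans i2, u2.1, Or.inr (by omega)⟩
  obtain ⟨k1, k2, k3, k4⟩ := key g.length
  have := nd_lt mg.ne_zero
  exact ⟨k1, k2, k3, fix_pc H ((len_sh k _ _ _ _ _).1.trans hn) k1 k3 fun u hu => by
    simpa [pc] using List.filter_eq_nil_iff.1 (k4.resolve_right (by omega)) u hu⟩

theorem pcs_spec {R U f : List ℕ} (H : Ok k m R U f.length) (mf : (tp m f).Monic) :
    tp m f = ((pcs k m R U f).map (tp m)).prod ∧ ∀ g ∈ pcs k m R U f, Pk k (tp m g) := by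
  have key : ∀ i s, s = (lst k m R U)^[i] (f, []) → s.1.length ≤ f.length ∧ (tp m s.1).Monic ∧
      tp m f = tp m s.1 * (s.2.map (tp m)).prod ∧ (∀ g ∈ s.2, Pk k (tp m g)) ∧
      ((tp m s.1).natDegree = 0 ∨ (tp m s.1).natDegree + i ≤ (tp m f).natDegree) := fun i => by
    induction i with
    | zero => rintro s rfl; exact ⟨le_rfl, mf, by simp, by simp, Or.inr le_rfl⟩
    | succ i ih =>
      rintro s rfl
      rw [Function.iterate_succ_apply']
      obtain ⟨i1, i2, i3, i4, i5⟩ := ih _ rfl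
      generalize (lst k m R U)^[i] (f, []) = t at *
      unfold lst
      rw [dg_eq]
      split_ifs with c
      · exact ⟨i1, i2, i3, i4, Or.inl c⟩
      obtain ⟨a1, a2, a3, a4⟩ := pc_spec H i1 i2 (Nat.pos_of_ne_zero c)
      generalize pc k m R U t.1 = a at *
      have e2 : tp m a * tp m (dv m a t.1) = tp m t.1 := by
        rw [tp_dv a1]
        have := modByMonic_add_div (tp m t.1) (tp m a)
        rwa [(modByMonic_eq_zero_iff_dvd a1).2 a2, zero_add] at this
      have m2 := a1.of_mul_monic_left (e2 ▸ i2)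
      have := i5.resolve_left c
      rw [← e2, a1.natDegree_mul m2] at this
      refine ⟨(sm_dv m a t.1).1.trans i1, m2, by rw [i3, ← e2, List.map_cons, List.prod_cons, tp_nf]; ring,
        fun g hg => ?_, Or.inr (by dsimp only; omega)⟩
      rcases List.mem_cons.1 hg with rfl | hg
      · rwa [tp_nf]
      · exact i4 g hg
  obtain ⟨-, k1, k2, k3, k4⟩ := key f.length _ rfl
  have := nd_lt mf.ne_zero
  rw [k1.natDegree_eq_zero.1 (k4.resolve_right (by omega)), one_mul] at k2
  exact ⟨k2, k3⟩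

omit hp in
theorem algk_spec (k : ℕ) : ∃ A J, ∀ (p : ℕ) (f : List ℕ), p.Prime → toPoly p f ≠ 0 →
    ∃ (c : ℕ) (L : List (List ℕ)), algk k A J (p :: f) = [c] :: L ∧
      toPoly p f = C (c : ZMod p) * (L.map (toPoly p)).prod ∧ ∀ g ∈ L, Pk k (toPoly p g) := by
  obtain ⟨A, hA⟩ := exGK
  have : ∀ j, ∃ N, (j + 1).Prime → ∀ p, N < p → NZ j p := fun j => by
    by_cases h : (j + 1).Prime
    · obtain ⟨N, hN⟩ := nzq h
      exact ⟨N, fun _ p hp K _ _ => hN K p hp⟩
    · exact ⟨0, fun q => absurd q h⟩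
  choose N hN using this
  refine ⟨A, k + 4 + (2 * (k + 1) + (Finset.range k).sup N), fun p f hp hf => ?_⟩
  generalize hJ : 2 * (k + 1) + (Finset.range k).sup N = J
  obtain ⟨m, rfl⟩ : ∃ m, p = m + 1 := ⟨p - 1, by have := hp.pos; omega⟩
  have := Fact.mk hp
  obtain ⟨e, mf⟩ := mon_spec (m := m) hf
  have l : (UU A ((m + 1) :: f)).length = ((m + 1).size + 2) ^ A + (f.length + 3) := by
    simp [UU, length_un, Nat.size_eq_bits_len]
  have l4 : (UJ (k + 4 + J) ((m + 1) :: f)).length = (f.length + 3) ^ (k + 4) * (f.length + 3) ^ J + 1 := by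
    simp [UJ, length_un, pow_add]
  have l2 : RJ A (k + 4 + J) ((m + 1) :: f) = List.range
      (2 * (((m + 1).size + 2) ^ A + (f.length + 3) + (UJ (k + 4 + J) ((m + 1) :: f)).length) + 1) := by
    rw [RJ, List.length_cons, List.length_append, List.length_append, l, List.length_map, two_mul]
  have l3 := (sm_mon m f).1
  have l5 : J < (f.length + 3) ^ J := Nat.lt_pow_self (by omega)
  have l6 : ((mon m f).length + 1) ^ (k + 4) ≤ (f.length + 3) ^ (k + 4) := Nat.pow_le_pow_left (by omega) _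
  have l7 : 0 < ((mon m f).length + 1) ^ (k + 4) := by positivity
  have l8 := Nat.mul_le_mul l6 l5
  obtain ⟨k1, k2⟩ := pcs_spec (k := k) (R := RJ A (k + 4 + J) ((m + 1) :: f)) (U := UJ (k + 4 + J) ((m + 1) :: f)) (by
      rw [l2]
      by_cases c : 3 < m ∧ (UJ (k + 4 + J) ((m + 1) :: f)).length ≤ m + 1
      · have c2 : J < m := by have := c.2; nlinarith
        refine Or.inr ⟨c.1, by omega, c.2, by rw [l4]; nlinarith, fun j hj h => hN j h _ ?_, hA m _ c.1 (by omega)⟩
        have := Finset.le_sup (f := N) (Finset.mem_range.2 hj)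
        omega
      · refine Or.inl fun x => ⟨x.val, List.mem_range.2 ?_, ZMod.natCast_zmod_val x⟩
        have := x.val_lt
        omega) mf
  refine ⟨f.getD (dg m f) 0, _, rfl, ?_, k2⟩
  have e2 : (f.getD (dg m f) 0 : ZMod (m + 1)) = (tp m f).leadingCoeff := by
    rw [leadingCoeff, coeff_toPoly, dg_eq]
  rw [e2]
  refine Eq.trans ?_ (congrArg _ k1)
  rw [e, ← mul_assoc, ← C_mul, mul_inv_cancel₀ (leadingCoeff_ne_zero.2 hf), C_1, one_mul]

omit hp in
theorem Pk.irr {p : ℕ} [Fact p.Prime] {g : (ZMod p)[X]} (h : Pk k g)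
    (hq : ∀ r : ℕ, r.Prime → 5 ≤ r → r ≤ k → ¬ r ^ 2 ∣ p ^ (r - 1) - 1)
    (h4 : ∀ (d : ℕ) (s : Finset (ZMod p)[X]),
      (∀ h ∈ s, h.Monic ∧ Irreducible h ∧ h ∣ g ∧ h.natDegree = d) → s.card ≤ k) : g.Monic ∧ Irreducible g := by
  obtain ⟨d, s, h1, rfl, h2⟩ := h
  have := h4 d s fun h hh => ⟨(h1 h hh).1, (h1 h hh).2.1, Finset.dvd_prod_of_mem (fun b => b) hh, (h1 h hh).2.2⟩
  obtain ⟨q, rfl⟩ := Finset.card_eq_one.1 (show s.card = 1 from by_contra fun c => by
    obtain ⟨r, r1, r2⟩ := Nat.exists_prime_and_dvd c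
    obtain ⟨a, b⟩ := h2 r r1 r2
    have := Nat.le_of_dvd (Nat.pos_of_ne_zero fun z => by
      have := (h2 2 Nat.prime_two (z ▸ dvd_zero 2)).1
      omega) r2
    exact hq r r1 a (by omega) (b.resolve_left (by omega)))
  simpa using ⟨(h1 q (by simp)).1, (h1 q (by simp)).2.1⟩

end Vale.Agent.P319.Q.M
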