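import Vale.Agent.P319.QA

/-! P319: cube roots, cubics and quartics. -/

namespace Vale.Agent.P319.Q

open Vale.Agent.Lib.H24.T Vale.Agent.P338.PTX Polynomial

variable {α : Type} [Enc α]

def sqs (m : ℕ) (ns : List ℕ) (a : ℕ) : List ℕ := 0 :: ns.flatMap fun g => [sqr m a g, m * sqr m a g]
def one (m : ℕ) (μ a : List ℕ) : Bool := (md m μ (ps [a, [m]])).isEmpty
def pp (m : ℕ) (μ z g : List ℕ) (k j : ℕ) : List ℕ := mu (pw m μ z k) (pw m μ g j)
def cstep (m : ℕ) (μ : List ℕ) (Q : ℕ) (z g : List ℕ) (s : ℕ × ℕ) : ℕ × ℕ :=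
  if s.1 % 3 = 0 then (s.1 / 3, if one m μ (pp m μ z g (s.1 / 3) (s.2 / 3)) then s.2 / 3
    else if one m μ (pp m μ z g (s.1 / 3) (s.2 / 3 + Q)) then s.2 / 3 + Q else s.2 / 3 + 2 * Q) else s
def cit (m : ℕ) (μ : List ℕ) (Q : ℕ) (z g : List ℕ) : ℕ × ℕ := (cstep m μ Q z g)^[Q.bits.length] (Q, 0)
def cfin (m : ℕ) (μ z g : List ℕ) (s : ℕ × ℕ) : List (List ℕ) :=
  [pp m μ z g ((s.1 + 1) / 3) (s.2 / 3), pp m μ z g ((2 * s.1 + 1) / 3) (2 * (s.2 / 3))]
def crs (m : ℕ) (μ : List ℕ) (Q : ℕ) (gs : List (List ℕ)) (z : List ℕ) : List (List ℕ) :=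
  [] :: gs.flatMap fun g => (cfin m μ z g (cit m μ Q z g)).flatMap fun u => [u, 0 :: u, 0 :: 0 :: u]
def cU (m : ℕ) (μ : List ℕ) (Q : ℕ) (gs : List (List ℕ)) (ns : List ℕ) (A D : ℕ) : List (List ℕ) :=
  (sqs m ns D).flatMap fun δ => crs m μ Q gs (sm (minv m 2) [A + 3 * δ, 6 * δ])
def cV (m : ℕ) (μ : List ℕ) (s1 : ℕ) (U : List (List ℕ)) : List ℕ :=
  U.flatMap fun u => U.map fun v => (md m μ (sm (minv m 3) (ps [[s1], u, v]))).getD 0 0
def cub3 (m : ℕ) (μ : List ℕ) (Q : ℕ) (gs : List (List ℕ)) (ns : List ℕ) (a b c : ℕ) : List ℕ :=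
  cV m μ a (cU m μ Q gs ns (2 * (a * a * a) + m * (9 * a * b) + 27 * c)
    (a * a * b * b + m * (4 * b * b * b) + m * (4 * a * a * a * c) + 18 * a * b * c + m * (27 * c * c)))
def tri (m e : ℕ) (S : List ℕ) : List ℕ :=
  S.flatMap fun a => S.flatMap fun b => S.map fun c => (e + a + b + c) * minv m 4
def qrt (m : ℕ) (μ : List ℕ) (Q : ℕ) (gs : List (List ℕ)) (ns : List ℕ) (a b c d : ℕ) : List ℕ :=
  tri m a ((cub3 m μ Q gs ns (3 * a * a + m * (8 * b))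
    (3 * a * a * a * a + m * (16 * a * a * b) + 16 * b * b + 16 * a * c + m * (64 * d))
    ((a * a * a + m * (4 * a * b) + 8 * c) * (a * a * a + m * (4 * a * b) + 8 * c))).flatMap (sqs m ns))

section
variable {m Q k j a b c d : α → ℕ} {μ z g ns : α → List ℕ} {gs : α → List (List ℕ)} {s : α → ℕ × ℕ}

@[fun_prop] theorem pt_sqs (hm : PT m) (hn : PT ns) (ha : PT a) : PT fun x => sqs (m x) (ns x) (a x) := by
  unfold sqs; fun_prop
@[fun_prop] theorem pt_one (hm : PT m) (hμ : PT μ) (hz : PT z) : PT fun x => one (m x) (μ x) (z x) := by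
  unfold one; fun_prop
@[fun_prop] theorem pt_pp (hm : PT m) (hμ : PT μ) (hz : PT z) (hg : PT g) (hk : PT k) (hj : PT j) :
    PT fun x => pp (m x) (μ x) (z x) (g x) (k x) (j x) := by unfold pp; fun_prop
@[fun_prop] theorem pt_cstep (hm : PT m) (hμ : PT μ) (hQ : PT Q) (hz : PT z) (hg : PT g) (hs : PT s) :
    PT fun x => cstep (m x) (μ x) (Q x) (z x) (g x) (s x) := by unfold cstep; fun_prop

theorem cstep_le (m : ℕ) (μ : List ℕ) (Q : ℕ) (z g : List ℕ) (i : ℕ) :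
    ((cstep m μ Q z g)^[i] (Q, 0)).1 ≤ 3 * Q ∧ ((cstep m μ Q z g)^[i] (Q, 0)).2 ≤ 3 * Q := by
  induction i with
  | zero => simp; omega
  | succ i ih =>
    rw [Function.iterate_succ_apply']
    generalize (cstep m μ Q z g)^[i] (Q, 0) = s at *
    unfold cstep
    split_ifs <;> omega

@[fun_prop] theorem pt_cit (hm : PT m) (hμ : PT μ) (hQ : PT Q) (hz : PT z) (hg : PT g) :
    PT fun x => cit (m x) (μ x) (Q x) (z x) (g x) :=
  PT.iterate (h := fun x => cstep (m x) (μ x) (Q x) (z x) (g x)) (by fun_prop) hQ.bits (hQ.pair (PT.const 0))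
    (fun x => 8 * sz (3 * Q x) + 3) (by fun_prop) fun x i _ => by
      have := sz_nat_mono (cstep_le (m x) (μ x) (Q x) (z x) (g x) i).1
      have := sz_nat_mono (cstep_le (m x) (μ x) (Q x) (z x) (g x) i).2
      rw [sz_pair']; omega
@[fun_prop] theorem pt_cfin (hm : PT m) (hμ : PT μ) (hz : PT z) (hg : PT g) (hs : PT s) :
    PT fun x => cfin (m x) (μ x) (z x) (g x) (s x) := by unfold cfin; fun_prop
@[fun_prop] theorem pt_crs (hm : PT m) (hμ : PT μ) (hQ : PT Q) (hg : PT gs) (hz : PT z) :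
    PT fun x => crs (m x) (μ x) (Q x) (gs x) (z x) := by unfold crs; fun_prop
@[fun_prop] theorem pt_cU (hm : PT m) (hμ : PT μ) (hQ : PT Q) (hg : PT gs) (hn : PT ns) (ha : PT a) (hb : PT b) :
    PT fun x => cU (m x) (μ x) (Q x) (gs x) (ns x) (a x) (b x) := by unfold cU; fun_prop
@[fun_prop] theorem pt_cV (hm : PT m) (hμ : PT μ) (ha : PT a) (hg : PT gs) :
    PT fun x => cV (m x) (μ x) (a x) (gs x) := by unfold cV; fun_prop
@[fun_prop] theorem pt_cub3 (hm : PT m) (hμ : PT μ) (hQ : PT Q) (hg : PT gs) (hn : PT ns) (ha : PT a) (hb : PT b)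
    (hc : PT c) : PT fun x => cub3 (m x) (μ x) (Q x) (gs x) (ns x) (a x) (b x) (c x) := by unfold cub3; fun_prop
@[fun_prop] theorem pt_tri (hm : PT m) (ha : PT a) (hn : PT ns) : PT fun x => tri (m x) (a x) (ns x) := by
  unfold tri; fun_prop
@[fun_prop] theorem pt_qrt (hm : PT m) (hμ : PT μ) (hQ : PT Q) (hg : PT gs) (hn : PT ns) (ha : PT a) (hb : PT b)
    (hc : PT c) (hd : PT d) : PT fun x => qrt (m x) (μ x) (Q x) (gs x) (ns x) (a x) (b x) (c x) (d x) := by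
  unfold qrt; fun_prop
end

variable {m : ℕ} [hp : Fact (m + 1).Prime]

theorem sqs_spec {ns : List ℕ} (h2 : m + 1 ≠ 2)
    (hn : ∃ g ∈ ns, (m + 1) % 4 = 1 → ¬ IsSquare (g : ZMod (m + 1))) {a : ℕ} {x : ZMod (m + 1)} (h : x ^ 2 = a) :
    ∃ s ∈ sqs m ns a, (s : ZMod (m + 1)) = x := by
  by_cases x0 : x = 0
  · exact ⟨0, by simp [sqs], by simp [x0]⟩
  obtain ⟨g, g1, g2⟩ := hn
  have := sqr_spec m a g h2 (h ▸ pow_ne_zero 2 x0) ⟨x, by rw [← h, sq]⟩ g2
  rw [← h, sq_eq_sq_iff_eq_or_eq_neg] at this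
  rcases this with e | e
  · exact ⟨_, List.mem_cons_of_mem _ (List.mem_flatMap.2 ⟨g, g1, by simp⟩), e⟩
  · exact ⟨m * sqr m a g, List.mem_cons_of_mem _ (List.mem_flatMap.2 ⟨g, g1, by simp⟩), by
      push_cast; rw [cm, e]; ring⟩

structure Gd (m : ℕ) (μ : List ℕ) (Q : ℕ) (gs : List (List ℕ)) (ns : List ℕ) (K : Type) [Field K]
    (π : (ZMod (m + 1))[X] →+* K) : Prop where
  mo : (tp m μ).Monic
  de : 0 < (tp m μ).degree
  ke : ∀ a, π a = 0 ↔ tp m μ ∣ a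
  q0 : 0 < Q
  fe : ∀ x : K, x ≠ 0 → x ^ (3 * Q) = 1
  om : π X ^ 2 + π X + 1 = 0
  nc : ∃ g ∈ gs, π (tp m g) ≠ 0 ∧ π (tp m g) ^ Q ≠ 1
  sq : ∀ (a : ℕ) (x : ZMod (m + 1)), x ^ 2 = a → ∃ s ∈ sqs m ns a, (s : ZMod (m + 1)) = x
  big : 3 < m

variable {μ ns : List ℕ} {Q : ℕ} {gs : List (List ℕ)} {K : Type} [Field K] {π : (ZMod (m + 1))[X] →+* K}

theorem Gd.z (G : Gd m μ Q gs ns K π) : π (tp m μ) = 0 := (G.ke _).2 dvd_rfl

theorem Gd.one (G : Gd m μ Q gs ns K π) (a : List ℕ) : one m μ a = true ↔ π (tp m a) = 1 := by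
  rw [Q.one, md_nil G.mo, ← G.ke, tp_ps]
  simp [tp_one, cm, add_neg_eq_zero, -map_natCast]

theorem Gd.pp (G : Gd m μ Q gs ns K π) (z g : List ℕ) (k j : ℕ) :
    π (tp m (pp m μ z g k j)) = π (tp m z) ^ k * π (tp m g) ^ j := by
  rw [Q.pp, tp_mu, map_mul, hom_pw π G.mo G.z, hom_pw π G.mo G.z]

theorem Gd.cbr (G : Gd m μ Q gs ns K π) {z g : List ℕ} (hz : π (tp m z) ^ Q = 1) (g0 : π (tp m g) ≠ 0)
    (hg : π (tp m g) ^ Q ≠ 1) : ∃ u ∈ cfin m μ z g (cit m μ Q z g), π (tp m u) ^ 3 = π (tp m z) := by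
  have z3 : (π (tp m g) ^ Q) ^ 3 = 1 := by rw [← pow_mul', G.fe _ g0]
  have key : ∀ i, ∀ s, s = (cstep m μ Q z g)^[i] (Q, 0) → π (tp m z) ^ s.1 * π (tp m g) ^ s.2 = 1 ∧ s.1 ∣ Q ∧
      (∀ t, 3 ^ t ∣ s.1 → 3 ^ (t + 1) ∣ s.2) ∧ (s.1 % 3 ≠ 0 ∨ 2 ^ i * s.1 ≤ Q) := by
    intro i
    induction i with
    | zero => rintro s rfl; simp [hz]
    | succ i ih =>
      rintro s' rfl
      rw [Function.iterate_succ_apply']
      obtain ⟨i1, i2, i3, i4⟩ := ih _ rfl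
      generalize (cstep m μ Q z g)^[i] (Q, 0) = s at *
      obtain ⟨k, j⟩ := s
      simp only at i1 i2 i3 i4
      unfold cstep
      by_cases c : k % 3 = 0
      swap
      · rw [if_neg c]
        exact ⟨i1, i2, i3, Or.inl c⟩
      obtain ⟨k, rfl⟩ : 3 ∣ k := by omega
      obtain ⟨j, rfl⟩ : 3 ∣ j := by simpa using i3 0 (by simp)
      rw [if_pos c]
      simp only [Nat.mul_div_cancel_left _ three_pos]
      have o1 := G.one (P319.Q.pp m μ z g k j)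
      have o2 := G.one (P319.Q.pp m μ z g k (j + Q))
      rw [G.pp] at o1 o2
      generalize P319.Q.one m μ (P319.Q.pp m μ z g k j) = b1 at o1 ⊢
      generalize P319.Q.one m μ (P319.Q.pp m μ z g k (j + Q)) = b2 at o2 ⊢
      have d1 : ∀ t, 3 ^ t ∣ k → 3 ^ (t + 1) ∣ j ∧ 3 ^ (t + 1) ∣ Q := fun t ht => by
        have : 3 ^ (t + 1) ∣ 3 * k := by rw [pow_succ']; exact Nat.mul_dvd_mul_left 3 ht
        refine ⟨?_, this.trans i2⟩
        have := i3 _ this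
        rw [pow_succ' 3 (t + 1)] at this
        exact Nat.dvd_of_mul_dvd_mul_left three_pos this
      refine ⟨?_, (Dvd.intro_left 3 rfl).trans i2, fun t ht => ?_, Or.inr ?_⟩
      · split_ifs with c1 c2
        · exact o1.1 c1
        · exact o2.1 c2
        · replace c1 := mt o1.2 c1
          replace c2 := mt o2.2 c2
          rw [pow_mul', pow_mul', ← mul_pow] at i1
          rw [pow_add, ← mul_assoc] at c2 ⊢
          rw [pow_mul']
          generalize π (tp m z) ^ k * π (tp m g) ^ j = y at *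
          generalize π (tp m g) ^ Q = ζ at *
          have a : ζ ^ 2 + ζ + 1 = 0 := mul_left_cancel₀ (sub_ne_zero.2 hg) (by linear_combination z3)
          have b : (y - 1) * ((y * ζ - 1) * (y * ζ ^ 2 - 1)) = 0 := by
            linear_combination i1 + (y ^ 3 - y ^ 2) * z3 + (y - y ^ 2) * a
          exact sub_eq_zero.1 (((mul_eq_zero.1 ((mul_eq_zero.1 b).resolve_left (sub_ne_zero.2 c1))).resolve_left
            (sub_ne_zero.2 c2)))
      · split_ifs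
        · exact (d1 t ht).1
        · exact dvd_add (d1 t ht).1 (d1 t ht).2
        · exact dvd_add (d1 t ht).1 ((d1 t ht).2.mul_left 2)
      · have := i4.resolve_left (by omega)
        rw [pow_succ]; nlinarith [Nat.zero_le (2 ^ i * k)]
  obtain ⟨i1, i2, i3, i4⟩ := key Q.bits.length _ rfl
  rw [cit]
  generalize (cstep m μ Q z g)^[Q.bits.length] (Q, 0) = s at *
  obtain ⟨k, j⟩ := s
  simp only at i1 i2 i3 i4
  have k0 : 0 < k := Nat.pos_of_dvd_of_pos i2 G.q0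
  have ko : k % 3 ≠ 0 := i4.resolve_right fun h => by
    have := Nat.lt_size_self Q
    rw [← Nat.size_eq_bits_len] at this
    have := Nat.le_mul_of_pos_right (2 ^ Q.bits.length) k0
    omega
  obtain ⟨j, rfl⟩ : 3 ∣ j := by simpa using i3 0 (by simp)
  simp only [cfin, Nat.mul_div_cancel_left _ three_pos]
  by_cases c : k % 3 = 2
  · refine ⟨_, List.mem_cons_self, ?_⟩
    rw [G.pp, mul_pow, ← pow_mul, ← pow_mul', show (k + 1) / 3 * 3 = k + 1 by omega, pow_succ, mul_right_comm, i1,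
      one_mul]
  · refine ⟨_, List.mem_cons_of_mem _ List.mem_cons_self, ?_⟩
    rw [G.pp, mul_pow, ← pow_mul, ← pow_mul, show (2 * k + 1) / 3 * 3 = k * 2 + 1 by omega, pow_succ, mul_right_comm,
      show 2 * j * 3 = 3 * j * 2 by ring, pow_mul, pow_mul _ (3 * j), ← mul_pow, i1, one_pow, one_mul]

theorem Gd.crs (G : Gd m μ Q gs ns K π) {z : List ℕ} {x : K} (h : x ^ 3 = π (tp m z)) :
    ∃ u ∈ crs m μ Q gs z, π (tp m u) = x := by
  by_cases x0 : x = 0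
  · exact ⟨[], List.mem_cons_self, by simp [x0]⟩
  obtain ⟨g, g1, g2, g3⟩ := G.nc
  obtain ⟨u, u1, u2⟩ := G.cbr (z := z) (by rw [← h, ← pow_mul, G.fe x x0]) g2 g3
  have e : ∀ v, π (tp m (0 :: v)) = π X * π (tp m v) := fun v => by simp [tp_cons]
  have b : (π (tp m u) - x) * ((π X * π (tp m u) - x) * (π X * (π X * π (tp m u)) - x)) = 0 := by
    linear_combination u2 - h + (π (tp m u) ^ 3 * (π X - 1) - π (tp m u) ^ 2 * x * π X + π (tp m u) * x ^ 2) * G.om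
  have mem : ∀ v ∈ [u, 0 :: u, 0 :: 0 :: u], v ∈ P319.Q.crs m μ Q gs z := fun v hv =>
    List.mem_cons_of_mem _ (List.mem_flatMap.2 ⟨g, g1, List.mem_flatMap.2 ⟨u, u1, hv⟩⟩)
  simp only [mul_eq_zero, sub_eq_zero] at b
  rcases b with b | b | b
  · exact ⟨_, mem u (by simp), b⟩
  · exact ⟨_, mem (0 :: u) (by simp), by rw [e, b]⟩
  · exact ⟨_, mem (0 :: 0 :: u) (by simp), by rw [e, e, b]⟩

theorem small_ne {a : ℕ} (h0 : 0 < a) (h : a ≤ m) : (a : ZMod (m + 1)) ≠ 0 := fun e => by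
  have := Nat.le_of_dvd h0 ((ZMod.natCast_eq_zero_iff _ _).1 e)
  omega

theorem minv_mul {a : ℕ} (h0 : 0 < a) (h : a ≤ m) : (minv m a : ZMod (m + 1)) * a = 1 := by
  rw [minv_eq, if_neg (small_ne h0 h)]

theorem Gd.cU (G : Gd m μ Q gs ns K π) {A D : ℕ} (a b : ZMod (m + 1))
    (hA : (A : ZMod (m + 1)) = 2 * a ^ 3 - 3 * a ^ 2 * b - 3 * a * b ^ 2 + 2 * b ^ 3)
    (hD : (a * b * (a - b)) ^ 2 = D) : ∃ u ∈ cU m μ Q gs ns A D, π (tp m u) = π (C a) + π X * π (C b) := by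
  obtain ⟨s, s1, s2⟩ := G.sq D _ hD
  have i2 := congrArg (fun t => π (C t)) (minv_mul (m := m) two_pos (by linarith [G.big]))
  obtain ⟨u, u1, u2⟩ := G.crs (z := sm (minv m 2) [A + 3 * s, 6 * s]) (x := π (C a) + π X * π (C b)) (by
    rw [tp_sm, tp_cons, tp_one]
    push_cast
    rw [hA, s2]
    simp only [map_add, map_mul, map_sub, map_pow, map_ofNat, map_one, Nat.cast_ofNat] at i2 ⊢
    linear_combination (3 * π (C a) * π (C b) ^ 2 + π (C b) ^ 3 * (π X - 1)) * G.om -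
      (π (C a) ^ 3 - 3 * π (C a) * π (C b) ^ 2 + π (C b) ^ 3 +
        π X * (3 * π (C a) ^ 2 * π (C b) - 3 * π (C a) * π (C b) ^ 2)) * i2)
  exact ⟨u, List.mem_flatMap.2 ⟨s, s1, u1⟩, u2⟩

theorem Gd.cub3 (G : Gd m μ Q gs ns K π) {a b c : ℕ} (x y z : ZMod (m + 1)) (ha : (a : ZMod (m + 1)) = x + y + z)
    (hb : (b : ZMod (m + 1)) = x * y + x * z + y * z) (hc : (c : ZMod (m + 1)) = x * y * z) :
    ∃ r ∈ cub3 m μ Q gs ns a b c, (r : ZMod (m + 1)) = x := by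
  obtain ⟨u, u1, u2⟩ := G.cU (A := 2 * (a * a * a) + m * (9 * a * b) + 27 * c) (D := a * a * b * b +
    m * (4 * b * b * b) + m * (4 * a * a * a * c) + 18 * a * b * c + m * (27 * c * c)) (x - z) (y - z)
    (by push_cast; rw [cm, ha, hb, hc]; ring) (by push_cast; rw [cm, ha, hb, hc]; ring)
  obtain ⟨v, v1, v2⟩ := G.cU (A := 2 * (a * a * a) + m * (9 * a * b) + 27 * c) (D := a * a * b * b +
    m * (4 * b * b * b) + m * (4 * a * a * a * c) + 18 * a * b * c + m * (27 * c * c)) (x - y) (z - y)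
    (by push_cast; rw [cm, ha, hb, hc]; ring) (by push_cast; rw [cm, ha, hb, hc]; ring)
  refine ⟨_, List.mem_flatMap.2 ⟨u, u1, List.mem_map_of_mem v1⟩, ?_⟩
  have i3 := congrArg (fun t => π (C t)) (minv_mul (m := m) three_pos G.big.le)
  have e : tp m μ ∣ tp m (sm (minv m 3) (ps [[a], u, v])) - C x := by
    rw [← G.ke, tp_sm, tp_ps]
    simp only [List.map_cons, List.map_nil, List.sum_cons, List.sum_nil, tp_one, ha, map_add, map_mul, map_sub,
      map_ofNat, map_one, map_zero, Nat.cast_ofNat, u2, v2] at i3 ⊢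
    linear_combination π (C x) * i3
  rw [← coeff_toPoly, ← tp, tp_md G.mo, modByMonic_eq_of_dvd_sub G.mo e,
    (modByMonic_eq_self_iff G.mo).2 (degree_C_le.trans_lt G.de), coeff_C_zero]

theorem Gd.qrt (G : Gd m μ Q gs ns K π) {a b c d : ℕ} (x y z t : ZMod (m + 1))
    (ha : (a : ZMod (m + 1)) = x + y + z + t)
    (hb : (b : ZMod (m + 1)) = x * y + x * z + x * t + y * z + y * t + z * t)
    (hc : (c : ZMod (m + 1)) = x * y * z + x * y * t + x * z * t + y * z * t) (hd : (d : ZMod (m + 1)) = x * y * z * t) :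
    ∃ r ∈ qrt m μ Q gs ns a b c d, (r : ZMod (m + 1)) = x := by
  have key : ∀ {L : List ℕ} {u : ZMod (m + 1)}, (∃ r ∈ L, (r : ZMod (m + 1)) = u ^ 2) →
      ∃ s ∈ L.flatMap (sqs m ns), (s : ZMod (m + 1)) = u := fun ⟨r, r1, r2⟩ => by
    obtain ⟨s, s1, s2⟩ := G.sq r _ r2.symm
    exact ⟨s, List.mem_flatMap.2 ⟨r, r1, s1⟩, s2⟩
  have k := fun u v w => G.cub3 (a := 3 * a * a + m * (8 * b))
    (b := 3 * a * a * a * a + m * (16 * a * a * b) + 16 * b * b + 16 * a * c + m * (64 * d))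
    (c := (a * a * a + m * (4 * a * b) + 8 * c) * (a * a * a + m * (4 * a * b) + 8 * c)) (u ^ 2) (v ^ 2) (w ^ 2)
  push_cast at k
  rw [cm, ha, hb, hc, hd] at k
  obtain ⟨s1, a1, b1⟩ := key (k (x + y - z - t) (x - y + z - t) (x - y - z + t) (by ring) (by ring) (by ring))
  obtain ⟨s2, a2, b2⟩ := key (k (x - y + z - t) (x + y - z - t) (x - y - z + t) (by ring) (by ring) (by ring))
  obtain ⟨s3, a3, b3⟩ := key (k (x - y - z + t) (x - y + z - t) (x + y - z - t) (by ring) (by ring) (by ring))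
  refine ⟨_, List.mem_flatMap.2 ⟨s1, a1, List.mem_flatMap.2 ⟨s2, a2, List.mem_map_of_mem a3⟩⟩, ?_⟩
  have i4 := minv_mul (m := m) four_pos G.big
  push_cast at i4 ⊢
  rw [ha, b1, b2, b3]
  linear_combination x * i4

end Vale.Agent.P319.Q
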