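import Vale.Agent.P319.QI

/-! P319: splitting a product of equal degree factors whose number is divisible by two or three. -/

namespace Vale.Agent.P319.Q

open Vale.Agent.Lib.H24.T Vale.Agent.P338.PTX Polynomial
open scoped Classical

variable {α : Type} [Enc α]

def Tl (m : ℕ) (g D : List ℕ) (lam : ℕ) : List ℕ :=
  ps ((List.range g.length).map fun e => sm (lam ^ (g.take e).length) (TT m g D e))
def Pl (m : ℕ) (U g D T : List ℕ) : List ℕ := (List.range U.length).map fun c => psum m g D T c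
def cmp (m : ℕ) (g T ψ : List ℕ) : List ℕ := ps ((List.range ψ.length).map fun e => sm (ψ.getD e 0) (pw m g T e))
def ets (m : ℕ) (R : List ℕ) : List (List ℕ × List ℕ) :=
  ((gss m R).map fun l => ([l.getD 0 0], [l.getD 1 0])) ++ (m :: R).map fun g => ([g], [])
def sc2 (m : ℕ) (U P : List ℕ) (w : ℕ) (η : List ℕ × List ℕ) : List (List ℕ) :=
  [sco 2 m U P (ng m U P) η (m / 2) w, sco 3 m U P (cvp m U (tw m 1 U P) (tw m 2 U P)) η (QQ m) w]
def scs (m : ℕ) (R U P : List ℕ) : List (List ℕ) :=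
  (mus m R).flatMap fun μ => (ets m R).flatMap fun η => sc2 m U P (m * μ.getD 0 0) η
def SPl (m : ℕ) (R U g D T : List ℕ) : List (List ℕ) :=
  (scs m R U (Pl m U g D T)).flatMap fun ψ => (List.range U.length).map fun c => ps [cmp m g T ψ, [m * c]]
def SP (m : ℕ) (R U g D : List ℕ) : List (List ℕ) :=
  (List.range U.length).flatMap fun lam => SPl m R U g D (Tl m g D lam)

section
variable {m e : α → ℕ} {R U P g D T : α → List ℕ} {a : α → List ℕ × List ℕ}
@[fun_prop] theorem pt_Tl (hm : PT m) (hg : PT g) (hD : PT D) (he : PT e) : PT fun x => Tl (m x) (g x) (D x) (e x) := by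
  unfold Tl; fun_prop
@[fun_prop] theorem pt_Pl (hm : PT m) (hU : PT U) (hg : PT g) (hD : PT D) (hT : PT T) :
    PT fun x => Pl (m x) (U x) (g x) (D x) (T x) := by unfold Pl; fun_prop
@[fun_prop] theorem pt_cmp (hm : PT m) (hg : PT g) (hT : PT T) (hP : PT P) :
    PT fun x => cmp (m x) (g x) (T x) (P x) := by unfold cmp; fun_prop
@[fun_prop] theorem pt_ets (hm : PT m) (hR : PT R) : PT fun x => ets (m x) (R x) := by unfold ets; fun_prop
@[fun_prop] theorem pt_sc2 (hm : PT m) (hU : PT U) (hP : PT P) (he : PT e) (ha : PT a) :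
    PT fun x => sc2 (m x) (U x) (P x) (e x) (a x) :=
  pt_l2 (pt_sco 2 hm hU hP (pt_ng hm hU hP) ha (div hm (PT.const 2)) he)
    (pt_sco 3 hm hU hP (pt_cvp hm hU (pt_tw 1 hm hU hP) (pt_tw 2 hm hU hP)) ha (pt_QQ hm) he)
@[fun_prop] theorem pt_scs (hm : PT m) (hR : PT R) (hU : PT U) (hP : PT P) :
    PT fun x => scs (m x) (R x) (U x) (P x) := by unfold scs; fun_prop
@[fun_prop] theorem pt_SPl (hm : PT m) (hR : PT R) (hU : PT U) (hg : PT g) (hD : PT D) (hT : PT T) :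
    PT fun x => SPl (m x) (R x) (U x) (g x) (D x) (T x) := by unfold SPl; fun_prop
@[fun_prop] theorem pt_SP (hm : PT m) (hR : PT R) (hU : PT U) (hg : PT g) (hD : PT D) :
    PT fun x => SP (m x) (R x) (U x) (g x) (D x) := by unfold SP; fun_prop
end

theorem len_pchi (r m : ℕ) (G : List ℕ) (η : List ℕ × List ℕ) (e : ℕ) :
    (pchi r m G η e).1.length ≤ G.length ∧ (pchi r m G η e).2.length ≤ G.length := by
  have : ∀ a b, (pmu m G a b).1.length ≤ G.length ∧ (pmu m G a b).2.length ≤ G.length := fun a b =>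
    ⟨(sm_md _ _ _).1, (sm_md _ _ _).1⟩
  rw [pchi, pind]
  exact this _ _

/-- the data needed in the residue field -/
def GK (m : ℕ) (R : List ℕ) (K : Type) [Field K] [Algebra (ZMod (m + 1)) K] (ρ : K) : Prop :=
  ρ ^ 2 + ρ + 1 = 0 ∧ (∃ μ ∈ mus m R, ∀ x y z : ZMod (m + 1),
    algebraMap _ K x + algebraMap _ K y * ρ = algebraMap _ K z → x + (m * μ.getD 0 0 : ℕ) * y = z) ∧
  (∀ x : K, x ≠ 0 → x ^ (QQ m * 3) = 1) ∧ QQ m ≠ 0 ∧
  (∃ a b : ℕ, ([a], [b]) ∈ ets m R ∧ IsPrimitiveRoot (((a : K) + b * ρ) ^ QQ m) 3) ∧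
  ∃ a : ℕ, ([a], []) ∈ ets m R ∧ IsPrimitiveRoot ((a : K) ^ (m / 2)) 2

variable {m : ℕ} [hp : Fact (m + 1).Prime] {K : Type} [Field K] [Algebra (ZMod (m + 1)) K] {ρ : K}

theorem injK {a b : ℕ} (ha : a ≤ m) (hb : b ≤ m) (h : (a : K) = b) : a = b := by
  have := charP_of_injective_algebraMap (algebraMap (ZMod (m + 1)) K).injective (m + 1)
  exact ((CharP.natCast_eq_natCast K (m + 1)).1 h).eq_of_lt_of_lt (by omega) (by omega)

theorem gen {r : ℕ} (hr : r.Prime) (hρ : ρ ^ 2 + ρ + 1 = 0) {e : ℕ} (e0 : e ≠ 0) {η : List ℕ × List ℕ}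
    {η0 : K} (hη : IsPrimitiveRoot (η0 ^ e) r) (hη' : ∀ π : (ZMod (m + 1))[X] →+* K, ev2 π ρ η = η0)
    {U P : List ℕ} {Q : List ℕ × List ℕ} {ι κ : Type} {S : Finset ι} {T : Finset κ} {t : ι → ZMod (m + 1)}
    {b b' : κ → K} (hP : ∀ ρ, Rep U.length ρ (P, []) S fun x => algebraMap _ K (t x)) (h1 : Rep U.length ρ Q T b)
    (h2 : Rep U.length (ρ ^ 2) Q T b') (hU : U.length ≤ m + 1) (hc : 2 * (S.card * T.card) < U.length) {w : ℕ}
    (hw : ∀ x y z : ZMod (m + 1), algebraMap _ K x + algebraMap _ K y * ρ = algebraMap _ K z → x + w * y = z)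
    {ζ : K} (hζ : IsPrimitiveRoot ζ r) (hσ : ∀ F : K → K, ∑ i ∈ S, ∑ y ∈ T, F (ζ * (algebraMap _ K (t i) + b y)) =
      ∑ i ∈ S, ∑ y ∈ T, F (algebraMap _ K (t i) + b y))
    (hz : ∀ i ∈ S, ∃ z ∈ T, algebraMap _ K (t i) + b z = 0 ∧
      ∀ y ∈ T, y ≠ z → (algebraMap _ K (t i) + b y) ^ (e * r) = 1)
    (S0 : S.Nonempty) (d1 : r ∣ S.card) (d2 : r ∣ T.card) :
    ∃ N : ι → ℕ, (∀ i ∈ S, (tp m (sco r m U P Q η e w)).eval (t i) = N i ∧ N i < U.length) ∧
      ∃ i ∈ S, ∃ j ∈ S, (N i : ZMod (m + 1)) ≠ N j := by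
  obtain ⟨i0, hi0⟩ := S0
  have k0 := Finset.card_pos.2 ⟨i0, hi0⟩
  have k1 := Nat.le_of_dvd k0 d1
  have t0 : 0 < T.card := Finset.card_pos.2 ⟨_, (hz i0 hi0).choose_spec.1⟩
  have k2 := Nat.le_mul_of_pos_right S.card t0
  have k3 := Nat.le_mul_of_pos_left T.card k0
  have nz : ∀ a : ℕ, 0 < a → a ≤ m → (a : K) ≠ 0 := fun a a0 a1 q =>
    a0.ne' (injK (K := K) a1 (Nat.zero_le _) (by rw [q, Nat.cast_zero]))
  have r0 := nz r hr.pos (by omega)
  obtain ⟨φ, f, f1, f2, f3, f4, f5⟩ := pchi_spec (m := m) hr (by omega) r0 hρ e0 hη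
  obtain ⟨g1, g2, g3⟩ := cG_spec hρ hP h1 h2 hU hc
  have A : ∀ i ∈ S, ∑ y ∈ T, ind r (φ (algebraMap _ K (t i) + b y)) =
      ((T.filter fun y => φ (algebraMap _ K (t i) + b y) = 1).card : ℕ) := fun i hi => by
    obtain ⟨z, -, z2, z3⟩ := hz i hi
    rw [Finset.card_filter, Nat.cast_sum]
    refine Finset.sum_congr rfl fun y hy => ?_
    by_cases c : y = z
    · rw [c, z2, f2, ind_zero]; simp
    · rw [ind_eq r0 (f3 _ (z3 y hy c))]; simp
  refine ⟨fun i => (T.filter fun y => φ (algebraMap _ K (t i) + b y) = 1).card, fun i hi => ⟨?_,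
    (Finset.card_filter_le _ _).trans_lt (by omega)⟩, ?_⟩
  · refine psi_spec hρ h1 ((len_pchi _ _ _ _ _).1.trans g1.le) ((len_pchi _ _ _ _ _).2.trans g1.le) hw _ _ ?_
    rw [← A i hi]
    refine Finset.sum_congr rfl fun y hy => ?_
    rw [f5 _ _ _ g2 (g3 i hi y hy) (hη' _)]
    simp
  by_contra! c
  have B : ∑ i ∈ S, ∑ y ∈ T, ind r (φ (algebraMap _ K (t i) + b y)) =
      S.card * ((T.filter fun y => φ (algebraMap _ K (t i0) + b y) = 1).card : ℕ) := by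
    rw [Finset.sum_congr rfl fun i hi => (A i hi).trans (by
      simpa only [map_natCast] using congrArg (algebraMap _ K) (c i hi i0 hi0)), Finset.sum_const, nsmul_eq_mul]
  have C : ∀ a ∈ Finset.range (r - 1), ∑ i ∈ S, ∑ y ∈ T, φ (algebraMap _ K (t i) + b y) ^ (a + 1) = 0 := fun a ha => by
    have := hσ fun u => φ u ^ (a + 1)
    simp only [f4 ζ _ hζ.pow_eq_one, mul_pow, ← Finset.mul_sum, ← pow_mul] at this
    refine (mul_left_eq_self₀.1 this).resolve_left fun q => ?_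
    rcases (Nat.Prime.dvd_mul hr).1 ((hζ.pow_eq_one_iff_dvd _).1 q) with q | q
    · exact f1 q
    · have := Nat.le_of_dvd a.succ_pos q
      have := Finset.mem_range.1 ha
      omega
  have D : ∑ i ∈ S, ∑ y ∈ T, φ (algebraMap _ K (t i) + b y) ^ r = S.card * ((T.card : K) - 1) := by
    rw [Finset.sum_congr rfl (g := fun _ => (T.card : K) - 1) fun i hi => ?_, Finset.sum_const, nsmul_eq_mul]
    obtain ⟨z, z1, z2, z3⟩ := hz i hi
    rw [← Finset.add_sum_erase T _ z1, z2, f2, zero_pow hr.ne_zero, zero_add, Finset.sum_congr rfl fun y hy =>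
      f3 _ (z3 y (Finset.mem_of_mem_erase hy) (Finset.ne_of_mem_erase hy)), Finset.sum_const, nsmul_eq_mul, mul_one,
      Finset.card_erase_of_mem z1, Nat.cast_pred t0]
  simp only [ind, ← Finset.mul_sum] at B
  rw [Finset.sum_congr rfl fun i _ => Finset.sum_comm, Finset.sum_comm, ← Nat.sub_add_cancel hr.pos,
    Finset.sum_range_succ, Finset.sum_eq_zero C, Nat.sub_add_cancel hr.pos, D] at B
  have n := Finset.card_filter_le T fun y => φ (algebraMap _ K (t i0) + b y) = 1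
  generalize (T.filter fun y => φ (algebraMap _ K (t i0) + b y) = 1).card = N at *
  have E := injK (K := K) (m := m) (a := r * N + 1) (b := T.card) (by nlinarith) (by omega) (by
    refine mul_left_cancel₀ (nz _ k0 (by omega)) ?_
    push_cast
    field_simp at B
    linear_combination -B)
  exact hr.not_dvd_one ((Nat.dvd_add_right (Dvd.intro _ rfl)).1 (E ▸ d2))

theorem score {R U P : List ℕ} (G : GK m R K ρ) (h3 : 3 < m) {ι : Type} {S : Finset ι} {t : ι → ZMod (m + 1)}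
    (hP : ∀ c < U.length, (P.getD c 0 : ZMod (m + 1)) = ∑ x ∈ S, t x ^ c) (hU : U.length ≤ m + 1)
    (hc : 2 * S.card ^ 3 < U.length) (S0 : S.Nonempty) (d : 2 ∣ S.card ∨ 3 ∣ S.card)
    (nd : ∀ i ∈ S, ∀ j ∈ S, ∀ l ∈ S, algebraMap _ K (t i) + (ρ ^ 1 * algebraMap _ K (t j) +
      ρ ^ 2 * algebraMap _ K (t l)) = 0 → (j, l) = (i, i)) :
    ∃ ψ ∈ scs m R U P, ∃ N : ι → ℕ, (∀ i ∈ S, (tp m ψ).eval (t i) = N i ∧ N i < U.length) ∧
      ∃ i ∈ S, ∃ j ∈ S, (N i : ZMod (m + 1)) ≠ N j := by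
  obtain ⟨hρ, ⟨μ, m1, m2⟩, q1, q2, ⟨a, b, a1, a2⟩, g, g1, g2⟩ := G
  have hP' : ∀ ρ, Rep U.length ρ (P, []) S fun x => algebraMap _ K (t x) := fun ρ c hc => by
    simpa [sv] using congrArg (algebraMap _ K) (hP c hc)
  have k0 := Finset.card_pos.2 S0
  have od := hp.out.eq_two_or_odd.resolve_left (by omega)
  have n3 : (3 : K) ≠ 0 := fun q => by
    have := injK (K := K) (a := 3) (b := 0) h3.le (Nat.zero_le _) (by simpa using q)
    omega
  have := charP_of_injective_algebraMap (algebraMap (ZMod (m + 1)) K).injective (m + 1)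
  rcases d with d | d
  · obtain ⟨N, h⟩ := gen (Q := ng m U P) (η := ([g], [])) Nat.prime_two hρ (by omega) g2 (fun π => by simp [ev2, tp_one]) hP'
      (rep_ng cmK (hP' _)) (rep_ng cmK (hP' _)) hU (by nlinarith [Nat.mul_pos k0 k0]) m2 (ζ := -1)
      (IsPrimitiveRoot.neg_one (m + 1) (by omega))
      (fun F => by rw [Finset.sum_comm]; simp [add_comm]) (fun i hi => ⟨i, hi, by simp, fun y hy ne => by
        have : t i - t y ≠ 0 := fun q => ne (Prod.ext_iff.1 (nd i hi y hy y hy (by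
          rw [sub_eq_zero.1 q]; linear_combination algebraMap _ K (t y) * hρ))).1
        rw [← sub_eq_add_neg, ← map_sub, ← map_pow, show m / 2 * 2 = m + 1 - 1 by omega,
          ZMod.pow_card_sub_one_eq_one this, map_one]⟩) S0 d d
    exact ⟨_, List.mem_flatMap.2 ⟨μ, m1, List.mem_flatMap.2 ⟨_, g1, List.mem_cons_self⟩⟩, N, h⟩
  · have h2 : (ρ ^ 2) ^ 2 + ρ ^ 2 + 1 = 0 := by linear_combination (ρ ^ 2 - ρ + 1) * hρ
    have r3 : ρ ^ 3 = 1 := by linear_combination (ρ - 1) * hρ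
    haveI : Fact (Nat.Prime 3) := ⟨Nat.prime_three⟩
    obtain ⟨N, h⟩ := gen (Q := cvp m U (tw m 1 U P) (tw m 2 U P)) (η := ([a], [b])) Nat.prime_three hρ q2 a2 (fun π => by simp [ev2, tp_one]) hP'
      (rep_cvp cmK hρ (rep_tw cmK hρ (hP' _) 1) (rep_tw cmK hρ (hP' _) 2))
      (rep_cvp cmK h2 (rep_tw cmK h2 (hP' _) 1) (rep_tw cmK h2 (hP' _) 2)) hU
      (by rw [Finset.card_product]; nlinarith) m2 (ζ := ρ)
      (IsPrimitiveRoot.iff_orderOf.2 (orderOf_eq_prime r3 fun q => n3 (by rw [q] at hρ; linear_combination hρ)))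
      (fun F => by
        simp only [Finset.sum_product]
        rw [Finset.sum_congr rfl fun i _ => Finset.sum_comm, Finset.sum_comm]
        refine Finset.sum_congr rfl fun i _ => Finset.sum_congr rfl fun j _ => Finset.sum_congr rfl fun l _ => ?_
        congr 1
        linear_combination algebraMap _ K (t i) * r3)
      (fun i hi => ⟨(i, i), by simp [hi], by linear_combination algebraMap _ K (t i) * hρ, fun y hy ne =>
        q1 _ fun q => ne (nd i hi _ (Finset.mem_product.1 hy).1 _ (Finset.mem_product.1 hy).2 q)⟩) S0 d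
      (by rw [Finset.card_product]; exact d.mul_right _)
    exact ⟨_, List.mem_flatMap.2 ⟨μ, m1, List.mem_flatMap.2 ⟨_, a1, by simp [sc2]⟩⟩, N, h⟩

theorem psum_spec {g D T : List ℕ} {s : Finset (ZMod (m + 1))[X]} (d0 : 0 < D.length) (dm : D.length ≤ m)
    (hs : ∀ h ∈ s, h.Monic ∧ Irreducible h ∧ h.natDegree = D.length) (hg : tp m g = ∏ h ∈ s, h)
    {t : (ZMod (m + 1))[X] → ZMod (m + 1)} (hT : ∀ h ∈ s, h ∣ tp m T - C (t h)) (r : ℕ) :
    (psum m g D T r : ZMod (m + 1)) = ∑ h ∈ s, t h ^ r := by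
  have mg : (tp m g).Monic := hg ▸ monic_prod_of_monic _ _ fun h hh => (hs h hh).1
  have dv : ∀ h ∈ s, h ∣ tp m g := fun h hh => hg ▸ Finset.dvd_prod_of_mem (fun b => b) hh
  have := euler d0 (fun h hh => ⟨(hs h hh).1, (hs h hh).2.2⟩) (fun b => t b ^ r)
    (W := tp m (pw m g T r)) fun b hb => by
      rw [← AdjoinRoot.mk_eq_mk, hom_pw _ mg (AdjoinRoot.mk_eq_zero.2 (dv b hb)),
        AdjoinRoot.mk_eq_mk.2 (hT b hb), C_pow, map_pow (AdjoinRoot.mk b)]
  rw [psum, Nat.cast_mul, ← coeff_toPoly, ← tp, tp_md mg, tp_mu, tp_der, dg_eq, hg, this, mul_comm, ← mul_assoc,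
    minv_mul d0 dm, one_mul]

theorem sep2 {s : Finset (ZMod (m + 1))[X]} (hs : ∀ h ∈ s, h.Monic ∧ Irreducible h) {h : (ZMod (m + 1))[X]}
    (hh : h ∈ s) : ∃ a : (ZMod (m + 1))[X], a.natDegree ≤ (∏ h ∈ s, h).natDegree ∧
      ∀ b ∈ s, tr b a = if b = h then 1 else 0 := by
  have mg : (∏ h ∈ s, h).Monic := monic_prod_of_monic _ _ fun h hh => (hs h hh).1
  obtain ⟨m1, i1⟩ := hs h hh
  have := Fact.mk i1
  obtain ⟨_, -⟩ := adj_card h
  have : Module.Finite (ZMod (m + 1)) (AdjoinRoot h) := (AdjoinRoot.powerBasis i1.ne_zero).finite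
  obtain ⟨θ, hθ⟩ := Algebra.trace_surjective (ZMod (m + 1)) (AdjoinRoot h) 1
  have n0 : AdjoinRoot.mk h (∏ b ∈ s.erase h, b) ≠ 0 := fun z => by
    obtain ⟨b, b1, b2⟩ := i1.prime.exists_mem_finset_dvd (AdjoinRoot.mk_eq_zero.1 z)
    obtain ⟨b3, b4⟩ := Finset.mem_erase.1 b1
    exact b3 (mi_eq m1 i1 (hs b b4).1 (hs b b4).2 b2).symm
  obtain ⟨b, hb⟩ := AdjoinRoot.mk_surjective (g := h) (θ / AdjoinRoot.mk h (∏ b ∈ s.erase h, b))
  refine ⟨(b * ∏ b ∈ s.erase h, b) %ₘ ∏ h ∈ s, h, natDegree_modByMonic_le _ mg, fun c hc => ?_⟩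
  have e : AdjoinRoot.mk c ((b * ∏ b ∈ s.erase h, b) %ₘ ∏ h ∈ s, h) =
      AdjoinRoot.mk c b * AdjoinRoot.mk c (∏ b ∈ s.erase h, b) := by
    rw [modByMonic_eq_sub_mul_div, map_sub, map_mul, map_mul,
      AdjoinRoot.mk_eq_zero.2 (Finset.dvd_prod_of_mem (fun b => b) hc), zero_mul, sub_zero]
  rw [tr_apply, e]
  split_ifs with q
  · subst q; rw [hb, div_mul_cancel₀ _ n0, hθ]
  · rw [AdjoinRoot.mk_eq_zero.2 (Finset.dvd_prod_of_mem (fun b => b) (Finset.mem_erase.2 ⟨q, hc⟩)), mul_zero, map_zero]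

theorem exlam (hρ : ρ ^ 2 + ρ + 1 = 0) {s : Finset (ZMod (m + 1))[X]} (hs : ∀ h ∈ s, h.Monic ∧ Irreducible h)
    {n M : ℕ} (hn : (∏ h ∈ s, h).natDegree < n) (hM : M ≤ m + 1) (hc : s.card ^ 3 * n < M) :
    ∃ lam < M, ∀ i ∈ s, ∀ j ∈ s, ∀ l ∈ s,
      algebraMap _ K (∑ e ∈ Finset.range n, (lam : ZMod (m + 1)) ^ e * tr i (X ^ e)) +
      (ρ ^ 1 * algebraMap _ K (∑ e ∈ Finset.range n, (lam : ZMod (m + 1)) ^ e * tr j (X ^ e)) +
      ρ ^ 2 * algebraMap _ K (∑ e ∈ Finset.range n, (lam : ZMod (m + 1)) ^ e * tr l (X ^ e))) = 0 → (j, l) = (i, i) := by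
  obtain ⟨c, hc'⟩ : ∃ c : (ZMod (m + 1))[X] × (ZMod (m + 1))[X] × (ZMod (m + 1))[X] → (ZMod (m + 1))[X] → K, ∀ τ a,
      c τ a = algebraMap _ K (tr τ.1 a) + (ρ ^ 1 * algebraMap _ K (tr τ.2.1 a) + ρ ^ 2 * algebraMap _ K (tr τ.2.2 a)) :=
    ⟨_, fun _ _ => rfl⟩
  obtain ⟨F, hF⟩ : ∃ F : (ZMod (m + 1))[X] × (ZMod (m + 1))[X] × (ZMod (m + 1))[X] → K[X], ∀ τ,
      F τ = ∑ e ∈ Finset.range n, monomial e (c τ (X ^ e)) := ⟨_, fun _ => rfl⟩
  obtain ⟨Z, hZ⟩ : ∃ Z, Z = (s ×ˢ s ×ˢ s).filter fun τ => τ.2 ≠ (τ.1, τ.1) := ⟨_, rfl⟩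
  have r0 : ρ ≠ 0 := fun q => by simp [q] at hρ
  have F0 : ∀ τ ∈ Z, F τ ≠ 0 := fun τ hτ q => by
    rw [hZ, Finset.mem_filter, Finset.mem_product, Finset.mem_product] at hτ
    obtain ⟨⟨t1, t2, t3⟩, t4⟩ := hτ
    obtain ⟨a, a1, a2⟩ := sep2 hs t1
    have z : ∀ e ∈ Finset.range n, c τ (X ^ e) = 0 := fun e he => by
      have := congrArg (coeff · e) q
      simpa [hF, coeff_monomial, Finset.mem_range.1 he] using this
    have : c τ a = ∑ e ∈ Finset.range n, algebraMap _ K (a.coeff e) * c τ (X ^ e) := by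
      conv_lhs => rw [a.as_sum_range_C_mul_X_pow' (a1.trans_lt hn)]
      simp only [hc', ← smul_eq_C_mul, map_sum, map_smul, smul_eq_mul, map_mul, Finset.mul_sum, mul_add,
        Finset.sum_add_distrib, mul_left_comm]
    rw [Finset.sum_eq_zero fun e he => by rw [z e he, mul_zero], hc', a2 _ t1, a2 _ t2, a2 _ t3, if_pos rfl] at this
    split_ifs at this with q1 q2 q2
    · exact t4 (Prod.ext q1 q2)
    · exact pow_ne_zero 2 r0 (by simp at this; linear_combination hρ - this)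
    · exact r0 (by simp at this; linear_combination hρ - this)
    · simp at this
  by_contra! k
  refine Finset.prod_ne_zero_iff.2 F0 (eq_zero_of_natDegree_lt_card_of_eval_eq_zero' _
    ((Finset.range M).image (Nat.cast : ℕ → K)) (fun x hx => ?_) ?_)
  · obtain ⟨lam, l1, rfl⟩ := Finset.mem_image.1 hx
    obtain ⟨i, hi, j, hj, l, hl, q1, q2⟩ := k lam (Finset.mem_range.1 l1)
    rw [eval_prod]
    refine Finset.prod_eq_zero (i := (i, j, l)) (by simp [hZ, hi, hj, hl]; simpa using q2) ?_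
    rw [← q1, hF]
    simp only [hc', eval_finset_sum, eval_monomial, map_sum, map_mul, map_pow, map_natCast, Finset.mul_sum,
      ← Finset.sum_add_distrib]
    exact Finset.sum_congr rfl fun e _ => by ring
  · rw [Finset.card_image_of_injOn fun a ha b hb q => injK (K := K) (m := m)
      (by have := Finset.mem_range.1 ha; omega) (by have := Finset.mem_range.1 hb; omega) q, Finset.card_range]
    refine (natDegree_prod_le _ _).trans_lt (((Finset.sum_le_card_nsmul _ _ n fun τ _ => ?_).trans ?_).trans_lt hc)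
    · rw [hF]
      exact natDegree_sum_le_of_forall_le _ _ fun e he => (natDegree_monomial_le _).trans (Finset.mem_range.1 he).le
    · rw [smul_eq_mul, hZ]
      exact Nat.mul_le_mul_right _ ((Finset.card_filter_le _ _).trans (by simp [pow_succ, mul_assoc]))

theorem SP_spec {R U g D : List ℕ} (G : GK m R K ρ) (h3 : 3 < m) {s : Finset (ZMod (m + 1))[X]} (d0 : 0 < D.length)
    (dm : D.length ≤ m) (hs : ∀ h ∈ s, h.Monic ∧ Irreducible h ∧ h.natDegree = D.length)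
    (hg : tp m g = ∏ h ∈ s, h) (hU : U.length ≤ m + 1) (hc : 2 * g.length ^ 4 < U.length) (S0 : s.Nonempty)
    (d : 2 ∣ s.card ∨ 3 ∣ s.card) : ∃ a ∈ SP m R U g D, ∃ h ∈ s, ∃ h' ∈ s, h ∣ tp m a ∧ ¬ h' ∣ tp m a := by
  have mg : (tp m g).Monic := hg ▸ monic_prod_of_monic _ _ fun h hh => (hs h hh).1
  have dv : ∀ h ∈ s, h ∣ tp m g := fun h hh => hg ▸ Finset.dvd_prod_of_mem (fun b => b) hh
  have n1 := nd_lt mg.ne_zero
  have n2 : s.card ≤ g.length := by
    rw [hg, natDegree_prod_of_monic _ _ fun h hh => (hs h hh).1, Finset.sum_congr rfl fun h hh => (hs h hh).2.2,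
      Finset.sum_const, smul_eq_mul] at n1
    nlinarith
  have n3 : s.card ^ 3 * g.length ≤ g.length ^ 4 := by rw [pow_succ _ 3]; gcongr
  obtain ⟨lam, l1, l2⟩ := exlam G.1 (fun h hh => ⟨(hs h hh).1, (hs h hh).2.1⟩) (hg ▸ n1) hU (by omega)
  have hT : ∀ h ∈ s, h ∣ tp m (Tl m g D lam) -
      C (∑ e ∈ Finset.range g.length, (lam : ZMod (m + 1)) ^ e * tr h (X ^ e)) := fun h hh => by
    rw [Tl, tp_ps, List.map_map, lsum, map_sum, ← Finset.sum_sub_distrib]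
    refine Finset.dvd_sum fun e he => ?_
    rw [Function.comp, tp_sm, List.length_take, min_eq_left (Finset.mem_range.1 he).le, Nat.cast_pow, C_mul, ← mul_sub]
    exact (TT_spec mg (hs h hh).2.1 (hs h hh).2.2 (dv h hh) e).mul_left _
  obtain ⟨ψ, p1, N, p2, i, hi, j, hj, ne⟩ := score (P := Pl m U g D (Tl m g D lam)) G h3 (fun c hc => by
    rw [Pl, gd_rm _ hc, psum_spec d0 dm hs hg hT]) hU (by nlinarith) S0 d l2
  have k : ∀ h ∈ s, h ∣ tp m (cmp m g (Tl m g D lam) ψ) - C (N h : ZMod (m + 1)) := fun h hh => by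
    rw [← (p2 h hh).1, ← coe_evalRingHom, aev_sum le_rfl, cmp, tp_ps, List.map_map, lsum, map_sum,
      ← Finset.sum_sub_distrib]
    refine Finset.dvd_sum fun e he => ?_
    rw [Function.comp, tp_sm, C_mul, ← mul_sub, coe_evalRingHom, eval_X]
    refine Dvd.dvd.mul_left ?_ _
    rw [← AdjoinRoot.mk_eq_mk, hom_pw _ mg (AdjoinRoot.mk_eq_zero.2 (dv h hh)), AdjoinRoot.mk_eq_mk.2 (hT h hh), C_pow,
      map_pow (AdjoinRoot.mk h)]
  have e : tp m (ps [cmp m g (Tl m g D lam) ψ, [m * N i]]) =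
      tp m (cmp m g (Tl m g D lam) ψ) - C (N i : ZMod (m + 1)) := by
    rw [tp_ps]
    simp [tp_one, cm, sub_eq_add_neg, -map_natCast]
  refine ⟨_, List.mem_flatMap.2 ⟨lam, List.mem_range.2 l1, List.mem_flatMap.2 ⟨ψ, p1,
    List.mem_map_of_mem (List.mem_range.2 (p2 i hi).2)⟩⟩, i, hi, j, hj, e ▸ k i hi, fun q => ?_⟩
  rw [e] at q
  have := dvd_sub (k j hj) q
  rw [sub_sub_sub_cancel_left, ← C_sub] at this
  exact (hs j hj).2.1.not_isUnit (isUnit_of_dvd_unit this (isUnit_C.2 (sub_ne_zero.2 ne).isUnit))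

end Vale.Agent.P319.Q
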