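import Vale.Agent.P319.QL

/-! P319: tuples and Lagrange resolvents of arbitrary prime order. -/

namespace Vale.Agent.P319.Q

open Vale.Agent.Lib.H24.T Vale.Agent.P338.PTX Polynomial
open scoped Classical

def Tup (ι : Type) : ℕ → Type
  | 0 => Unit
  | j + 1 => ι × Tup ι j

def TS {ι : Type} (S : Finset ι) : (j : ℕ) → Finset (Tup ι j)
  | 0 => ({()} : Finset Unit)
  | j + 1 => (S ×ˢ TS S j : Finset (ι × Tup ι j))

def cst {ι : Type} (i : ι) : (j : ℕ) → Tup ι j
  | 0 => ()
  | j + 1 => (i, cst i j)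

def val {ι R : Type} [CommRing R] (ρ : R) (a : ι → R) : (j : ℕ) → Tup ι j → R
  | 0, _ => 0
  | j + 1, τ => a τ.1 + ρ * val ρ a j τ.2

def tmap {ι κ : Type} (f : ι → κ) : (j : ℕ) → Tup ι j → Tup κ j
  | 0, _ => ()
  | j + 1, τ => (f τ.1, tmap f j τ.2)

section
variable {ι κ R R' : Type} [CommRing R] [CommRing R'] {S : Finset ι}

theorem card_TS (j : ℕ) : (TS S j).card = S.card ^ j := by
  induction j with
  | zero => rfl
  | succ j ih => exact (Finset.card_product S (TS S j)).trans (by rw [ih, pow_succ'])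

theorem sum_TS (j : ℕ) (F : Tup ι (j + 1) → R) : ∑ τ ∈ TS S (j + 1), F τ = ∑ x ∈ S, ∑ τ ∈ TS S j, F (x, τ) :=
  Finset.sum_product S (TS S j) F

theorem cst_mem {i : ι} (h : i ∈ S) (j : ℕ) : cst i j ∈ TS S j := by
  induction j with
  | zero => exact Finset.mem_singleton_self ()
  | succ j ih => exact Finset.mem_product.2 ⟨h, ih⟩

theorem val_cst (ρ : R) (a : ι → R) (i : ι) (j : ℕ) : val ρ a j (cst i j) = a i * ∑ e ∈ Finset.range j, ρ ^ e := by
  induction j with
  | zero => simp [val]
  | succ j ih => rw [Finset.sum_range_succ', val, cst, ih]; simp only [pow_succ', ← Finset.mul_sum]; ring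

theorem val_snoc (ρ : R) (a : ι → R) (j : ℕ) (F : R → R) : ∑ τ ∈ TS S (j + 1), F (val ρ a (j + 1) τ) =
    ∑ x ∈ S, ∑ τ ∈ TS S j, F (val ρ a j τ + ρ ^ j * a x) := by
  induction j generalizing F with
  | zero => rw [sum_TS]; simp [val]
  | succ j ih =>
    rw [sum_TS]
    refine (Finset.sum_congr rfl fun x _ => ih fun v => F (a x + ρ * v)).trans ?_
    rw [Finset.sum_comm]
    refine Finset.sum_congr rfl fun y _ => ?_
    rw [sum_TS]
    refine Finset.sum_congr rfl fun x _ => Finset.sum_congr rfl fun τ _ => ?_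
    congr 1
    simp only [val]; ring

theorem val_shift {ρ : R} {j : ℕ} (h : ρ ^ (j + 1) = 1) (a : ι → R) (n : ℕ) (F : R → R) :
    ∑ x ∈ S, ∑ τ ∈ TS S j, F (ρ ^ n * (a x + ρ * val ρ a j τ)) = ∑ x ∈ S, ∑ τ ∈ TS S j, F (a x + ρ * val ρ a j τ) := by
  induction n generalizing F with
  | zero => simp
  | succ n ih =>
    rw [← ih F]
    have := val_snoc (S := S) ρ a j fun v => F (ρ ^ n * (ρ * v))
    rw [sum_TS] at this
    simp only [val] at this
    simp only [pow_succ, mul_assoc, this]
    refine Finset.sum_congr rfl fun x _ => Finset.sum_congr rfl fun τ _ => ?_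
    congr 2
    linear_combination a x * h

theorem map_val (φ : R →+* R') (ρ : R) (a : ι → R) (j : ℕ) (τ : Tup ι j) :
    φ (val ρ a j τ) = val (φ ρ) (fun x => φ (a x)) j τ := by
  induction j with
  | zero => exact map_zero φ
  | succ j ih => simp only [val, map_add, map_mul, ih]

theorem val_tmap (f : ι → κ) (ρ : R) (a : ι → R) (b : κ → R) (h : ∀ x ∈ S, a x = b (f x)) (j : ℕ) {τ : Tup ι j}
    (hτ : τ ∈ TS S j) : val ρ a j τ = val ρ b j (tmap f j τ) := by
  induction j with
  | zero => rfl
  | succ j ih => simp only [val, tmap, ih (Finset.mem_product.1 hτ).2, h _ (Finset.mem_product.1 hτ).1]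

theorem tmap_cst [DecidableEq ι] (i : ι) (j : ℕ) (τ : Tup ι j) (h : tmap (fun x => decide (x = i)) j τ = cst true j) : τ = cst i j := by
  induction j with
  | zero => rfl
  | succ j ih => exact Prod.ext (of_decide_eq_true (congrArg Prod.fst h)) (ih _ (congrArg Prod.snd h))

theorem mem_univ (j : ℕ) (τ : Tup Bool j) : τ ∈ TS Finset.univ j := by
  induction j with
  | zero => exact Finset.mem_singleton_self ()
  | succ j ih => exact Finset.mem_product.2 ⟨Finset.mem_univ _, ih _⟩

theorem val_sum (ρ : R) (n : ℕ) (c : ℕ → R) (a : ℕ → ι → R) (j : ℕ) (τ : Tup ι j) :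
    val ρ (fun x => ∑ e ∈ Finset.range n, c e * a e x) j τ = ∑ e ∈ Finset.range n, c e * val ρ (a e) j τ := by
  induction j with
  | zero => simp [val]
  | succ j ih => simp only [val, ih, Finset.mul_sum, mul_add, Finset.sum_add_distrib, mul_left_comm]

end

theorem val_one (j : ℕ) (τ : Tup Bool j) : val (1 : ℚ) (fun b => bif b then 1 else 0) j τ ≤ j ∧
    (val (1 : ℚ) (fun b => bif b then 1 else 0) j τ = j → τ = cst true j) := by
  induction j with
  | zero => exact ⟨by simp [val], fun _ => rfl⟩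
  | succ j ih =>
    obtain ⟨b, τ⟩ := τ
    obtain ⟨i1, i2⟩ := ih τ
    cases b <;> simp only [val, cond_true, cond_false, one_mul] <;> push_cast
    · exact ⟨by linarith, fun h => by linarith⟩
    · exact ⟨by linarith, fun h => congrArg (Prod.mk true) (i2 (by linarith))⟩

theorem val_deg (j : ℕ) (τ : Tup Bool j) : (X * val (X : ℚ[X]) (fun b => bif b then 1 else 0) j τ).natDegree ≤ j := by
  induction j with
  | zero => simp [val]
  | succ j ih =>
    obtain ⟨b, τ⟩ := τ
    refine natDegree_mul_le.trans ((add_le_add natDegree_X_le ((natDegree_add_le _ _).trans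
      (max_le ?_ (ih τ)))).trans (by omega))
    cases b <;> simp

theorem nzq {j : ℕ} (hr : (j + 1).Prime) : ∃ N : ℕ, ∀ (K : Type) [Field K] (p : ℕ) [CharP K p], N < p →
    ∀ ρ : K, IsPrimitiveRoot ρ (j + 1) → ∀ τ : Tup Bool j, τ ≠ cst true j →
      1 + ρ * val ρ (fun b => bif b then 1 else 0) j τ ≠ 0 := by
  have key : ∀ τ : Tup Bool j, ∃ n : ℤ, τ ≠ cst true j → n ≠ 0 ∧ ∃ A B : ℤ[X],
      A * cyclotomic (j + 1) ℤ + B * (1 + X * val X (fun b => bif b then 1 else 0) j τ) = C n := fun τ => by
    by_cases c : τ = cst true j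
    · exact ⟨0, fun h => absurd c h⟩
    have := Fact.mk hr
    have e : (1 + X * val X (fun b => bif b then 1 else 0) j τ : ℤ[X]).map (algebraMap ℤ ℚ) =
        1 + X * val X (fun b => bif b then 1 else 0) j τ := by
      rw [← coe_mapRingHom, map_add, map_mul, map_val]
      simp [Bool.apply_cond]
    obtain ⟨a, b, h⟩ : IsCoprime (cyclotomic (j + 1) ℚ) (1 + X * val X (fun b => bif b then 1 else 0) j τ) := by
      refine (cyclotomic.irreducible_rat hr.pos).coprime_iff_not_dvd.2 fun d => c ((val_one j τ).2 ?_)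
      have n0 : (1 + X * val X (fun b => bif b then 1 else 0) j τ : ℚ[X]).eval 0 = 1 := by simp
      have := eq_leadingCoeff_mul_of_monic_of_dvd_of_natDegree_le (cyclotomic.monic _ _) d (by
        rw [natDegree_cyclotomic, Nat.totient_prime hr]
        exact (natDegree_add_le _ _).trans (max_le (by simp) (val_deg j τ)))
      generalize (1 + X * val X (fun b => bif b then 1 else 0) j τ : ℚ[X]).leadingCoeff = l at this
      have h1 := congrArg (eval 1) this
      rw [this, eval_mul, eval_C, ← coeff_zero_eq_eval_zero, cyclotomic_coeff_zero _ hr.one_lt, mul_one] at n0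
      rw [n0, eval_mul, eval_one_cyclotomic_prime, eval_add, eval_mul, ← coe_evalRingHom, map_val] at h1
      have q : (fun x : Bool => eval (1 : ℚ) (bif x then 1 else 0)) = fun b => bif b then 1 else 0 := by
        funext b; cases b <;> simp
      simp only [coe_evalRingHom, eval_one, eval_X, eval_C, q] at h1
      push_cast at h1
      linarith
    obtain ⟨u, u0, hu⟩ := IsLocalization.integerNormalization_spec (nonZeroDivisors ℤ) a
    obtain ⟨v, v0, hv⟩ := IsLocalization.integerNormalization_spec (nonZeroDivisors ℤ) b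
    refine ⟨u * v, fun _ => ⟨mul_ne_zero (nonZeroDivisors.ne_zero u0) (nonZeroDivisors.ne_zero v0),
      C v * IsLocalization.integerNormalization (nonZeroDivisors ℤ) a,
      C u * IsLocalization.integerNormalization (nonZeroDivisors ℤ) b,
      map_injective (algebraMap ℤ ℚ) (algebraMap ℤ ℚ).injective_int ?_⟩⟩
    simp only [Polynomial.map_add _, Polynomial.map_mul _, hu, hv, map_cyclotomic, map_C] at e ⊢
    rw [e]
    simp only [zsmul_eq_mul, eq_intCast, map_mul, map_intCast, Int.cast_mul]
    linear_combination (u * v : ℚ[X]) * h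
  choose n hn using key
  refine ⟨(TS Finset.univ j).sup fun τ => (n τ).natAbs, fun K _ p _ hp ρ hρ τ c z => ?_⟩
  obtain ⟨n0, A, B, h⟩ := hn τ c
  have := congrArg (aeval ρ) h
  have e : aeval ρ (cyclotomic (j + 1) ℤ) = 0 := by
    rw [aeval_def, eval₂_eq_eval_map, map_cyclotomic]; exact hρ.isRoot_cyclotomic hr.pos
  have e2 := map_val (aeval (R := ℤ) ρ).toRingHom X (fun b => bif b then 1 else 0) j τ
  simp only [AlgHom.toRingHom_eq_coe, RingHom.coe_coe, aeval_X, Bool.apply_cond (aeval ρ), map_one, map_zero] at e2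
  simp only [map_add, map_mul, e, e2, map_one, aeval_X, z, mul_zero, add_zero, eq_intCast, map_intCast] at this
  have := Nat.le_of_dvd (Int.natAbs_pos.2 n0) (Int.natCast_dvd.1 ((CharP.intCast_eq_zero_iff K p _).1 this.symm))
  have := Finset.le_sup (f := fun τ => (n τ).natAbs) (mem_univ j τ)
  omega

end Vale.Agent.P319.Q
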