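import Vale.Agent.P319.QT

/-! P319: splitting for a prime `r` whose square does not divide `p ^ (r - 1) - 1`. -/

namespace Vale.Agent.P319.Q

open Vale.Agent.Lib.H24.T Vale.Agent.P338.PTX Polynomial
open scoped Classical

variable {α : Type} [Enc α]

def cvw (U : List ℕ) (A B : List (List ℕ)) : List (List ℕ) := (List.range U.length).map fun c =>
  ps ((List.range U.length).map fun s => sm (ch U c s) (mu (A.getD s []) (B.getD (c - s) [])))
def shw (U : List ℕ) (A : List (List ℕ)) : List (List ℕ) :=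
  (List.range U.length).map fun c => ((U.take c).map fun _ => 0) ++ A.getD c []
def hw (U P : List ℕ) : ℕ → List (List ℕ)
  | 0 => [[1]]
  | j + 1 => cvw U (P.map fun a => [a]) (shw U (hw U P j))
def trc (j m : ℕ) (A : List ℕ) : ℕ :=
  ((List.range A.length).map fun e => (if e % (j + 1) = 0 then j else m) * A.getD e 0).sum
def Qr (j m : ℕ) (U P : List ℕ) : List ℕ := (shw U (hw U P j)).map (trc j m)
def er (j m : ℕ) : ℕ := ((m + 1) ^ (List.range j).length - 1) / (j + 1)
def sc1 (j m : ℕ) (U P : List ℕ) (w : ℕ) : List ℕ := sco (j + 1) m U P (Qr j m U P, []) ([], []) (er j m) w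
def scr (j m : ℕ) (R U P : List ℕ) : List (List ℕ) := (mus m R).map fun μ => sc1 j m U P (m * μ.getD 0 0)
def SRl (j m : ℕ) (R U g D T : List ℕ) : List (List ℕ) :=
  (scr j m R U (Pl m U g D T)).flatMap fun ψ => (List.range U.length).map fun c => ps [cmp m g T ψ, [m * c]]
def SR (j m : ℕ) (R U g D : List ℕ) : List (List ℕ) :=
  (List.range U.length).flatMap fun lam => SRl j m R U g D (Tl m g D lam)

section
variable {m : α → ℕ} {R U P g D T : α → List ℕ} {A B : α → List (List ℕ)}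
@[fun_prop] theorem pt_cvw (hU : PT U) (hA : PT A) (hB : PT B) : PT fun x => cvw (U x) (A x) (B x) := by
  unfold cvw; fun_prop
@[fun_prop] theorem pt_shw (hU : PT U) (hA : PT A) : PT fun x => shw (U x) (A x) := by unfold shw; fun_prop
@[fun_prop] theorem pt_hw (j : ℕ) (hU : PT U) (hP : PT P) : PT fun x => hw (U x) (P x) j := by
  induction j with
  | zero => exact PT.const _
  | succ j ih => exact pt_cvw hU (by fun_prop) (pt_shw hU ih)
@[fun_prop] theorem pt_trc (j : ℕ) (hm : PT m) (hP : PT P) : PT fun x => trc j (m x) (P x) := by unfold trc; fun_prop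
@[fun_prop] theorem pt_Qr (j : ℕ) (hm : PT m) (hU : PT U) (hP : PT P) : PT fun x => Qr j (m x) (U x) (P x) :=
  PT.map (g := fun x => trc j (m x)) (pt_shw hU (pt_hw j hU hP)) (pt_trc j (hm.comp PT.id.fst) PT.id.snd)
@[fun_prop] theorem pt_er (j : ℕ) (hm : PT m) : PT fun x => er j (m x) :=
  div (pow hm.succ (PT.const (List.range j))).pred (PT.const _)
@[fun_prop] theorem pt_sc1 (j : ℕ) {w : α → ℕ} (hm : PT m) (hU : PT U) (hP : PT P) (hw : PT w) :
    PT fun x => sc1 j (m x) (U x) (P x) (w x) :=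
  pt_sco (j + 1) hm hU hP ((pt_Qr j hm hU hP).pair (PT.const [])) (PT.const ([], [])) (pt_er j hm) hw
@[fun_prop] theorem pt_scr (j : ℕ) (hm : PT m) (hR : PT R) (hU : PT U) (hP : PT P) :
    PT fun x => scr j (m x) (R x) (U x) (P x) := by unfold scr; fun_prop
@[fun_prop] theorem pt_SRl (j : ℕ) (hm : PT m) (hR : PT R) (hU : PT U) (hg : PT g) (hD : PT D) (hT : PT T) :
    PT fun x => SRl j (m x) (R x) (U x) (g x) (D x) (T x) := by unfold SRl; fun_prop
@[fun_prop] theorem pt_SR (j : ℕ) (hm : PT m) (hR : PT R) (hU : PT U) (hg : PT g) (hD : PT D) :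
    PT fun x => SR j (m x) (R x) (U x) (g x) (D x) := by unfold SR; fun_prop
end

variable {m : ℕ} [hp : Fact (m + 1).Prime] {K : Type} [Field K] [Algebra (ZMod (m + 1)) K] {ρ : K}

def RepW (m : ℕ) [Fact (m + 1).Prime] [Algebra (ZMod (m + 1)) K] (M : ℕ) (ρ : K) (A : List (List ℕ)) {ι : Type}
    (S : Finset ι) (a : ι → K) : Prop := ∀ c < M, aeval ρ (tp m (A.getD c [])) = ∑ x ∈ S, a x ^ c

theorem gd_rl (f : ℕ → List ℕ) {n c : ℕ} (h : c < n) : ((List.range n).map f).getD c [] = f c := by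
  rw [List.getD_eq_getElem _ _ (by simpa using h)]; simp

theorem rep_shw {U : List ℕ} {A : List (List ℕ)} {ι : Type} {S : Finset ι} {a : ι → K}
    (h : RepW m U.length ρ A S a) : RepW m U.length ρ (shw U A) S fun x => ρ * a x := fun c hc => by
  rw [shw, gd_rl _ hc, tp_sh, map_mul, h c hc, List.length_take, min_eq_left hc.le]
  simp [mul_pow, Finset.mul_sum]

theorem rep_hw {U P : List ℕ} {ι : Type} {S : Finset ι} {a : ι → K}
    (hP : ∀ c < U.length, (P.getD c 0 : K) = ∑ x ∈ S, a x ^ c) (j : ℕ) :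
    RepW m U.length ρ (hw U P j) (TS S j) (val ρ a j) := by
  induction j with
  | zero =>
    intro c _
    refine Eq.trans ?_ (Finset.sum_singleton (fun x : Unit => val ρ a 0 x ^ c) ()).symm
    cases c <;> simp [hw, val, tp_one]
  | succ j ih =>
    intro c hc
    have hB := rep_shw ih
    rw [hw, cvw, gd_rl _ hc, tp_ps, List.map_map, lsum, map_sum, sum_TS]
    simp only [val, ← binom hc]
    rw [Finset.sum_congr rfl fun x _ => Finset.sum_comm, Finset.sum_comm]
    refine Finset.sum_congr rfl fun s hs => ?_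
    have e : aeval ρ (tp m ((P.map fun a => [a]).getD s [])) = (P.getD s 0 : K) := by
      by_cases q : s < P.length
      · rw [List.getD_eq_getElem _ _ (by simpa using q), List.getD_eq_getElem _ _ q]; simp [tp_one]
      · rw [List.getD_eq_default _ _ (by simpa using q), List.getD_eq_default _ _ (not_lt.1 q)]; simp
    rw [Function.comp, tp_sm, tp_mu, map_mul, map_mul, e, hP s (Finset.mem_range.1 hs), hB _ (by omega), ch_eq hc,
      Finset.sum_mul_sum]
    simp [Finset.mul_sum, mul_assoc]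

theorem trc_eq {j : ℕ} {ζ : K} (hζ : IsPrimitiveRoot ζ (j + 1)) (A : List ℕ) :
    (trc j m A : K) = ∑ a ∈ Finset.range j, aeval (ζ ^ (a + 1)) (tp m A) := by
  have : ∀ a, aeval (ζ ^ (a + 1)) (tp m A) = ∑ e ∈ Finset.range A.length, (A.getD e 0 : K) * (ζ ^ e) ^ (a + 1) :=
    fun a => (aev_sum le_rfl (aeval (ζ ^ (a + 1))).toRingHom).trans (by simp [← pow_mul, mul_comm])
  simp only [this]
  rw [Finset.sum_comm, trc, NWm.cast_sum]
  refine Finset.sum_congr rfl fun e _ => ?_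
  rw [← Finset.mul_sum, Nat.cast_mul, mul_comm]
  congr 1
  split_ifs with c
  · simp [(hζ.pow_eq_one_iff_dvd e).2 (Nat.dvd_of_mod_eq_zero c)]
  · have := mul_geom_sum (ζ ^ e) (j + 1)
    rw [← pow_mul, mul_comm e, pow_mul, hζ.pow_eq_one, one_pow, sub_self, mul_eq_zero, sub_eq_zero,
      Finset.sum_range_succ'] at this
    have := this.resolve_left fun q => c (Nat.mod_eq_zero_of_dvd ((hζ.pow_eq_one_iff_dvd e).1 q))
    rw [cmK]
    linear_combination -this

theorem rep_Qr {j : ℕ} {ζ : K} (hζ : IsPrimitiveRoot ζ (j + 1)) {U P : List ℕ} {ι : Type} {S : Finset ι} {a : ι → K}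
    (hP : ∀ c < U.length, (P.getD c 0 : K) = ∑ x ∈ S, a x ^ c) (ρ : K) :
    Rep U.length ρ (Qr j m U P, []) (Finset.range j ×ˢ TS S j)
      fun y => ζ ^ (y.1 + 1) * val (ζ ^ (y.1 + 1)) a j y.2 := fun c hc => by
  have e : (Qr j m U P).getD c 0 = trc j m ((shw U (hw U P j)).getD c []) := by
    rw [Qr, List.getD_eq_getElem _ _ (by simpa [shw] using hc), List.getD_eq_getElem _ _ (by simpa [shw] using hc)]
    simp
  rw [sv, e, trc_eq hζ, Finset.sum_product]
  simp only [List.getD_nil, Nat.cast_zero, zero_mul, add_zero]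
  exact Finset.sum_congr rfl fun b _ => rep_shw (rep_hw hP j) c hc

theorem gen2 {r : ℕ} (hr : r.Prime) (hρ : ρ ^ 2 + ρ + 1 = 0) {e : ℕ} (e0 : ¬ r ∣ e) {η : List ℕ × List ℕ}
    {U P : List ℕ} {Q : List ℕ × List ℕ} {ι κ : Type} {S : Finset ι} {T : Finset κ} {t : ι → ZMod (m + 1)}
    {b : κ → K} (hP : ∀ ρ, Rep U.length ρ (P, []) S fun x => algebraMap _ K (t x)) (h1 : ∀ ρ, Rep U.length ρ Q T b)
    (hU : U.length ≤ m + 1) (hc : 2 * (S.card * T.card) < U.length) {w : ℕ}
    (hw : ∀ x y z : ZMod (m + 1), algebraMap _ K x + algebraMap _ K y * ρ = algebraMap _ K z → x + w * y = z)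
    {ζ : K} (hζ : IsPrimitiveRoot ζ r) (hσ : ∀ F : K → K, ∑ i ∈ S, ∑ y ∈ T, F (ζ * (algebraMap _ K (t i) + b y)) =
      ∑ i ∈ S, ∑ y ∈ T, F (algebraMap _ K (t i) + b y))
    (hz : ∀ i ∈ S, (T.filter fun y => algebraMap _ K (t i) + b y = 0).card = r - 1 ∧
      ∀ y ∈ T, algebraMap _ K (t i) + b y ≠ 0 → (algebraMap _ K (t i) + b y) ^ (e * r) = 1)
    (S0 : S.Nonempty) (d1 : r ∣ S.card) (d2 : r ∣ T.card) :
    ∃ N : ι → ℕ, (∀ i ∈ S, (tp m (sco r m U P Q η e w)).eval (t i) = N i ∧ N i < U.length) ∧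
      ∃ i ∈ S, ∃ j ∈ S, (N i : ZMod (m + 1)) ≠ N j := by
  obtain ⟨i0, hi0⟩ := S0
  have k0 := Finset.card_pos.2 ⟨i0, hi0⟩
  have k1 := Nat.le_of_dvd k0 d1
  have r2 := hr.two_le
  have t1 : r - 1 ≤ T.card := (hz i0 hi0).1 ▸ Finset.card_filter_le _ _
  have k2 := Nat.le_mul_of_pos_right S.card (show 0 < T.card by omega)
  have k3 := Nat.le_mul_of_pos_left T.card k0
  have nz : ∀ a : ℕ, 0 < a → a ≤ m → (a : K) ≠ 0 := fun a a0 a1 q =>
    a0.ne' (injK (K := K) a1 (Nat.zero_le _) (by rw [q, Nat.cast_zero]))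
  have r0 := nz r hr.pos (by omega)
  have e1 : e ≠ 0 := fun q => e0 (q ▸ dvd_zero r)
  have f5 : ∀ (π : (ZMod (m + 1))[X] →+* K) (G : List ℕ), (tp m G).Monic → π (tp m G) = 0 →
      ev2 π ρ (pchi r m G η e) = ind r (π X ^ e) := fun π G mG h0 => by
    have : pit r m G η e = (([0, 1], []), η, e) :=
      Function.iterate_fixed (f := pst r m G) (x := (([0, 1], []), η, e)) (if_neg fun q => e0 (Nat.dvd_of_mod_eq_zero q)) _
    rw [pchi, this, ev_pind hρ mG h0 hr.pos (by omega), ev_ppw hρ mG h0]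
    simp [ev2, tp_X]
  obtain ⟨g1, g2, g3⟩ := cG_spec hρ hP (h1 _) (h1 _) hU hc
  have A : ∀ i ∈ S, ∑ y ∈ T, ind r ((algebraMap _ K (t i) + b y) ^ e) =
      ((T.filter fun y => (algebraMap _ K (t i) + b y) ^ e = 1).card : ℕ) := fun i hi => by
    rw [Finset.card_filter, Nat.cast_sum]
    refine Finset.sum_congr rfl fun y hy => ?_
    by_cases c : algebraMap _ K (t i) + b y = 0
    · rw [c, zero_pow e1, ind_zero]; simp
    · rw [ind_eq r0 (by rw [← pow_mul]; exact (hz i hi).2 y hy c)]; simp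
  refine ⟨fun i => (T.filter fun y => (algebraMap _ K (t i) + b y) ^ e = 1).card, fun i hi => ⟨?_,
    (Finset.card_filter_le _ _).trans_lt (by omega)⟩, ?_⟩
  · refine psi_spec hρ (h1 _) ((len_pchi _ _ _ _ _).1.trans g1.le) ((len_pchi _ _ _ _ _).2.trans g1.le) hw _ _ ?_
    rw [← A i hi]
    refine Finset.sum_congr rfl fun y hy => ?_
    rw [f5 _ _ g2 (g3 i hi y hy)]
    simp
  by_contra! c
  have B : ∑ i ∈ S, ∑ y ∈ T, ind r ((algebraMap _ K (t i) + b y) ^ e) =
      S.card * ((T.filter fun y => (algebraMap _ K (t i0) + b y) ^ e = 1).card : ℕ) := by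
    rw [Finset.sum_congr rfl fun i hi => (A i hi).trans (by
      simpa only [map_natCast] using congrArg (algebraMap _ K) (c i hi i0 hi0)), Finset.sum_const, nsmul_eq_mul]
  have C : ∀ a ∈ Finset.range (r - 1), ∑ i ∈ S, ∑ y ∈ T, ((algebraMap _ K (t i) + b y) ^ e) ^ (a + 1) = 0 :=
    fun a ha => by
    have := hσ fun u => (u ^ e) ^ (a + 1)
    simp only [mul_pow, ← Finset.mul_sum] at this
    refine (mul_left_eq_self₀.1 this).resolve_left fun q => ?_
    rw [← pow_mul] at q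
    rcases (Nat.Prime.dvd_mul hr).1 ((hζ.pow_eq_one_iff_dvd _).1 q) with q | q
    · exact e0 q
    · have := Nat.le_of_dvd a.succ_pos q
      have := Finset.mem_range.1 ha
      omega
  have D : ∑ i ∈ S, ∑ y ∈ T, ((algebraMap _ K (t i) + b y) ^ e) ^ r = S.card * ((T.card : K) - (r - 1 : ℕ)) := by
    rw [Finset.sum_congr rfl (g := fun _ => (T.card : K) - (r - 1 : ℕ)) fun i hi => ?_, Finset.sum_const, nsmul_eq_mul]
    rw [← (hz i hi).1, Finset.card_filter, Finset.card_eq_sum_ones, Nat.cast_sum, Nat.cast_sum,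
      ← Finset.sum_sub_distrib]
    refine Finset.sum_congr rfl fun y hy => ?_
    split_ifs with q
    · simp [q, e1, hr.ne_zero]
    · rw [← pow_mul, (hz i hi).2 y hy q]; simp
  simp only [ind, ← Finset.mul_sum] at B
  rw [Finset.sum_congr rfl fun i _ => Finset.sum_comm, Finset.sum_comm, ← Nat.sub_add_cancel hr.pos,
    Finset.sum_range_succ, Finset.sum_eq_zero C, Nat.sub_add_cancel hr.pos, D] at B
  have n := Finset.card_filter_le T fun y => (algebraMap _ K (t i0) + b y) ^ e = 1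
  generalize (T.filter fun y => (algebraMap _ K (t i0) + b y) ^ e = 1).card = N at *
  have n2 : r * N ≤ S.card * T.card := Nat.mul_le_mul k1 n
  have E := injK (K := K) (m := m) (a := r * N + (r - 1)) (b := T.card) (by omega) (by omega) (by
    refine mul_left_cancel₀ (nz _ k0 (by omega)) ?_
    rw [Nat.cast_add, Nat.cast_mul]
    field_simp at B
    linear_combination -B)
  have := Nat.le_of_dvd (by omega) ((Nat.dvd_add_right (Dvd.intro _ rfl)).1 (E ▸ d2))
  omega

theorem score2 {j : ℕ} (hr : (j + 1).Prime) {ζ : K} (hζ : IsPrimitiveRoot ζ (j + 1)) (hρ : ρ ^ 2 + ρ + 1 = 0)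
    {w : ℕ} (hw : ∀ x y z : ZMod (m + 1), algebraMap _ K x + algebraMap _ K y * ρ = algebraMap _ K z → x + w * y = z)
    (hj : j < m) (hq : ¬ (j + 1) ^ 2 ∣ (m + 1) ^ j - 1) {U P : List ℕ} {ι : Type} {S : Finset ι} {t : ι → ZMod (m + 1)}
    (hP : ∀ c < U.length, (P.getD c 0 : ZMod (m + 1)) = ∑ x ∈ S, t x ^ c) (hU : U.length ≤ m + 1)
    (hc : 2 * (S.card * (j * S.card ^ j)) < U.length) (S0 : S.Nonempty) (d : j + 1 ∣ S.card)
    (nd : ∀ i ∈ S, ∀ a < j, ∀ τ ∈ TS S j, algebraMap _ K (t i) +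
      ζ ^ (a + 1) * val (ζ ^ (a + 1)) (fun x => algebraMap _ K (t x)) j τ = 0 → τ = cst i j) :
    ∃ N : ι → ℕ, (∀ i ∈ S, (tp m (sc1 j m U P w)).eval (t i) = N i ∧ N i < U.length) ∧
      ∃ i ∈ S, ∃ j ∈ S, (N i : ZMod (m + 1)) ≠ N j := by
  have hK : ∀ c < U.length, (P.getD c 0 : K) = ∑ x ∈ S, algebraMap _ K (t x) ^ c := fun c hc => by
    simpa using congrArg (algebraMap _ K) (hP c hc)
  have j0 : 0 < j := by have := hr.two_le; omega
  have co : (m + 1).Coprime (j + 1) := (Nat.coprime_primes hp.out hr).2 (by omega)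
  have fe : j + 1 ∣ (m + 1) ^ j - 1 := (Nat.modEq_iff_dvd' (Nat.one_le_pow _ _ m.succ_pos)).1 (by
    have := Nat.ModEq.pow_totient co
    rw [Nat.totient_prime hr] at this
    exact this.symm)
  have e1 : er j m * (j + 1) = (m + 1) ^ j - 1 := by rw [er, List.length_range, Nat.div_mul_cancel fe]
  have pr : ∀ a < j, IsPrimitiveRoot (ζ ^ (a + 1)) (j + 1) := fun a ha =>
    hζ.pow_of_coprime _ (Nat.coprime_of_lt_prime a.succ_ne_zero (by omega) hr).symm
  have := charP_of_injective_algebraMap (algebraMap (ZMod (m + 1)) K).injective (m + 1)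
  refine gen2 hr hρ (fun q => hq (by rw [← e1, sq]; exact Nat.mul_dvd_mul_right q _))
    (fun ρ c hc => by simpa [sv] using hK c hc) (rep_Qr hζ hK) hU
    (by rwa [Finset.card_product, Finset.card_range, card_TS]) hw hζ (fun F => ?_) (fun i hi => ⟨?_, fun y _ q => ?_⟩)
    S0 d (by rw [Finset.card_product, card_TS]; exact (d.trans (dvd_pow_self _ j0.ne')).mul_left _)
  · simp only [Finset.sum_product]
    rw [Finset.sum_comm, Finset.sum_comm (s := S)]
    refine Finset.sum_congr rfl fun a ha => ?_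
    have h := pr a (Finset.mem_range.1 ha)
    obtain ⟨n, -, hn⟩ := h.eq_pow_of_pow_eq_one hζ.pow_eq_one
    have := val_shift (S := S) h.pow_eq_one (fun x => algebraMap _ K (t x)) n F
    rwa [hn] at this
  · rw [show (Finset.range j ×ˢ TS S j).filter _ = Finset.range j ×ˢ {cst i j} from ?_]
    · simp
    ext ⟨a, τ⟩
    simp only [Finset.mem_filter, Finset.mem_product, Finset.mem_range, Finset.mem_singleton]
    refine ⟨fun h => ⟨h.1.1, nd i hi a h.1.1 τ h.1.2 h.2⟩, fun h => ⟨⟨h.1, h.2 ▸ cst_mem hi j⟩, ?_⟩⟩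
    have := (pr a h.1).geom_sum_eq_zero hr.one_lt
    rw [Finset.sum_range_succ'] at this
    simp only [pow_succ' (ζ ^ (a + 1)), ← Finset.mul_sum] at this
    rw [h.2, val_cst]
    linear_combination algebraMap _ K (t i) * this
  · have z : iterateFrobenius K (m + 1) j ζ = ζ := by
      rw [iterateFrobenius_def, ← Nat.sub_add_cancel (Nat.one_le_pow j _ m.succ_pos), ← e1, pow_succ, mul_comm (er j m),
        pow_mul, hζ.pow_eq_one, one_pow, one_mul]
    have z2 : ∀ x : ZMod (m + 1), iterateFrobenius K (m + 1) j (algebraMap _ K x) = algebraMap _ K x := fun x => by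
      rw [iterateFrobenius_def, ← map_pow, ZMod.pow_card_pow]
    refine mul_right_cancel₀ q ?_
    rw [e1, ← pow_succ, Nat.sub_add_cancel (Nat.one_le_pow j _ m.succ_pos), ← iterateFrobenius_def, map_add, map_mul,
      map_val]
    simp only [z2, map_pow, z, one_mul]

theorem exlamG {κ : Type} (Z : Finset κ) (c : κ → ℕ → K) {n M : ℕ} (h : ∀ τ ∈ Z, ∃ e < n, c τ e ≠ 0)
    (hM : M ≤ m + 1) (hc : Z.card * n < M) :
    ∃ lam < M, ∀ τ ∈ Z, ∑ e ∈ Finset.range n, (lam : K) ^ e * c τ e ≠ 0 := by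
  by_contra! k
  refine Finset.prod_ne_zero_iff.2 (fun τ hτ q => ?_) (eq_zero_of_natDegree_lt_card_of_eval_eq_zero'
    (∏ τ ∈ Z, ∑ e ∈ Finset.range n, monomial e (c τ e)) ((Finset.range M).image (Nat.cast : ℕ → K)) (fun x hx => ?_) ?_)
  · obtain ⟨e, e1, e2⟩ := h τ hτ
    have := congrArg (coeff · e) q
    exact e2 (by simpa [coeff_monomial, e1] using this)
  · obtain ⟨lam, l1, rfl⟩ := Finset.mem_image.1 hx
    obtain ⟨τ, t1, t2⟩ := k lam (Finset.mem_range.1 l1)
    rw [eval_prod]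
    exact Finset.prod_eq_zero t1 (by simpa [eval_finset_sum, mul_comm] using t2)
  · rw [Finset.card_image_of_injOn fun a ha b hb q => injK (K := K) (m := m)
      (by have := Finset.mem_range.1 ha; omega) (by have := Finset.mem_range.1 hb; omega) q, Finset.card_range]
    exact (natDegree_prod_le _ _).trans_lt ((Finset.sum_le_card_nsmul _ _ n fun τ _ =>
      natDegree_sum_le_of_forall_le _ _ fun e he => (natDegree_monomial_le _).trans (Finset.mem_range.1 he).le).trans_lt hc)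

/-- no proper subsum of roots of unity vanishes -/
def NZ (j p : ℕ) : Prop := ∀ (K : Type) [Field K] [CharP K p], ∀ ρ : K, IsPrimitiveRoot ρ (j + 1) →
  ∀ τ : Tup Bool j, τ ≠ cst true j → 1 + ρ * val ρ (fun b => bif b then 1 else 0) j τ ≠ 0

theorem SR_spec {j : ℕ} (hr : (j + 1).Prime) (hj : j < m) (hq : ¬ (j + 1) ^ 2 ∣ (m + 1) ^ j - 1) (hN : NZ j (m + 1))
    {R U g D : List ℕ} (G : GK m R K ρ) {s : Finset (ZMod (m + 1))[X]} (d0 : 0 < D.length)
    (dm : D.length ≤ m) (hs : ∀ h ∈ s, h.Monic ∧ Irreducible h ∧ h.natDegree = D.length)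
    (hg : tp m g = ∏ h ∈ s, h) (hU : U.length ≤ m + 1) (hc : 2 * (j * g.length ^ (j + 2)) < U.length) (S0 : s.Nonempty)
    (d : j + 1 ∣ s.card) : ∃ a ∈ SR j m R U g D, ∃ h ∈ s, ∃ h' ∈ s, h ∣ tp m a ∧ ¬ h' ∣ tp m a := by
  have mg : (tp m g).Monic := hg ▸ monic_prod_of_monic _ _ fun h hh => (hs h hh).1
  have dv : ∀ h ∈ s, h ∣ tp m g := fun h hh => hg ▸ Finset.dvd_prod_of_mem (fun b => b) hh
  have n1 := nd_lt mg.ne_zero
  have n2 : s.card ≤ g.length := by
    rw [hg, natDegree_prod_of_monic _ _ fun h hh => (hs h hh).1, Finset.sum_congr rfl fun h hh => (hs h hh).2.2,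
      Finset.sum_const, smul_eq_mul] at n1
    nlinarith
  have n3 : s.card * (j * s.card ^ j) * g.length ≤ j * g.length ^ (j + 2) :=
    calc _ ≤ g.length * (j * g.length ^ j) * g.length := by gcongr
      _ = _ := by ring
  obtain ⟨hρ, ⟨μ, m1, m2⟩, -⟩ := G
  have := charP_of_injective_algebraMap (algebraMap (ZMod (m + 1)) (AlgebraicClosure K)).injective (m + 1)
  have : NeZero ((j + 1 : ℕ) : AlgebraicClosure K) := ⟨fun q => by
    have := injK (K := AlgebraicClosure K) (m := m) (a := j + 1) (b := 0) hj (Nat.zero_le _) (by rw [q, Nat.cast_zero])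
    omega⟩
  obtain ⟨ζ, hζ⟩ := HasEnoughRootsOfUnity.exists_primitiveRoot (AlgebraicClosure K) (j + 1)
  obtain ⟨lam, l1, l2⟩ := exlamG (m := m) ((s ×ˢ Finset.range j ×ˢ TS s j).filter fun τ => τ.2.2 ≠ cst τ.1 j)
    (fun τ e => val (ζ ^ (τ.2.1 + 1)) (fun x => algebraMap _ (AlgebraicClosure K) (tr x (X ^ e))) (j + 1) (τ.1, τ.2.2))
    (n := g.length) (fun τ hτ => by
      simp only [Finset.mem_filter, Finset.mem_product, Finset.mem_range] at hτ
      obtain ⟨⟨t1, t2, t3⟩, t4⟩ := hτ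
      obtain ⟨a, a1, a2⟩ := sep2 (fun h hh => ⟨(hs h hh).1, (hs h hh).2.1⟩) t1
      by_contra! z
      refine hN (AlgebraicClosure K) _ (hζ.pow_of_coprime _ (Nat.coprime_of_lt_prime τ.2.1.succ_ne_zero (by omega)
        hr).symm) _ (mt (tmap_cst τ.1 j τ.2.2) t4) ?_
      have e := val_sum (ζ ^ (τ.2.1 + 1)) g.length (fun e => algebraMap _ _ (a.coeff e))
        (fun e x => algebraMap _ (AlgebraicClosure K) (tr x (X ^ e))) (j + 1) (τ.1, τ.2.2)
      have e2 : ∀ x, ∑ e ∈ Finset.range g.length, algebraMap _ (AlgebraicClosure K) (a.coeff e) *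
          algebraMap _ _ (tr x (X ^ e)) = algebraMap _ _ (tr x a) := fun x => by
        conv_rhs => rw [a.as_sum_range_C_mul_X_pow' (a1.trans_lt (hg ▸ n1))]
        simp only [← smul_eq_C_mul, map_sum, map_smul, smul_eq_mul, map_mul]
      rw [Finset.sum_eq_zero fun e he => by rw [z e (Finset.mem_range.1 he), mul_zero]] at e
      simp only [e2, val] at e
      rw [a2 _ t1, if_pos rfl, map_one, val_tmap (fun x => decide (x = τ.1)) _ _ (fun b => bif b then 1 else 0)
        (fun x hx => by rw [a2 x hx]; by_cases q : x = τ.1 <;> simp [q]) j t3] at e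
      exact e) hU
    (((Nat.mul_le_mul_right _ ((Finset.card_filter_le _ _).trans (by
      rw [Finset.card_product, Finset.card_product, Finset.card_range, card_TS]))).trans n3).trans_lt (by omega))
  have hT : ∀ h ∈ s, h ∣ tp m (Tl m g D lam) -
      C (∑ e ∈ Finset.range g.length, (lam : ZMod (m + 1)) ^ e * tr h (X ^ e)) := fun h hh => by
    rw [Tl, tp_ps, List.map_map, lsum, map_sum, ← Finset.sum_sub_distrib]
    refine Finset.dvd_sum fun e he => ?_
    rw [Function.comp, tp_sm, List.length_take, min_eq_left (Finset.mem_range.1 he).le, Nat.cast_pow, C_mul, ← mul_sub]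
    exact (TT_spec mg (hs h hh).2.1 (hs h hh).2.2 (dv h hh) e).mul_left _
  obtain ⟨N, p2, i, hi, l, hl, ne⟩ := score2 (P := Pl m U g D (Tl m g D lam)) hr hζ
    (ρ := algebraMap K _ ρ) (by simpa using congrArg (algebraMap K (AlgebraicClosure K)) hρ) (w := m * μ.getD 0 0)
    (fun x y z q => m2 x y z ((algebraMap K (AlgebraicClosure K)).injective (by
      simpa only [map_add, map_mul, ← IsScalarTower.algebraMap_apply] using q))) hj hq (fun c hc => by
    rw [Pl, gd_rm _ hc, psum_spec d0 dm hs hg hT]) hU (by nlinarith) S0 d fun i hi a ha τ hτ q => by_contra fun c =>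
      l2 (i, a, τ) (by simp [hi, ha, hτ, c]) (by
        refine (val_sum _ _ (fun e => (lam : AlgebraicClosure K) ^ e)
          (fun e x => algebraMap _ _ (tr x (X ^ e))) (j + 1) (i, τ)).symm.trans ?_
        simpa only [val, map_sum, map_mul, map_pow, map_natCast] using q)
  generalize hψ : sc1 j m U (Pl m U g D (Tl m g D lam)) (m * μ.getD 0 0) = ψ at p2
  have k : ∀ h ∈ s, h ∣ tp m (cmp m g (Tl m g D lam) ψ) - C (N h : ZMod (m + 1)) := fun h hh => by
    rw [← (p2 h hh).1, ← coe_evalRingHom, aev_sum le_rfl, cmp, tp_ps, List.map_map, lsum, map_sum,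
      ← Finset.sum_sub_distrib]
    refine Finset.dvd_sum fun e he => ?_
    rw [Function.comp, tp_sm, C_mul, ← mul_sub, coe_evalRingHom, eval_X]
    refine Dvd.dvd.mul_left ?_ _
    rw [← AdjoinRoot.mk_eq_mk, hom_pw _ mg (AdjoinRoot.mk_eq_zero.2 (dv h hh)), AdjoinRoot.mk_eq_mk.2 (hT h hh), C_pow,
      map_pow (AdjoinRoot.mk h)]
  have e : tp m (ps [cmp m g (Tl m g D lam) ψ, [m * N i]]) =
      tp m (cmp m g (Tl m g D lam) ψ) - C (N i : ZMod (m + 1)) := by
    rw [tp_ps]
    simp [tp_one, cm, sub_eq_add_neg, -map_natCast]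
  refine ⟨_, List.mem_flatMap.2 ⟨lam, List.mem_range.2 l1, List.mem_flatMap.2 ⟨ψ, hψ ▸ List.mem_map_of_mem m1,
    List.mem_map_of_mem (List.mem_range.2 (p2 i hi).2)⟩⟩, i, hi, l, hl, e ▸ k i hi, fun q => ?_⟩
  rw [e] at q
  have := dvd_sub (k l hl) q
  rw [sub_sub_sub_cancel_left, ← C_sub] at this
  exact (hs l hl).2.1.not_isUnit (isUnit_of_dvd_unit this (isUnit_C.2 (sub_ne_zero.2 ne).isUnit))

end Vale.Agent.P319.Q
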