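import Vale.Agent.P319.R3c
import Vale.Agent.P319.NonRes

/-! P319 wave 2: roots of a split cubic. -/

namespace Vale.Agent.P319

theorem r3S (hNC : NCStmt) (hCB : CBStmt) (hSQ : SQStmt) : R3Stmt := R3m.main hNC hCB hSQ nonres

end Vale.Agent.P319
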