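import Vale.Agent.P319.Spec4

/-! P319 wave 2: roots of a split cubic by Lagrange resolvents, from a list of parameters. -/

namespace Vale.Agent.P319

open Vale.Agent.Lib.H24.T Vale.Agent.P338.PTX

namespace R3m

variable {α : Type} [Enc α]

/-- product of pairs -/
def kmul (n : ℕ) (x y : ℕ × ℕ) : ℕ × ℕ := (x.1 * y.1 + n * (x.2 * y.2), x.1 * y.2 + x.2 * y.1)

/-- cube root of unity from a square root of `-3` -/
def kw (m : ℕ) (r : ℕ × ℕ) : ℕ × ℕ := ((m + r.1) * minv m 2, r.2 * minv m 2)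

/-- cube of the resolvent -/
def kU (m P D : ℕ) (r : ℕ × ℕ) : ℕ × ℕ := ((P + 3 * D * r.1) * minv m 2, 3 * D * r.2 * minv m 2)

/-- `a + b w + c w ^ 2` -/
def kg (n a b c : ℕ) (w : ℕ × ℕ) : ℕ × ℕ :=
  (a + b * w.1 + c * (kmul n w w).1, b * w.2 + c * (kmul n w w).2)

/-- the three cube roots -/
def tri (n : ℕ) (w u : ℕ × ℕ) : List (ℕ × ℕ) := [u, kmul n w u, kmul n w (kmul n w u)]

/-- root candidates from resolvent candidates -/
def fin (m e : ℕ) (us vs : List (ℕ × ℕ)) : List ℕ :=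
  us.flatMap fun x => vs.map fun y => (e + x.1 + y.1) * minv m 3

/-- non cube candidates -/
def gs (n : ℕ) (w : ℕ × ℕ) (l : List ℕ) : List (ℕ × ℕ) :=
  l.flatMap fun a => l.flatMap fun b => l.map fun c => kg n a b c w

/-- square roots of `-3` -/
def rs (S : ℕ × ℕ → List ℕ) (m n : ℕ) : List (ℕ × ℕ) :=
  ((S (m, 3 * m)).map fun s => (s, 0)) ++ (S (m, 3 * m * minv m n)).map fun s => (0, s)

/-- candidates for fixed parameters -/
def out (cb : (ℕ × ℕ) × (ℕ × ℕ) × (ℕ × ℕ) → ℕ × ℕ) (m n e P D : ℕ) (r g : ℕ × ℕ) : List ℕ :=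
  fin m e (tri n (kw m r) (cb ((m, n), kU m P D r, g)))
    (tri n (kw m r) (cb ((m, n), kU m P (m * D) r, g)))

/-- all candidates -/
def allc (cb : (ℕ × ℕ) × (ℕ × ℕ) × (ℕ × ℕ) → ℕ × ℕ) (S : ℕ × ℕ → List ℕ) (m e P Δ : ℕ)
    (l : List ℕ) : List ℕ :=
  (m :: l).flatMap fun n => (rs S m n).flatMap fun r => (S (m, Δ)).flatMap fun D =>
    (gs n (kw m r) l).flatMap fun g => out cb m n e P D r g

@[fun_prop] theorem pminv {m a : α → ℕ} (hm : PT m) (ha : PT a) : PT fun x => minv (m x) (a x) :=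
  pt_minv hm ha

@[fun_prop] theorem pkmul {n : α → ℕ} {x y : α → ℕ × ℕ} (hn : PT n) (hx : PT x) (hy : PT y) :
    PT fun a => kmul (n a) (x a) (y a) := by unfold kmul; fun_prop

@[fun_prop] theorem pkw {m : α → ℕ} {x : α → ℕ × ℕ} (hn : PT m) (hx : PT x) :
    PT fun a => kw (m a) (x a) := by unfold kw; fun_prop

@[fun_prop] theorem pkU {m P D : α → ℕ} {x : α → ℕ × ℕ} (hn : PT m) (hP : PT P) (hD : PT D)
    (hx : PT x) : PT fun a => kU (m a) (P a) (D a) (x a) := by unfold kU; fun_prop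

@[fun_prop] theorem pkg {n a b c : α → ℕ} {x : α → ℕ × ℕ} (hn : PT n) (ha : PT a) (hb : PT b)
    (hc : PT c) (hx : PT x) : PT fun y => kg (n y) (a y) (b y) (c y) (x y) := by
  unfold kg; fun_prop

@[fun_prop] theorem ptri {n : α → ℕ} {x y : α → ℕ × ℕ} (hn : PT n) (hx : PT x) (hy : PT y) :
    PT fun a => tri (n a) (x a) (y a) := by unfold tri; fun_prop

@[fun_prop] theorem pfin {m e : α → ℕ} {x y : α → List (ℕ × ℕ)} (hn : PT m) (he : PT e)
    (hx : PT x) (hy : PT y) : PT fun a => fin (m a) (e a) (x a) (y a) := by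
  unfold fin
  refine PT.flatMap hx (PT.map (by fun_prop) (by fun_prop))

@[fun_prop] theorem pgs {n : α → ℕ} {w : α → ℕ × ℕ} {l : α → List ℕ} (hn : PT n) (hw : PT w)
    (hl : PT l) : PT fun a => gs (n a) (w a) (l a) := by
  unfold gs
  refine PT.flatMap hl (PT.flatMap (by fun_prop) (PT.map (by fun_prop) (by fun_prop)))

theorem prs {S : ℕ × ℕ → List ℕ} (hS : PT S) {m n : α → ℕ} (hm : PT m) (hn : PT n) :
    PT fun a => rs S (m a) (n a) := by
  unfold rs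
  exact PT.append (PT.map (hS.comp (by fun_prop)) (by fun_prop))
    (PT.map (hS.comp (by fun_prop)) (by fun_prop))

theorem pout {cb : (ℕ × ℕ) × (ℕ × ℕ) × (ℕ × ℕ) → ℕ × ℕ} (hc : PT cb) {m n e P D : α → ℕ}
    {r g : α → ℕ × ℕ} (hm : PT m) (hn : PT n) (he : PT e) (hP : PT P) (hD : PT D) (hr : PT r)
    (hg : PT g) : PT fun a => out cb (m a) (n a) (e a) (P a) (D a) (r a) (g a) := by
  unfold out
  exact pfin hm he (ptri hn (pkw hm hr) (hc.comp (by fun_prop)))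
    (ptri hn (pkw hm hr) (hc.comp (by fun_prop)))

theorem pallc {cb : (ℕ × ℕ) × (ℕ × ℕ) × (ℕ × ℕ) → ℕ × ℕ} (hc : PT cb) {S : ℕ × ℕ → List ℕ}
    (hS : PT S) {m e P Δ : α → ℕ} {l : α → List ℕ} (hm : PT m) (he : PT e) (hP : PT P)
    (hD : PT Δ) (hl : PT l) : PT fun a => allc cb S (m a) (e a) (P a) (Δ a) (l a) := by
  unfold allc
  refine PT.flatMap (hm.cons hl) (PT.flatMap (prs hS (by fun_prop) (by fun_prop))
    (PT.flatMap (hS.comp (by fun_prop)) (PT.flatMap (by fun_prop) (pout hc ?_ ?_ ?_ ?_ ?_ ?_ ?_))))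
  all_goals fun_prop

section alg

variable {K : Type} [Field K] {θ : K} {m n : ℕ}

theorem ev_mul (h : θ ^ 2 = n) (x y : ℕ × ℕ) : evK θ (kmul n x y) = evK θ x * evK θ y := by
  simp only [evK, kmul]
  push_cast
  linear_combination (-(x.2 : K) * y.2) * h

theorem cube_cases {w a b : K} (hw : w ^ 2 + w + 1 = 0) (h : b ^ 3 = a ^ 3) :
    a = b ∨ a = w * b ∨ a = w * (w * b) := by
  have : (a - b) * ((a - w * b) * (a - w * (w * b))) = 0 := by
    linear_combination (-1 : K) * h +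
      (-a ^ 2 * b + w * a * b ^ 2 - (w - 1) * b ^ 3 ) * hw
  rcases mul_eq_zero.1 this with h1 | h1
  · exact Or.inl (sub_eq_zero.1 h1)
  rcases mul_eq_zero.1 h1 with h1 | h1
  · exact Or.inr (Or.inl (sub_eq_zero.1 h1))
  · exact Or.inr (Or.inr (sub_eq_zero.1 h1))

theorem mem_tri (h : θ ^ 2 = n) {w u : ℕ × ℕ} {a : K} (hw : evK θ w ^ 2 + evK θ w + 1 = 0)
    (hu : evK θ u ^ 3 = a ^ 3) : ∃ x ∈ tri n w u, evK θ x = a := by
  rcases cube_cases hw hu with h1 | h1 | h1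
  · exact ⟨u, by simp [tri], h1.symm⟩
  · exact ⟨kmul n w u, by simp [tri], by rw [ev_mul h, h1]⟩
  · exact ⟨kmul n w (kmul n w u), by simp [tri], by rw [ev_mul h, ev_mul h, h1]⟩

theorem inv_cast [hp : Fact (m + 1).Prime] [CharP K (m + 1)] (a : ℕ)
    (ha : (a : ZMod (m + 1)) ≠ 0) : (minv m a : K) * a = 1 := by
  have := congrArg (ZMod.castHom (dvd_refl (m + 1)) K) (cast_minv m a)
  simpa [ha] using this

theorem small_ne (h3 : 3 < m + 1) (a : ℕ) (h0 : 0 < a) (ha : a ≤ 3) : (a : ZMod (m + 1)) ≠ 0 :=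
  fun h => by have := Nat.le_of_dvd h0 ((ZMod.natCast_eq_zero_iff a (m + 1)).1 h); omega

theorem m_cast [CharP K (m + 1)] : (m : K) = -1 := by
  have := CharP.cast_eq_zero K (m + 1)
  push_cast at this
  linear_combination this

theorem first [hp : Fact (m + 1).Prime] [CharP K (m + 1)]
    (hi : ∀ a b : ℤ, (a : K) + b * θ = 0 → (b : K) = 0) (x : ℕ × ℕ) (z : ZMod (m + 1))
    (h : evK θ x = ZMod.castHom (dvd_refl (m + 1)) K z) : (x.1 : ZMod (m + 1)) = z := by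
  obtain ⟨c, rfl⟩ := ZMod.natCast_zmod_surjective z
  rw [map_natCast] at h
  have h2 := hi (x.1 - c) x.2 (by push_cast; rw [evK] at h; linear_combination h)
  apply (ZMod.castHom (dvd_refl (m + 1)) K).injective
  rw [map_natCast, map_natCast, ← h, evK]
  push_cast at h2
  rw [h2]
  ring

theorem kw_root [hp : Fact (m + 1).Prime] [CharP K (m + 1)] (h3 : 3 < m + 1) (r : ℕ × ℕ)
    (hr : evK θ r ^ 2 = -3) : evK θ (kw m r) ^ 2 + evK θ (kw m r) + 1 = 0 := by
  have i2 : (minv m 2 : K) * 2 = 1 := by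
    simpa using inv_cast (K := K) 2 (small_ne h3 2 (by omega) (by omega))
  have hm : (m : K) = -1 := m_cast
  have hw : evK θ (kw m r) = (evK θ r - 1) * minv m 2 := by
    simp only [evK, kw]; push_cast; rw [hm]; ring
  rw [hw]
  generalize evK θ r = ρ at *
  generalize (minv m 2 : K) = j at *
  linear_combination j ^ 2 * hr - (ρ * j + j + 1) * i2

theorem res {w a b c : K} (hw : w ^ 2 + w + 1 = 0) : 2 * (a + w * b + w ^ 2 * c) ^ 3 =
    (2 * a - b - c) * (2 * b - a - c) * (2 * c - a - b) +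
      3 * ((a - b) * (a - c) * (b - c)) * (2 * w + 1) := by
  linear_combination (2 * w ^ 4 * c ^ 3 + 6 * w ^ 3 * b * c ^ 2 - 2 * w ^ 3 * c ^ 3 +
    6 * w ^ 2 * a * c ^ 2 + 6 * w ^ 2 * b ^ 2 * c - 6 * w ^ 2 * b * c ^ 2 + 12 * w * a * b * c -
    6 * w * a * c ^ 2 + 2 * w * b ^ 3 - 6 * w * b ^ 2 * c + 2 * w * c ^ 3 + 6 * a ^ 2 * c +
    6 * a * b ^ 2 - 12 * a * b * c - 2 * b ^ 3 + 6 * b * c ^ 2 - 2 * c ^ 3) * hw

theorem core {cb : (ℕ × ℕ) × (ℕ × ℕ) × (ℕ × ℕ) → ℕ × ℕ} [hp : Fact (m + 1).Prime]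
    [CharP K (m + 1)] (h3 : 3 < m + 1) (h : θ ^ 2 = n)
    (hi : ∀ a b : ℤ, (a : K) + b * θ = 0 → (b : K) = 0) (e P D : ℕ) (r g : ℕ × ℕ)
    (hr : evK θ r ^ 2 = -3)
    (hcb : ∀ u, (∃ y : K, y ^ 3 = evK θ u) → evK θ (cb ((m, n), u, g)) ^ 3 = evK θ u)
    (z1 z2 z3 : ZMod (m + 1)) (he : (e : ZMod (m + 1)) = z1 + z2 + z3)
    (hP : (P : ZMod (m + 1)) = (2 * z1 - z2 - z3) * (2 * z2 - z1 - z3) * (2 * z3 - z1 - z2))
    (hD : (D : ZMod (m + 1)) = (z1 - z2) * (z1 - z3) * (z2 - z3)) :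
    ∃ c ∈ out cb m n e P D r g, (c : ZMod (m + 1)) = z1 := by
  set φ := ZMod.castHom (dvd_refl (m + 1)) K with hφ
  have i2 : (minv m 2 : K) * 2 = 1 := by simpa using inv_cast (K := K) 2 (small_ne h3 2 (by omega) (by omega))
  have i3 := cast_minv m 3
  rw [if_neg (small_ne h3 3 (by omega) (by omega))] at i3
  have hm : (m : K) = -1 := m_cast
  have he' := congrArg φ he
  have hP' := congrArg φ hP
  have hD' := congrArg φ hD
  simp only [map_natCast, map_add, map_mul, map_sub, map_ofNat] at he' hP' hD'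
  have hw : evK θ (kw m r) = (evK θ r - 1) * minv m 2 := by
    simp only [evK, kw]; push_cast; rw [hm]; ring
  have hU : ∀ D : ℕ, evK θ (kU m P D r) = (P + 3 * D * evK θ r) * minv m 2 := fun D => by
    simp only [evK, kU]; push_cast; ring
  generalize evK θ r = ρ at *
  generalize (minv m 2 : K) = j at *
  have hρ : ρ = 2 * evK θ (kw m r) + 1 := by rw [hw]; linear_combination (1 - ρ) * i2
  have hw2 : evK θ (kw m r) ^ 2 + evK θ (kw m r) + 1 = 0 := by
    have : (4 : K) * (evK θ (kw m r) ^ 2 + evK θ (kw m r) + 1) = 0 := by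
      rw [hρ] at hr; linear_combination hr
    have h4 : (4 : K) ≠ 0 := fun h4 => by
      have : (1 : K) = 0 := by linear_combination j * j * h4 - (2 * j + 1) * i2
      exact one_ne_zero this
    exact (mul_eq_zero.1 this).resolve_left h4
  generalize hwd : evK θ (kw m r) = w at *
  have hu : (φ z1 + w * φ z2 + w ^ 2 * φ z3) ^ 3 = evK θ (kU m P D r) := by
    rw [hU, hP', hD', hρ]
    linear_combination j * res (a := φ z1) (b := φ z2) (c := φ z3) hw2 -
      (φ z1 + w * φ z2 + w ^ 2 * φ z3) ^ 3 * i2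
  have hv : (φ z1 + w ^ 2 * φ z2 + w * φ z3) ^ 3 = evK θ (kU m P (m * D) r) := by
    rw [hU]; push_cast; rw [hP', hD', hρ, hm]
    linear_combination j * res (a := φ z1) (b := φ z3) (c := φ z2) hw2 -
      (φ z1 + w ^ 2 * φ z2 + w * φ z3) ^ 3 * i2
  obtain ⟨x, x1, x2⟩ := mem_tri h (hwd ▸ hw2) ((hcb _ ⟨_, hu⟩).trans hu.symm)
  obtain ⟨y, y1, y2⟩ := mem_tri h (hwd ▸ hw2) ((hcb _ ⟨_, hv⟩).trans hv.symm)
  refine ⟨(e + x.1 + y.1) * minv m 3, ?_, ?_⟩
  · simp only [out, fin, List.mem_flatMap, List.mem_map]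
    exact ⟨x, x1, y, y1, rfl⟩
  · have := first hi (e + x.1 + y.1, x.2 + y.2) (3 * z1) (by
      simp only [evK] at x2 y2 ⊢
      push_cast
      simp only [map_mul, map_ofNat]
      linear_combination he' + x2 + y2 + (φ z2 + φ z3) * hw2)
    push_cast at this i3 ⊢
    rw [this]
    linear_combination z1 * i3

end alg

end R3m

end Vale.Agent.P319
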