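import Vale.Agent.P319.SQ

/-! P319 wave 2, row R3: three residues from their symmetric functions. -/

namespace Vale.Agent.P319

open Vale.Agent.Lib.H24.T Vale.Agent.P338.PTX Polynomial SQm

namespace R3bm

theorem exK (p n : ℕ) (hp : p.Prime) (hn : ¬ IsSquare (n : ZMod p)) :
    ∃ (K : Type) (_ : Field K) (_ : Fintype K) (_ : CharP K p) (θ : K),
      Fintype.card K = p ^ 2 ∧ θ ^ 2 = n ∧ ∀ a b : ℤ, (a : K) + b * θ = 0 → (b : K) = 0 := by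
  haveI := Fact.mk hp
  haveI : Fact (∀ r : ZMod p, r ^ 2 ≠ (n : ZMod p) + 0 * r) :=
    ⟨fun r h => hn ⟨r, by rw [← sq, h]; ring⟩⟩
  letI : Fintype (QuadraticAlgebra (ZMod p) n 0) :=
    Fintype.ofEquiv _ (QuadraticAlgebra.equivProd _ _).symm
  refine ⟨QuadraticAlgebra (ZMod p) n 0, inferInstance, inferInstance,
    charP_of_injective_algebraMap (algebraMap (ZMod p) _).injective p, QuadraticAlgebra.omega,
    ?_, ?_, ?_⟩
  · rw [Fintype.card_congr (QuadraticAlgebra.equivProd _ _), Fintype.card_prod, ZMod.card, sq]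
  · rw [sq, QuadraticAlgebra.omega_mul_omega_eq_mk]
    ext <;> simp
  · intro a b h
    have := congrArg QuadraticAlgebra.im h
    ext
    · simpa using this
    · simp

abbrev Inp : Type := ℕ × (ℕ × ℕ × ℕ) × ℕ × ℕ

def UU (x : Inp) : ℕ × ℕ :=
  ((x.2.2.1 + 3 * (2 * x.2.1.2.1 + 1) * x.2.2.2) * minv x.1 2, 3 * x.2.1.2.2 * x.2.2.2)

def GG (x : Inp) (t : ℕ × ℕ × ℕ) : ℕ × ℕ :=
  (t.1 + x.1 * t.2.2 + (t.2.1 + x.1 * t.2.2) * x.2.1.2.1, (t.2.1 + x.1 * t.2.2) * x.2.1.2.2)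

def f1 (x : Inp) (Y : ℕ × ℕ) : ℕ := x.2.1.2.1 * Y.1 + x.2.1.1 * x.2.1.2.2 * Y.2

def fs (q : Inp × (ℕ × ℕ)) : List ℕ := [q.2.1, f1 q.1 q.2, q.1.1 * (q.2.1 + f1 q.1 q.2)]

def G3 (l : List ℕ) : List (ℕ × ℕ × ℕ) :=
  l.flatMap fun a => l.flatMap fun b => l.map fun c => (a, b, c)

def TT (A : ℕ) (cb : (ℕ × ℕ) × (ℕ × ℕ) × (ℕ × ℕ) → ℕ × ℕ) (x : Inp) : List ℕ :=
  (G3 (gs A x.1)).flatMap fun t => fs (x, cb ((x.1, x.2.1.1), UU x, GG x t))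

theorem ptU : PT UU :=
  ((PT.id.snd.snd.fst.add (((PT.const 3).mul (((PT.const 2).mul PT.id.snd.fst.snd.fst).add
    (PT.const 1))).mul PT.id.snd.snd.snd)).mul (pt_minv PT.id.fst (PT.const 2))).pair
    (((PT.const 3).mul PT.id.snd.fst.snd.snd).mul PT.id.snd.snd.snd)

theorem ptG : PT fun q : Inp × (ℕ × ℕ × ℕ) => GG q.1 q.2 := by
  have h0 : PT fun q : Inp × (ℕ × ℕ × ℕ) => q.1.1 * q.2.2.2 := PT.id.fst.fst.mul PT.id.snd.snd.snd
  have h1 : PT fun q : Inp × (ℕ × ℕ × ℕ) => q.2.2.1 + q.1.1 * q.2.2.2 := PT.id.snd.snd.fst.add h0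
  exact ((PT.id.snd.fst.add h0).add (h1.mul PT.id.fst.snd.fst.snd.fst)).pair
    (h1.mul PT.id.fst.snd.fst.snd.snd)

theorem ptfs : PT fs := by
  have h : PT fun q : Inp × (ℕ × ℕ) => f1 q.1 q.2 :=
    (PT.id.fst.snd.fst.snd.fst.mul PT.id.snd.fst).add
      ((PT.id.fst.snd.fst.fst.mul PT.id.fst.snd.fst.snd.snd).mul PT.id.snd.snd)
  exact PT.id.snd.fst.cons (pt_l2 h (PT.id.fst.fst.mul (PT.id.snd.fst.add h)))

theorem ptG3 : PT G3 :=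
  PT.flatMap (g := fun (l : List ℕ) a => l.flatMap fun b => l.map fun c => (a, b, c)) PT.id
    (PT.flatMap (g := fun (q : List ℕ × ℕ) b => q.1.map fun c => (q.2, b, c)) PT.id.fst
      (PT.map (g := fun (r : (List ℕ × ℕ) × ℕ) c => (r.1.2, r.2, c)) PT.id.fst.fst
        (PT.id.fst.fst.snd.pair (PT.id.fst.snd.pair PT.id.snd))))

theorem ptT (A : ℕ) {cb : (ℕ × ℕ) × (ℕ × ℕ) × (ℕ × ℕ) → ℕ × ℕ} (h : PT cb) : PT (TT A cb) :=
  PT.flatMap (g := fun (x : Inp) t => fs (x, cb ((x.1, x.2.1.1), UU x, GG x t)))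
    (ptG3.comp (pt_gs A PT.id.fst))
    (ptfs.comp (PT.id.fst.pair (h.comp ((PT.id.fst.fst.pair PT.id.fst.snd.fst.fst).pair
      ((ptU.comp PT.id.fst).pair ptG)))))

abbrev In4 : Type := ℕ × ℕ × ℕ × ℕ

def L1 (B : ℕ) (S : ℕ × ℕ → List ℕ) (m : ℕ) : List (ℕ × ℕ × ℕ) :=
  (3 * m, m * minv m 2, minv m 2) ::
    (m :: gs B m).flatMap fun n => (S (m, 3 * m)).map fun s => (n, (m + s) * minv m 2, 0)

def PP3 (x : In4) : ℕ := 2 * (x.2.1 * x.2.1 * x.2.1) + 27 * x.2.2.2 + x.1 * (9 * (x.2.1 * x.2.2.1))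

def DI (x : In4) : ℕ :=
  x.2.1 * x.2.1 * (x.2.2.1 * x.2.2.1) + 18 * (x.2.1 * x.2.2.1 * x.2.2.2) +
    x.1 * (4 * (x.2.2.1 * x.2.2.1 * x.2.2.1) + 4 * (x.2.1 * x.2.1 * x.2.1 * x.2.2.2) +
      27 * (x.2.2.2 * x.2.2.2))

def fin2 (y : In4 × List ℕ × List ℕ) : List ℕ :=
  y.2.1.flatMap fun r => y.2.2.map fun s => (y.1.2.1 + r + s) * minv y.1.1 3

def RR (B : ℕ) (S : ℕ × ℕ → List ℕ) (T : Inp → List ℕ) (x : In4) : List ℕ :=
  (L1 B S x.1).flatMap fun t => (S (x.1, DI x)).flatMap fun D =>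
    fin2 (x, T (x.1, t, PP3 x, D), T (x.1, t, PP3 x, x.1 * D))

theorem ptL1 (B : ℕ) {S : ℕ × ℕ → List ℕ} (hS : PT S) : PT (L1 B S) := by
  have h2 : PT fun m : ℕ => minv m 2 := pt_minv PT.id (PT.const 2)
  have h3 : PT fun m : ℕ => 3 * m := (PT.const 3).mul PT.id
  exact (h3.pair ((PT.id.mul h2).pair h2)).cons
    (PT.flatMap (g := fun (m : ℕ) n => (S (m, 3 * m)).map fun s => (n, (m + s) * minv m 2, 0))
      (PT.id.cons (pt_gs B PT.id))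
      (PT.map (g := fun (q : ℕ × ℕ) s => (q.2, (q.1 + s) * minv q.1 2, 0))
        ((hS.comp (PT.id.pair h3)).comp PT.id.fst)
        (PT.id.fst.snd.pair (((PT.id.fst.fst.add PT.id.snd).mul (h2.comp PT.id.fst.fst)).pair
          (PT.const 0)))))

theorem hm : PT fun x : In4 => x.1 := PT.id.fst
theorem h1 : PT fun x : In4 => x.2.1 := PT.id.snd.fst
theorem h2 : PT fun x : In4 => x.2.2.1 := PT.id.snd.snd.fst
theorem h3 : PT fun x : In4 => x.2.2.2 := PT.id.snd.snd.snd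

theorem ptP : PT PP3 :=
  (((PT.const 2).mul ((h1.mul h1).mul h1)).add ((PT.const 27).mul h3)).add
    (hm.mul ((PT.const 9).mul (h1.mul h2)))

theorem ptD : PT DI :=
  (((h1.mul h1).mul (h2.mul h2)).add ((PT.const 18).mul ((h1.mul h2).mul h3))).add
    (hm.mul ((((PT.const 4).mul ((h2.mul h2).mul h2)).add
      ((PT.const 4).mul (((h1.mul h1).mul h1).mul h3))).add ((PT.const 27).mul (h3.mul h3))))

theorem ptF : PT fin2 :=
  PT.flatMap (g := fun (y : In4 × List ℕ × List ℕ) r => y.2.2.map fun s =>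
      (y.1.2.1 + r + s) * minv y.1.1 3) PT.id.snd.fst
    (PT.map (g := fun (q : (In4 × List ℕ × List ℕ) × ℕ) s =>
        (q.1.1.2.1 + q.2 + s) * minv q.1.1.1 3) PT.id.fst.snd.snd
      (((PT.id.fst.fst.fst.snd.fst.add PT.id.fst.snd).add PT.id.snd).mul
        (pt_minv PT.id.fst.fst.fst.fst (PT.const 3))))

theorem ptR (B : ℕ) {S : ℕ × ℕ → List ℕ} {T : Inp → List ℕ} (hS : PT S) (hT : PT T) :
    PT (RR B S T) :=
  PT.flatMap (g := fun (x : In4) t => (S (x.1, DI x)).flatMap fun D =>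
      fin2 (x, T (x.1, t, PP3 x, D), T (x.1, t, PP3 x, x.1 * D))) ((ptL1 B hS).comp hm)
    (PT.flatMap (g := fun (q : In4 × (ℕ × ℕ × ℕ)) D =>
        fin2 (q.1, T (q.1.1, q.2, PP3 q.1, D), T (q.1.1, q.2, PP3 q.1, q.1.1 * D)))
      ((hS.comp (hm.pair ptD)).comp PT.id.fst)
      (ptF.comp (PT.id.fst.fst.pair
        ((hT.comp (PT.id.fst.fst.fst.pair (PT.id.fst.snd.pair
          ((ptP.comp PT.id.fst.fst).pair PT.id.snd)))).pair
        (hT.comp (PT.id.fst.fst.fst.pair (PT.id.fst.snd.pair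
          ((ptP.comp PT.id.fst.fst).pair (PT.id.fst.fst.fst.mul PT.id.snd)))))))))

theorem inv6 (m a : ℕ) (hp : (m + 1).Prime) (h3 : 3 < m + 1) (ha : a ∣ 6) :
    (minv m a : ZMod (m + 1)) * a = 1 := by
  haveI := Fact.mk hp
  rw [cast_minv, if_neg]
  rw [ZMod.natCast_eq_zero_iff]
  intro h
  have h12 : m + 1 ∣ 2 * 3 := h.trans ha
  rcases (Nat.Prime.dvd_mul hp).1 h12 with k | k <;>
  · have := Nat.le_of_dvd (by norm_num) k; omega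

theorem L1_spec (B : ℕ) (S : ℕ × ℕ → List ℕ) (m : ℕ) (hp : (m + 1).Prime) (h3 : 3 < m + 1)
    (hB : (m + 1) % 4 = 1 → ∃ g ≤ ((m + 1).size + 2) ^ B, ¬ IsSquare (g : ZMod (m + 1)))
    (hS : ∀ (a : ℕ) (y : ZMod (m + 1)), (a : ZMod (m + 1)) = y ^ 2 →
      ∃ c ∈ S (m, a), (c : ZMod (m + 1)) = y) :
    ∃ t ∈ L1 B S m, ¬ IsSquare (t.1 : ZMod (m + 1)) ∧
      (t.2.1 : ZMod (m + 1)) ^ 2 + t.1 * t.2.2 ^ 2 + t.2.1 + 1 = 0 ∧
      2 * (t.2.1 : ZMod (m + 1)) * t.2.2 + t.2.2 = 0 := by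
  haveI := Fact.mk hp
  have hm : (m : ZMod (m + 1)) = -1 := eq_neg_of_add_eq_zero_left (by
    exact_mod_cast ZMod.natCast_self (m + 1))
  have i2 := inv6 m 2 hp h3 (by norm_num)
  push_cast at i2
  by_cases hq : IsSquare ((3 * m : ℕ) : ZMod (m + 1))
  · obtain ⟨y, hy⟩ := hq
    obtain ⟨s, s1, s2⟩ := hS (3 * m) y (by rw [hy, sq])
    obtain ⟨n, n1, n2⟩ : ∃ n ∈ m :: gs B m, ¬ IsSquare (n : ZMod (m + 1)) := by
      by_cases h4 : (m + 1) % 4 = 1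
      · obtain ⟨g, g1, g2⟩ := hB h4
        exact ⟨g, List.mem_cons_of_mem _ (mem_gs B m g g1), g2⟩
      · refine ⟨m, List.mem_cons_self, ?_⟩
        rw [hm, ZMod.exists_sq_eq_neg_one_iff]
        have := hp.eq_two_or_odd
        omega
    refine ⟨(n, (m + s) * minv m 2, 0), List.mem_cons_of_mem _
      (List.mem_flatMap.2 ⟨n, n1, List.mem_map.2 ⟨s, s1, rfl⟩⟩), n2, ?_, by simp⟩
    push_cast at hy ⊢
    rw [hm] at hy ⊢
    rw [s2]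
    generalize (minv m 2 : ZMod (m + 1)) = h at *
    linear_combination (-h ^ 2) * hy + (-(h * y) - 1 - h) * i2
  · refine ⟨_, List.mem_cons_self, hq, ?_, ?_⟩
    · push_cast
      rw [hm]
      generalize (minv m 2 : ZMod (m + 1)) = h at *
      linear_combination (-h - 1) * i2
    · push_cast
      rw [hm]
      generalize (minv m 2 : ZMod (m + 1)) = h at *
      linear_combination (-h) * i2

theorem T_spec (A : ℕ) (cb : (ℕ × ℕ) × (ℕ × ℕ) × (ℕ × ℕ) → ℕ × ℕ) (m n wa wb P D : ℕ)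
    (K : Type) [Field K] (θ w u : K) (hm : (m : K) = -1) (i2 : (minv m 2 : K) * 2 = 1)
    (hθ : θ ^ 2 = n) (hw : w = wa + wb * θ) (hw2 : w ^ 2 + w + 1 = 0)
    (hu : 2 * u ^ 3 = P + 3 * (2 * w + 1) * D)
    (hN : ∃ a b c : ℕ, a ≤ ((m + 1).size + 2) ^ A ∧ b ≤ ((m + 1).size + 2) ^ A ∧
      c ≤ ((m + 1).size + 2) ^ A ∧ (a : K) + b * w + c * w ^ 2 ≠ 0 ∧
      ((a : K) + b * w + c * w ^ 2) ^ (((m + 1) ^ 2 - 1) / 3) ≠ 1)
    (hC : ∀ U g : ℕ × ℕ, (∃ y : K, y ^ 3 = evK θ U) → evK θ g ≠ 0 →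
      evK θ g ^ (((m + 1) ^ 2 - 1) / 3) ≠ 1 → evK θ (cb ((m, n), U, g)) ^ 3 = evK θ U) :
    ∃ r ∈ TT A cb (m, (n, wa, wb), P, D), ∃ y : ℕ, u = r + y * θ := by
  obtain ⟨a, b, c, ha, hb, hc, g0, g1⟩ := hN
  have eg : evK θ (GG (m, (n, wa, wb), P, D) (a, b, c)) = a + b * w + c * w ^ 2 := by
    simp only [evK, GG]
    push_cast
    rw [hm]
    linear_combination (-(b : K) + c) * hw - c * hw2
  have eu : u ^ 3 = evK θ (UU (m, (n, wa, wb), P, D)) := by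
    simp only [evK, UU]
    push_cast
    generalize (minv m 2 : K) = h at *
    linear_combination h * hu + 6 * h * D * hw + (-u ^ 3 + 3 * wb * D * θ) * i2
  have k := hC _ _ ⟨u, eu⟩ (by rw [eg]; exact g0) (by rw [eg]; exact g1)
  rw [← eu] at k
  have mem : ∀ r ∈ fs ((m, (n, wa, wb), P, D), cb ((m, n), UU (m, (n, wa, wb), P, D),
      GG (m, (n, wa, wb), P, D) (a, b, c))), r ∈ TT A cb (m, (n, wa, wb), P, D) := fun r hr =>
    List.mem_flatMap.2 ⟨(a, b, c), List.mem_flatMap.2 ⟨a, mem_gs A m a ha, List.mem_flatMap.2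
      ⟨b, mem_gs A m b hb, List.mem_map.2 ⟨c, mem_gs A m c hc, rfl⟩⟩⟩, hr⟩
  generalize cb ((m, n), UU (m, (n, wa, wb), P, D), GG (m, (n, wa, wb), P, D) (a, b, c)) = Y at *
  obtain ⟨x, y⟩ := Y
  simp only [evK] at k
  obtain ⟨Z, hZ⟩ : ∃ Z : K, Z = x + y * θ := ⟨_, rfl⟩
  rw [← hZ] at k
  have e : (u - Z) * ((u - w * Z) * (u - w ^ 2 * Z)) = 0 := by
    linear_combination (-1) * k + (u - Z) * (Z ^ 2 * (w - 1) - u * Z) * hw2
  have e1 : w * Z = (wa * x + n * wb * y : ℕ) + (wa * y + wb * x : ℕ) * θ := by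
    push_cast
    rw [hw, hZ]
    linear_combination (wb * y : K) * hθ
  rcases mul_eq_zero.1 e with e | e
  · exact ⟨x, mem _ (by simp [fs]), y, by rw [← hZ]; exact sub_eq_zero.1 e⟩
  rcases mul_eq_zero.1 e with e | e
  · exact ⟨_, mem _ (by simp [fs, f1]), _, (sub_eq_zero.1 e).trans e1⟩
  · refine ⟨m * (x + (wa * x + n * wb * y)), mem _ (by simp [fs, f1]),
      m * (y + (wa * y + wb * x)), ?_⟩
    push_cast at e1 ⊢
    rw [hm]
    linear_combination e + Z * hw2 - e1 - hZ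

end R3bm

open R3bm in
theorem r3Sb (hNC : NCStmt) (hCB : CBStmt) (hSQ : SQStmt) : R3Stmt := by
  obtain ⟨A, hA⟩ := hNC
  obtain ⟨cb, hcb, sC⟩ := hCB
  obtain ⟨S, hS, sS⟩ := hSQ
  obtain ⟨B, hB⟩ := nonres
  refine ⟨RR B S (TT A cb), ptR B hS (ptT A hcb), ?_⟩
  intro m e1 e2 e3 hp h3 z1 z2 z3 a1 a2 a3
  haveI := Fact.mk hp
  have hm : (m : ZMod (m + 1)) = -1 := eq_neg_of_add_eq_zero_left (by
    exact_mod_cast ZMod.natCast_self (m + 1))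
  have i2 := inv6 m 2 hp h3 (by norm_num)
  have i3 := inv6 m 3 hp h3 (by norm_num)
  obtain ⟨⟨n, wa, wb⟩, t1, t2, t3, t4⟩ := L1_spec B S m hp h3 (hB _ hp) (fun a => sS m a hp h3)
  simp only at t2 t3 t4
  obtain ⟨K, _, _, _, θ, k1, k2, k3⟩ := exK (m + 1) n hp t2
  obtain ⟨D, d1, d2⟩ := sS m (DI (m, e1, e2, e3)) hp h3 ((z1 - z2) * (z1 - z3) * (z2 - z3)) (by
    simp only [DI]
    push_cast
    rw [hm, a1, a2, a3]
    ring)
  have p1 : (PP3 (m, e1, e2, e3) : ZMod (m + 1)) = 2 * (z1 + z2 + z3) ^ 3 + 27 * (z1 * z2 * z3) -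
      9 * ((z1 + z2 + z3) * (z1 * z2 + z1 * z3 + z2 * z3)) := by
    simp only [PP3]
    push_cast
    rw [hm, a1, a2, a3]
    ring
  let φ : ZMod (m + 1) →+* K := ZMod.castHom (dvd_refl _) K
  have hm' := congrArg φ hm
  have i2' := congrArg φ i2
  have t3' := congrArg φ t3
  have t4' := congrArg φ t4
  have d2' := congrArg φ d2
  have p1' := congrArg φ p1
  have a1' := congrArg φ a1
  simp only [map_natCast, map_neg, map_one, map_mul, map_add, map_sub, map_pow, map_zero,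
    map_ofNat, Nat.cast_ofNat] at hm' i2' t3' t4' d2' p1' a1'
  obtain ⟨w, hw⟩ : ∃ w : K, w = wa + wb * θ := ⟨_, rfl⟩
  have hw2 : w ^ 2 + w + 1 = 0 := by
    rw [hw]
    linear_combination t3' + θ * t4' + (wb : K) ^ 2 * k2
  have hN := hA (m + 1) hp h3 K w hw2
  have hC := fun U g => sC m n U g K θ hp h3 k1 k2 k3
  generalize hx1 : φ z1 = x1 at *
  generalize φ z2 = x2 at *
  generalize φ z3 = x3 at *
  obtain ⟨r, r1, y, r2⟩ := T_spec A cb m n wa wb (PP3 (m, e1, e2, e3)) D K θ w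
    (x1 + w * x2 + w ^ 2 * x3) hm' i2' k2 hw hw2 (by
      rw [p1', d2']
      linear_combination (2 * w ^ 4 * x3 ^ 3 + 6 * w ^ 3 * x2 * x3 ^ 2 - 2 * w ^ 3 * x3 ^ 3 +
        6 * w ^ 2 * x1 * x3 ^ 2 + 6 * w ^ 2 * x2 ^ 2 * x3 - 6 * w ^ 2 * x2 * x3 ^ 2 +
        12 * w * x1 * x2 * x3 - 6 * w * x1 * x3 ^ 2 + 2 * w * x2 ^ 3 - 6 * w * x2 ^ 2 * x3 +
        2 * w * x3 ^ 3 + 6 * x1 ^ 2 * x3 + 6 * x1 * x2 ^ 2 - 12 * x1 * x2 * x3 - 2 * x2 ^ 3 +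
        6 * x2 * x3 ^ 2 - 2 * x3 ^ 3) * hw2) hN hC
  obtain ⟨s, s1, y', s2⟩ := T_spec A cb m n wa wb (PP3 (m, e1, e2, e3)) (m * D) K θ w
    (x1 + w ^ 2 * x2 + w * x3) hm' i2' k2 hw hw2 (by
      push_cast
      rw [p1', d2', hm']
      linear_combination (2 * w ^ 4 * x2 ^ 3 - 2 * w ^ 3 * x2 ^ 3 + 6 * w ^ 3 * x2 ^ 2 * x3 +
        6 * w ^ 2 * x1 * x2 ^ 2 - 6 * w ^ 2 * x2 ^ 2 * x3 + 6 * w ^ 2 * x2 * x3 ^ 2 -
        6 * w * x1 * x2 ^ 2 + 12 * w * x1 * x2 * x3 + 2 * w * x2 ^ 3 - 6 * w * x2 * x3 ^ 2 +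
        2 * w * x3 ^ 3 + 6 * x1 ^ 2 * x2 - 12 * x1 * x2 * x3 + 6 * x1 * x3 ^ 2 - 2 * x2 ^ 3 +
        6 * x2 ^ 2 * x3 - 2 * x3 ^ 3) * hw2) hN hC
  refine ⟨(e1 + r + s) * minv m 3, List.mem_flatMap.2 ⟨_, t1, List.mem_flatMap.2 ⟨D, d1,
    List.mem_flatMap.2 ⟨r, r1, List.mem_map.2 ⟨s, s1, rfl⟩⟩⟩⟩, ?_⟩
  have e0 : 3 * x1 = e1 + r + s + (y + y') * θ := by
    linear_combination r2 + s2 - a1' - (x2 + x3) * hw2
  have hz : x1 = (z1.val : K) := by rw [← hx1, ← map_natCast φ, ZMod.natCast_zmod_val]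
  have e2' := k3 (e1 + r + s - 3 * z1.val) (y + y') (by
    push_cast
    rw [← hz]
    linear_combination -e0)
  push_cast at e2'
  have e3' : φ (3 * z1) = φ (e1 + r + s) := by
    simp only [map_natCast, map_mul, map_add, map_ofNat, hx1]
    linear_combination e0 + θ * e2'
  have e4 := φ.injective e3'
  push_cast at i3 ⊢
  linear_combination z1 * i3 - (minv m 3 : ZMod (m + 1)) * e4

end Vale.Agent.P319
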