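import Vale.Agent.P319.R3a

/-! P319 wave 2: roots of a split cubic, given a small nonsquare. -/

namespace Vale.Agent.P319

open Vale.Agent.Lib.H24.T Vale.Agent.P338.PTX

namespace R3m

theorem mem_rs {K : Type} [Field K] {θ : K} {m n : ℕ} [hp : Fact (m + 1).Prime] [CharP K (m + 1)]
    (h3 : 3 < m + 1) (h : θ ^ 2 = n) (hn : ¬ IsSquare (n : ZMod (m + 1))) {S : ℕ × ℕ → List ℕ}
    (hS : ∀ (a : ℕ) (y : ZMod (m + 1)), (a : ZMod (m + 1)) = y ^ 2 →
      ∃ c ∈ S (m, a), (c : ZMod (m + 1)) = y) : ∃ r ∈ rs S m n, evK θ r ^ 2 = -3 := by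
  have hm : (m : K) = -1 := m_cast
  have hn0 : (n : ZMod (m + 1)) ≠ 0 := fun h0 => hn (h0 ▸ IsSquare.zero)
  have i1 := cast_minv m n
  rw [if_neg hn0] at i1
  by_cases hs : IsSquare ((3 * m : ℕ) : ZMod (m + 1))
  · obtain ⟨y, hy⟩ := hs
    obtain ⟨c, c1, c2⟩ := hS (3 * m) y (by rw [hy, sq])
    refine ⟨(c, 0), List.mem_append_left _ (List.mem_map.2 ⟨c, c1, rfl⟩), ?_⟩
    rw [← c2] at hy
    have := congrArg (ZMod.castHom (dvd_refl (m + 1)) K) hy
    simp only [map_natCast, map_mul] at this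
    push_cast at this
    simp only [evK]
    push_cast
    linear_combination 3 * hm - this
  · have hq : IsSquare ((3 * m * minv m n : ℕ) : ZMod (m + 1)) := by
      have hi : ¬ IsSquare ((minv m n : ℕ) : ZMod (m + 1)) := fun ⟨y, hy⟩ =>
        hn ⟨y * n, by linear_combination (n : ZMod (m + 1)) * n * hy - n * i1⟩
      have a1 := quadraticChar_neg_one_iff_not_isSquare.2 hs
      have a2 := quadraticChar_neg_one_iff_not_isSquare.2 hi
      have a3 : quadraticChar (ZMod (m + 1)) ((3 * m * minv m n : ℕ) : ZMod (m + 1)) = 1 := by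
        rw [Nat.cast_mul, map_mul, a1, a2]; norm_num
      by_contra hc
      rw [quadraticChar_neg_one_iff_not_isSquare.2 hc] at a3
      norm_num at a3
    obtain ⟨y, hy⟩ := hq
    obtain ⟨c, c1, c2⟩ := hS _ y (by rw [hy, sq])
    refine ⟨(0, c), List.mem_append_right _ (List.mem_map.2 ⟨c, c1, rfl⟩), ?_⟩
    rw [← c2] at hy
    have := congrArg (ZMod.castHom (dvd_refl (m + 1)) K) hy
    have i2 := inv_cast (K := K) n hn0
    simp only [map_natCast, map_mul] at this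
    push_cast at this
    simp only [evK]
    push_cast
    linear_combination (c : K) * c * h - n * this + 3 * m * i2 + 3 * hm

theorem main (hNC : NCStmt) (hCB : CBStmt) (hSQ : SQStmt)
    (hN : ∃ A : ℕ, ∀ p : ℕ, p.Prime → p % 4 = 1 → ∃ g ≤ (p.size + 2) ^ A, ¬ IsSquare (g : ZMod p)) :
    R3Stmt := by
  obtain ⟨A, hA⟩ := hNC
  obtain ⟨B, hB⟩ := hN
  obtain ⟨cb, pcb, hcb⟩ := hCB
  obtain ⟨S, pS, hS⟩ := hSQ
  refine ⟨fun x => allc cb S x.1 x.2.1
    (2 * x.2.1 * x.2.1 * x.2.1 + x.1 * (9 * x.2.1 * x.2.2.1) + 27 * x.2.2.2)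
    (x.2.1 * x.2.1 * x.2.2.1 * x.2.2.1 + 18 * x.2.1 * x.2.2.1 * x.2.2.2 +
      x.1 * (4 * x.2.2.1 * x.2.2.1 * x.2.2.1 + 4 * x.2.1 * x.2.1 * x.2.1 * x.2.2.2 +
        27 * x.2.2.2 * x.2.2.2))
    (List.range (false :: un (false :: false :: (x.1 + 1).bits) (A + B)).length),
    pallc pcb pS (by fun_prop) (by fun_prop) (by fun_prop) (by fun_prop)
      (PT.range_length ((PT.const false).cons (pt_un ((PT.const false).cons
        ((PT.const false).cons PT.id.fst.succ.bits)) (A + B)))), ?_⟩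
  intro m e1 e2 e3 hp h3 z1 z2 z3 h1 h2 h4
  have := Fact.mk hp
  have hl : ∀ C g, C ≤ A + B → g ≤ ((m + 1).size + 2) ^ C →
      g ∈ List.range (false :: un (false :: false :: (m + 1).bits) (A + B)).length := by
    intro C g hC hg
    have := Nat.pow_le_pow_right (n := (m + 1).size + 2) (by omega) hC
    rw [List.mem_range, List.length_cons, length_un, List.length_cons, List.length_cons,
      Nat.size_eq_bits_len]
    exact Nat.lt_succ_of_le (hg.trans this)
  dsimp only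
  generalize List.range (false :: un (false :: false :: (m + 1).bits) (A + B)).length = l at hl ⊢
  have hm : (m : ZMod (m + 1)) = -1 := m_cast
  obtain ⟨n, n1, n2⟩ : ∃ n ∈ m :: l, ¬ IsSquare (n : ZMod (m + 1)) := by
    by_cases h : (m + 1) % 4 = 3
    · exact ⟨m, List.mem_cons_self, by
        rw [hm, ZMod.exists_sq_eq_neg_one_iff]; simpa using h⟩
    · obtain ⟨g, g1, g2⟩ := hB _ hp (by have := hp.eq_two_or_odd; omega)
      exact ⟨g, List.mem_cons_of_mem _ (hl B g (by omega) g1), g2⟩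
  have : Fact (∀ r : ZMod (m + 1), r ^ 2 ≠ (n : ZMod (m + 1)) + 0 * r) :=
    ⟨fun r hr => n2 ⟨r, by linear_combination -hr⟩⟩
  let K := QuadraticAlgebra (ZMod (m + 1)) (n : ZMod (m + 1)) 0
  let θ : K := QuadraticAlgebra.omega
  let _ : Fintype K := Fintype.ofEquiv _ (QuadraticAlgebra.equivProd _ _).symm
  have hK : Fintype.card K = (m + 1) ^ 2 := by
    rw [Fintype.ofEquiv_card, Fintype.card_prod, ZMod.card, sq]
  have : CharP K (m + 1) := charP_of_injective_algebraMap QuadraticAlgebra.algebraMap_injective _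
  have hθ : θ ^ 2 = n := by
    rw [sq, QuadraticAlgebra.omega_mul_omega_eq_mk]; rfl
  have hi : ∀ a b : ℤ, (a : K) + b * θ = 0 → (b : K) = 0 := fun a b h => by
    have h5 : (0 : ZMod (m + 1)) + ((b : ZMod (m + 1)) * 1 + 0 * 0 + 0 * 0 * 1) = 0 :=
      congrArg QuadraticAlgebra.im h
    have h6 : (b : ZMod (m + 1)) = 0 := by linear_combination h5
    rw [← map_intCast (algebraMap (ZMod (m + 1)) K), h6, map_zero]
  obtain ⟨r, r1, r2⟩ := mem_rs h3 hθ n2 (fun a y => hS m a hp h3 y)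
  obtain ⟨D, D1, D2⟩ := hS m (e1 * e1 * e2 * e2 + 18 * e1 * e2 * e3 +
      m * (4 * e2 * e2 * e2 + 4 * e1 * e1 * e1 * e3 + 27 * e3 * e3)) hp h3
      ((z1 - z2) * (z1 - z3) * (z2 - z3)) (by push_cast; rw [h1, h2, h4, hm]; ring)
  obtain ⟨a, b, c, a1, b1, c1, g1, g2⟩ := hA _ hp h3 K _ (kw_root h3 r r2)
  have hg : evK θ (kg n a b c (kw m r)) = a + b * evK θ (kw m r) + c * evK θ (kw m r) ^ 2 := by
    rw [sq, ← ev_mul hθ]
    simp only [evK, kg]
    push_cast
    ring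
  obtain ⟨x, x1, x2⟩ := core (cb := cb) h3 hθ hi e1
    (2 * e1 * e1 * e1 + m * (9 * e1 * e2) + 27 * e3) D r (kg n a b c (kw m r)) r2
    (fun u hu => hcb m n u _ K θ hp h3 hK hθ hi hu (hg ▸ g1) (hg ▸ g2)) z1 z2 z3 h1
    (by push_cast; rw [h1, h2, h4, hm]; ring) D2
  refine ⟨x, ?_, x2⟩
  simp only [allc, List.mem_flatMap]
  refine ⟨n, n1, r, r1, D, D1, _, ?_, x1⟩
  simp only [gs, List.mem_flatMap, List.mem_map]
  exact ⟨a, hl A a (by omega) a1, b, hl A b (by omega) b1, c, hl A c (by omega) c1, rfl⟩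

end R3m

end Vale.Agent.P319
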