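import Vale.Agent.P319.Spec4

/-! P319 wave 2, row RT: four residues from their power sums. -/

namespace Vale.Agent.P319

open Vale.Agent.Lib.H24.T

namespace RTm

abbrev Inp : Type := ℕ × ℕ × ℕ × ℕ × ℕ

def E1 (x : Inp) : ℕ := 4 * x.2.2.1 + x.1 * (x.2.1 * x.2.1)
def PI (x : Inp) : ℕ :=
  (16 * x.2.2.2.1 + x.1 * (x.2.1 * x.2.1 * x.2.1 + 3 * x.2.1 * E1 x)) * minv x.1 6
def E2 (x : Inp) : ℕ :=
  (64 * x.2.2.2.2 + x.1 * (x.2.1 * x.2.1 * (x.2.1 * x.2.1) + 6 * (x.2.1 * x.2.1) * E1 x +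
    24 * x.2.1 * PI x + E1 x * E1 x)) * minv x.1 4

def LL (R : ℕ × ℕ × ℕ × ℕ → List ℕ) (S : ℕ × ℕ → List ℕ) (x : Inp) : List ℕ :=
  (R (x.1, E1 x, E2 x, PI x * PI x)).flatMap fun z => S (x.1, z)

def fin (y : Inp × List ℕ) : List ℕ :=
  y.2.flatMap fun a => y.2.flatMap fun b => y.2.map fun c => (y.1.2.1 + a + b + c) * minv y.1.1 4

theorem hm : PT fun x : Inp => x.1 := PT.id.fst
theorem h1 : PT fun x : Inp => x.2.1 := PT.id.snd.fst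
theorem h2 : PT fun x : Inp => x.2.2.1 := PT.id.snd.snd.fst
theorem h3 : PT fun x : Inp => x.2.2.2.1 := PT.id.snd.snd.snd.fst
theorem h4 : PT fun x : Inp => x.2.2.2.2 := PT.id.snd.snd.snd.snd

theorem ptE1 : PT E1 := ((PT.const 4).mul h2).add (hm.mul (h1.mul h1))
theorem ptPI : PT PI :=
  (((PT.const 16).mul h3).add (hm.mul (((h1.mul h1).mul h1).add (((PT.const 3).mul h1).mul ptE1)))).mul
    (pt_minv hm (PT.const 6))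
theorem ptE2 : PT E2 :=
  (((PT.const 64).mul h4).add (hm.mul (((((h1.mul h1).mul (h1.mul h1)).add
    (((PT.const 6).mul (h1.mul h1)).mul ptE1)).add (((PT.const 24).mul h1).mul ptPI)).add
    (ptE1.mul ptE1)))).mul (pt_minv hm (PT.const 4))

theorem ptL {R : ℕ × ℕ × ℕ × ℕ → List ℕ} {S : ℕ × ℕ → List ℕ} (hR : PT R) (hS : PT S) :
    PT (LL R S) :=
  PT.flatMap (g := fun (x : Inp) z => S (x.1, z))
    (hR.comp (hm.pair (ptE1.pair (ptE2.pair (ptPI.mul ptPI)))))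
    (hS.comp (PT.id.fst.fst.pair PT.id.snd))

theorem ptF : PT fin :=
  PT.flatMap (g := fun (y : Inp × List ℕ) a => y.2.flatMap fun b => y.2.map fun c =>
      (y.1.2.1 + a + b + c) * minv y.1.1 4) PT.id.snd
    (PT.flatMap (g := fun (q : (Inp × List ℕ) × ℕ) b => q.1.2.map fun c =>
        (q.1.1.2.1 + q.2 + b + c) * minv q.1.1.1 4) PT.id.fst.snd
      (PT.map (g := fun (r : ((Inp × List ℕ) × ℕ) × ℕ) c =>
          (r.1.1.1.2.1 + r.1.2 + r.2 + c) * minv r.1.1.1.1 4) PT.id.fst.fst.snd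
        ((((PT.id.fst.fst.fst.fst.snd.fst.add PT.id.fst.fst.snd).add PT.id.fst.snd).add
          PT.id.snd).mul (pt_minv PT.id.fst.fst.fst.fst.fst (PT.const 4)))))

end RTm

open RTm in
theorem rtS (h3 : R3Stmt) (hSQ : SQStmt) : RTStmt := by
  obtain ⟨R, hR, sR⟩ := h3
  obtain ⟨S, hS, sS⟩ := hSQ
  refine ⟨fun x => fin (x, LL R S x), ptF.comp (PT.id.pair (ptL hR hS)), ?_⟩
  intro m s1 s2 s3 s4 hp h3 y1 y2 y3 y4 e1 e2 e3 e4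
  haveI : Fact (m + 1).Prime := ⟨hp⟩
  have hm : (m : ZMod (m + 1)) = -1 := eq_neg_of_add_eq_zero_left (by
    exact_mod_cast ZMod.natCast_self (m + 1))
  have nz : ∀ a : ℕ, a ∣ 12 → (minv m a : ZMod (m + 1)) * a = 1 := fun a ha => by
    rw [cast_minv, if_neg]
    rw [ZMod.natCast_eq_zero_iff]
    intro h
    have h12 : m + 1 ∣ 2 * (2 * 3) := h.trans ha
    rcases (Nat.Prime.dvd_mul hp).1 h12 with k | k
    · have := Nat.le_of_dvd (by norm_num) k; omega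
    rcases (Nat.Prime.dvd_mul hp).1 k with k | k <;>
    · have := Nat.le_of_dvd (by norm_num) k; omega
  have i4 := nz 4 (by norm_num)
  have i6 := nz 6 (by norm_num)
  push_cast at i4 i6
  obtain ⟨r1, hr1⟩ : ∃ r, r = y1 + y2 - y3 - y4 := ⟨_, rfl⟩
  obtain ⟨r2, hr2⟩ : ∃ r, r = y1 - y2 + y3 - y4 := ⟨_, rfl⟩
  obtain ⟨r3, hr3⟩ : ∃ r, r = y1 - y2 - y3 + y4 := ⟨_, rfl⟩
  have a1 : (E1 (m, s1, s2, s3, s4) : ZMod (m + 1)) = r1 ^ 2 + r2 ^ 2 + r3 ^ 2 := by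
    simp only [E1]; push_cast
    rw [hm, e1, e2, hr1, hr2, hr3]; ring
  have a3 : (PI (m, s1, s2, s3, s4) : ZMod (m + 1)) = r1 * r2 * r3 := by
    simp only [PI]; push_cast
    rw [a1, hm, e1, e3]
    have : 16 * (y1 ^ 3 + y2 ^ 3 + y3 ^ 3 + y4 ^ 3) + -1 * ((y1 + y2 + y3 + y4) * (y1 + y2 + y3 + y4) *
        (y1 + y2 + y3 + y4) + 3 * (y1 + y2 + y3 + y4) * (r1 ^ 2 + r2 ^ 2 + r3 ^ 2)) =
        6 * (r1 * r2 * r3) := by rw [hr1, hr2, hr3]; ring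
    rw [this]
    linear_combination (r1 * r2 * r3) * i6
  have a2 : (E2 (m, s1, s2, s3, s4) : ZMod (m + 1)) =
      r1 ^ 2 * r2 ^ 2 + r1 ^ 2 * r3 ^ 2 + r2 ^ 2 * r3 ^ 2 := by
    simp only [E2]; push_cast
    rw [a1, a3, hm, e1, e4]
    have : 64 * (y1 ^ 4 + y2 ^ 4 + y3 ^ 4 + y4 ^ 4) + -1 * ((y1 + y2 + y3 + y4) * (y1 + y2 + y3 + y4) *
        ((y1 + y2 + y3 + y4) * (y1 + y2 + y3 + y4)) + 6 * ((y1 + y2 + y3 + y4) * (y1 + y2 + y3 + y4)) *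
        (r1 ^ 2 + r2 ^ 2 + r3 ^ 2) + 24 * (y1 + y2 + y3 + y4) * (r1 * r2 * r3) +
        (r1 ^ 2 + r2 ^ 2 + r3 ^ 2) * (r1 ^ 2 + r2 ^ 2 + r3 ^ 2)) =
        4 * (r1 ^ 2 * r2 ^ 2 + r1 ^ 2 * r3 ^ 2 + r2 ^ 2 * r3 ^ 2) := by rw [hr1, hr2, hr3]; ring
    rw [this]
    linear_combination (r1 ^ 2 * r2 ^ 2 + r1 ^ 2 * r3 ^ 2 + r2 ^ 2 * r3 ^ 2) * i4
  have key : ∀ u v w : ZMod (m + 1), u ^ 2 + v ^ 2 + w ^ 2 = r1 ^ 2 + r2 ^ 2 + r3 ^ 2 →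
      u ^ 2 * v ^ 2 + u ^ 2 * w ^ 2 + v ^ 2 * w ^ 2 = r1 ^ 2 * r2 ^ 2 + r1 ^ 2 * r3 ^ 2 + r2 ^ 2 * r3 ^ 2 →
      u * v * w = r1 * r2 * r3 → ∃ c ∈ LL R S (m, s1, s2, s3, s4), (c : ZMod (m + 1)) = u := by
    intro u v w k1 k2 k3
    obtain ⟨z, hz, ez⟩ := sR m _ _ (PI (m, s1, s2, s3, s4) * PI (m, s1, s2, s3, s4)) hp h3 (u ^ 2)
      (v ^ 2) (w ^ 2) (a1.trans k1.symm) (a2.trans k2.symm) (by push_cast; rw [a3, ← k3]; ring)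
    obtain ⟨c, hc, ec⟩ := sS m z hp h3 u ez
    exact ⟨c, List.mem_flatMap.2 ⟨z, hz, hc⟩, ec⟩
  obtain ⟨a, ha, ea⟩ := key r1 r2 r3 rfl rfl rfl
  obtain ⟨b, hb, eb⟩ := key r2 r1 r3 (by ring) (by ring) (by ring)
  obtain ⟨c, hc, ec⟩ := key r3 r1 r2 (by ring) (by ring) (by ring)
  refine ⟨(s1 + a + b + c) * minv m 4, List.mem_flatMap.2 ⟨a, ha, List.mem_flatMap.2
    ⟨b, hb, List.mem_map.2 ⟨c, hc, rfl⟩⟩⟩, ?_⟩
  push_cast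
  rw [ea, eb, ec, e1, hr1, hr2, hr3]
  linear_combination y1 * i4

end Vale.Agent.P319
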