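import Vale.Agent.P319.Spec5
import Vale.Agent.P319.PA1
import Vale.Agent.P319.PA2
import Vale.Agent.P319.PW

/-! P319 wave 3: an odd sign function modulo a polynomial. -/

namespace Vale.Agent.P319

open Vale.Agent.Lib.H24.T Vale.Agent.P338.PTX Polynomial

namespace SGm

def EE (m g : ℕ) : ℕ → ℕ × ℕ
  | 0 => (m / 2, g)
  | i + 1 => if (EE m g i).1 % 2 = 0 then ((EE m g i).1 / 2, (EE m g i).2 * (EE m g i).2 % (m + 1))
    else EE m g i

noncomputable def fP (m : ℕ) (G u : (ZMod (m + 1))[X]) (e c : ℕ) : (ZMod (m + 1))[X] :=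
  pwm (u * (C ((1 : ℕ) : ZMod (m + 1)) + (C ((1 : ℕ) : ZMod (m + 1)) - pwm u G e) *
    C ((minv m 2 : ℕ) : ZMod (m + 1)) * (C (c : ZMod (m + 1)) - C ((1 : ℕ) : ZMod (m + 1))))) G 1

noncomputable def PU (m g : ℕ) (G : (ZMod (m + 1))[X]) : ℕ → (ZMod (m + 1))[X]
  | 0 => X
  | i + 1 => if (EE m g i).1 % 2 = 0 then fP m G (PU m g G i) (EE m g i).1 (EE m g i).2 else PU m g G i

def UU (m g : ℕ) (x : ZMod (m + 1)) : ℕ → ZMod (m + 1)
  | 0 => x
  | i + 1 => if (EE m g i).1 % 2 = 0 then UU m g x i * (1 + (1 - UU m g x i ^ (EE m g i).1) *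
      (minv m 2 : ℕ) * (((EE m g i).2 : ℕ) - 1)) else UU m g x i

noncomputable def sg (m g : ℕ) (G : (ZMod (m + 1))[X]) : (ZMod (m + 1))[X] :=
  pwm (PU m g G m.bits.length) G (EE m g m.bits.length).1

noncomputable def H (m : ℕ) (G : (ZMod (m + 1))[X]) (s : List ℕ × ℕ × ℕ) : List ℕ × ℕ × ℕ :=
  if s.2.1 % 2 = 0 then (rep (fP m G (toPoly (m + 1) s.1) s.2.1 s.2.2), s.2.1 / 2,
    s.2.2 * s.2.2 % (m + 1)) else s

theorem it_H (m g : ℕ) (G : (ZMod (m + 1))[X]) (i : ℕ) :
    (H m G)^[i] (rep (X : (ZMod (m + 1))[X]), m / 2, g) = (rep (PU m g G i), EE m g i) := by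
  induction i with
  | zero => rfl
  | succ i ih =>
    rw [Function.iterate_succ_apply', ih]
    simp only [H, PU, EE, pa1S.toP]
    split_ifs <;> rfl

theorem EE_le (m g i : ℕ) : (EE m g i).1 ≤ m ∧ (EE m g i).2 ≤ g + m := by
  induction i with
  | zero => simp [EE]; omega
  | succ i ih =>
    simp only [EE]
    split_ifs
    · have := Nat.mod_lt ((EE m g i).2 * (EE m g i).2) (show 0 < m + 1 by omega)
      constructor <;> simp only <;> omega
    · exact ih

theorem PU_deg (m g : ℕ) (G : (ZMod (m + 1))[X]) (i : ℕ) :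
    (PU m g G i).natDegree ≤ G.natDegree + 1 := by
  induction i with
  | zero => exact natDegree_X_le.trans (by omega)
  | succ i ih =>
    simp only [PU]
    split_ifs
    · exact (PWm.deg _ _ _).trans (by omega)
    · exact ih

theorem ev_pwm {p : ℕ} {G : (ZMod p)[X]} (hG : G.Monic) {x : ZMod p} (hx : G.eval x = 0)
    (f : (ZMod p)[X]) (e : ℕ) : (pwm f G e).eval x = f.eval x ^ e := by
  unfold pwm
  rw [if_pos hG, modByMonic_eq_sub_mul_div]
  simp [hx]

theorem ev_PU {m : ℕ} (g : ℕ) {G : (ZMod (m + 1))[X]} (hG : G.Monic) {x : ZMod (m + 1)}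
    (hx : G.eval x = 0) (i : ℕ) : (PU m g G i).eval x = UU m g x i := by
  induction i with
  | zero => simp [PU, UU]
  | succ i ih =>
    simp only [PU, UU]
    split_ifs
    · simp [fP, ev_pwm hG hx, ih]
    · exact ih

theorem UU_neg (m g : ℕ) (x : ZMod (m + 1)) (i : ℕ) : UU m g (-x) i = -UU m g x i := by
  induction i with
  | zero => rfl
  | succ i ih =>
    simp only [UU]
    split_ifs with h
    · rw [ih, (Nat.even_iff.2 h).neg_pow]; ring
    · exact ih

theorem UU_zero (m g i : ℕ) : UU m g 0 i = 0 := by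
  induction i with
  | zero => rfl
  | succ i ih => simp only [UU, ih]; split_ifs <;> simp

theorem inv (m g : ℕ) [hp : Fact (m + 1).Prime] (h2 : m + 1 ≠ 2) (hg : ¬ IsSquare (g : ZMod (m + 1)))
    (i : ℕ) : (((EE m g i).2 : ℕ) : ZMod (m + 1)) ^ (EE m g i).1 = -1 ∧
      ((EE m g i).1 % 2 = 1 ∨ (0 < (EE m g i).1 ∧ 2 ^ i * (EE m g i).1 ≤ m)) ∧
      ∀ x, x ≠ 0 → (UU m g x i ^ (EE m g i).1) ^ 2 = 1 := by
  have o := hp.out.eq_two_or_odd.resolve_left h2
  have p2 := hp.out.two_le
  have t2 : ((2 : ℕ) : ZMod (m + 1)) ≠ 0 := fun h => h2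
    ((Nat.prime_dvd_prime_iff_eq hp.out Nat.prime_two).1 ((ZMod.natCast_eq_zero_iff _ _).1 h))
  have i2 := cast_minv m 2
  rw [if_neg t2] at i2
  induction i with
  | zero =>
    have g0 : (g : ZMod (m + 1)) ≠ 0 := fun h => hg (h ▸ IsSquare.zero)
    have e0 : (m + 1) / 2 = m / 2 := by omega
    refine ⟨?_, Or.inr ⟨by simp only [EE]; omega, by simp only [EE]; omega⟩, fun x hx => ?_⟩
    · have := (ZMod.pow_div_two_eq_neg_one_or_one (m + 1) g0).resolve_left
        fun h => hg ((ZMod.euler_criterion (m + 1) g0).2 h)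
      rwa [e0] at this
    · have := ZMod.pow_card_sub_one_eq_one hx
      simp only [UU, EE]
      rwa [← pow_mul, show m / 2 * 2 = m + 1 - 1 by omega]
  | succ i ih =>
    obtain ⟨a1, a2, a3⟩ := ih
    simp only [EE, UU]
    split_ifs with h
    · obtain ⟨k, hk⟩ : 2 ∣ (EE m g i).1 := by omega
      rw [hk] at a1 a2 a3 ⊢
      simp only [Nat.mul_div_cancel_left _ two_pos]
      refine ⟨?_, Or.inr ⟨by omega, ?_⟩, fun x hx => ?_⟩
      · rw [ZMod.natCast_mod, Nat.cast_mul, ← sq, ← pow_mul, a1]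
      · rcases a2 with a2 | a2
        · omega
        · rw [pow_succ, mul_assoc]; exact a2.2
      · rw [← pow_mul, mul_comm k 2]
        rcases sq_eq_one_iff.1 (a3 x hx) with e | e
        · rw [e, sub_self, zero_mul, zero_mul, add_zero, mul_one, e]
        · have : (1 + (1 - (-1)) * ((minv m 2 : ℕ) : ZMod (m + 1)) * ((((EE m g i).2 : ℕ) : ZMod (m + 1)) - 1)) =
              ((EE m g i).2 : ℕ) := by
            push_cast at i2
            linear_combination ((((EE m g i).2 : ℕ) : ZMod (m + 1)) - 1) * i2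
          rw [e, this, mul_pow, e, a1]; ring
    · exact ⟨a1, Or.inl (by omega), a3⟩

end SGm

open SGm in
theorem sgS : SGStmt := by
  have h := pa1S
  have hw := pwS pa1S (pa2S pa1S)
  refine ⟨sg, fun α _ m g G hm hg hG => ?_, fun m g hp h2 hg => ?_⟩
  · have m' : PT fun q : α × (List ℕ × ℕ × ℕ) => m q.1 := hm.comp PT.id.fst
    have G' : PP (fun q : α × (List ℕ × ℕ × ℕ) => m q.1) fun q => G q.1 := PT.comp hG PT.id.fst
    have u := h.ofl _ _ (fun q : α × (List ℕ × ℕ × ℕ) => q.2.1) m' PT.id.snd.fst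
    have o := h.cst _ _ _ m' (PT.const 1)
    have e : PT fun q : α × (List ℕ × ℕ × ℕ) => q.2.2.1 := PT.id.snd.snd.fst
    have c : PT fun q : α × (List ℕ × ℕ × ℕ) => q.2.2.2 := PT.id.snd.snd.snd
    have f := hw _ _ _ _ _ m' (PT.const 1) (h.mul _ _ _ _ m' u (h.add _ _ _ _ m' o (h.mul _ _ _ _ m'
      (h.mul _ _ _ _ m' (h.sub _ _ _ _ m' o (hw _ _ _ _ _ m' e u G'))
        (h.cst _ _ _ m' (pt_minv m' (PT.const 2)))) (h.sub _ _ _ _ m' (h.cst _ _ _ m' c) o)))) G'
    have hH : PT fun q : α × (List ℕ × ℕ × ℕ) => H (m q.1) (G q.1) q.2 :=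
      PT.ite ((mod e (PT.const 2)).eq (PT.const 0))
        (PT.pair f (e.div2.pair (mod (c.mul c) m'.succ))) PT.id.snd
    have key := PT.iterate (h := fun a => H (m a) (G a)) (l := fun a => (m a).bits)
      (b := fun a => (rep (X : (ZMod (m a + 1))[X]), m a / 2, g a)) hH hm.bits
      (PT.pair (h.var _ _ hm) (hm.div2.pair hg))
      (fun a => ((rep (G a)).length + 1) * (4 * sz (m a) + 2) + 4 * sz (m a) + 4 * sz (g a + m a) + 5)
      ((((((Pb.length hG).add (Pb.const 1)).mul (((Pb.const 4).mul (Pb.sz hm)).add (Pb.const 2))).add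
        ((Pb.const 4).mul (Pb.sz hm))).add ((Pb.const 4).mul (Pb.sz (hg.add hm)))).add (Pb.const 5))
      (fun a i _ => by
        rw [it_H, sz_pair, sz_pair']
        have l : (rep (G a)).length = (G a).natDegree + 1 := by simp [rep]
        have d := PU_deg (m a) (g a) (G a) i
        have s1 : sz (rep (PU (m a) (g a) (G a) i)) ≤
            ((rep (G a)).length + 1) * (4 * sz (m a) + 2) + 1 :=
          (h.szr _ _).trans (Nat.add_le_add_right (Nat.mul_le_mul_right _ (by omega)) 1)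
        have s2 := sz_nat_mono (EE_le (m a) (g a) i).1
        have s3 := sz_nat_mono (EE_le (m a) (g a) i).2
        omega)
    simp only [it_H] at key
    have k2 := hw _ _ _ _ _ hm key.snd.fst (h.ofl _ _ _ hm key.fst) hG
    simp only [h.toP] at k2
    exact k2
  · have := Fact.mk hp
    obtain ⟨-, a2, a3⟩ := inv m g h2 hg m.bits.length
    have od : Odd (EE m g m.bits.length).1 := Nat.odd_iff.2 (a2.resolve_right fun a => by
      have b := Nat.lt_size_self m
      rw [← Nat.size_eq_bits_len] at b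
      nlinarith [a.1, a.2])
    have t2 : (1 : ZMod (m + 1)) ≠ -1 := fun h => h2 ((Nat.prime_dvd_prime_iff_eq hp Nat.prime_two).1
      ((ZMod.natCast_eq_zero_iff _ _).1 (by push_cast; linear_combination h)))
    set out := fun x => UU m g x m.bits.length ^ (EE m g m.bits.length).1 with ho
    have on : ∀ x, out (-x) = -out x := fun x => by simp only [ho, UU_neg, od.neg_pow]
    have pm1 : ∀ x, x ≠ 0 → out x = 1 ∨ out x = -1 := fun x hx => sq_eq_one_iff.1 (a3 x hx)
    refine ⟨fun x => if x = 0 then 0 else if out x = 1 then 1 else -1, if_pos rfl, fun x => ?_,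
      fun x hx => ?_, fun G hG x hx => ?_⟩
    · by_cases hx : x = 0
      · simp [hx]
      · simp only [neg_eq_zero, if_neg hx, on]
        rcases pm1 x hx with e | e
        · rw [e, if_neg t2.symm, if_pos rfl]
        · rw [e, neg_neg, if_pos rfl, if_neg t2.symm, neg_neg]
    · simp only [if_neg hx]
      split_ifs <;> simp
    · rw [sg, ev_pwm hG hx, ev_PU g hG hx]
      change out x = _
      by_cases h0 : x = 0
      · simp only [h0, ho, UU_zero, if_true, Int.cast_zero]
        exact zero_pow od.pos.ne'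
      · simp only [if_neg h0]
        rcases pm1 x h0 with e | e
        · rw [if_pos e, e, Int.cast_one]
        · rw [if_neg (by rw [e]; exact t2.symm), e]; simp

end Vale.Agent.P319
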