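import Vale.Agent.P319.Spec5
import Vale.Agent.P319.PA1
import Vale.Agent.P319.PA2
import Vale.Agent.P319.PW

/-! P319 wave 3, row SG: an odd sign function as a polynomial. -/

namespace Vale.Agent.P319

open Vale.Agent.Lib.H24.T Vale.Agent.P338.PTX Polynomial

namespace SG14m

/-- polynomial step -/
noncomputable def sp (m : ℕ) (G : (ZMod (m + 1))[X]) (s : (ZMod (m + 1))[X] × ℕ × ℕ) :
    (ZMod (m + 1))[X] × ℕ × ℕ :=
  if s.2.1 % 2 = 0 then
    (pwm (s.1 * (C ((1 : ℕ) : ZMod (m + 1)) + (C ((1 : ℕ) : ZMod (m + 1)) - pwm s.1 G s.2.1) *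
      C ((minv m 2 * (s.2.2 + m) : ℕ) : ZMod (m + 1)))) G 1, s.2.1 / 2, s.2.2 * s.2.2 % (m + 1))
  else s

/-- pointwise step -/
def sz1 (m : ℕ) (s : ZMod (m + 1) × ℕ × ℕ) : ZMod (m + 1) × ℕ × ℕ :=
  if s.2.1 % 2 = 0 then
    (s.1 * (1 + (1 - s.1 ^ s.2.1) * ((minv m 2 * (s.2.2 + m) : ℕ) : ZMod (m + 1))), s.2.1 / 2,
      s.2.2 * s.2.2 % (m + 1))
  else s

noncomputable def itp (m g : ℕ) (G : (ZMod (m + 1))[X]) (i : ℕ) : (ZMod (m + 1))[X] × ℕ × ℕ :=
  (sp m G)^[i] (pwm X G 1, m / 2, g % (m + 1))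

def itz (m g : ℕ) (x : ZMod (m + 1)) (i : ℕ) : ZMod (m + 1) × ℕ × ℕ :=
  (sz1 m)^[i] (x, m / 2, g % (m + 1))

noncomputable def sg (m g : ℕ) (G : (ZMod (m + 1))[X]) : (ZMod (m + 1))[X] :=
  pwm (itp m g G m.bits.length).1 G (itp m g G m.bits.length).2.1

theorem ev {p : ℕ} {G : (ZMod p)[X]} (hG : G.Monic) {x : ZMod p} (hx : G.eval x = 0)
    (f : (ZMod p)[X]) (e : ℕ) : (pwm f G e).eval x = f.eval x ^ e := by
  unfold pwm
  rw [if_pos hG, modByMonic_eq_sub_mul_div (f ^ e) G, eval_sub, eval_mul, hx, zero_mul, sub_zero, eval_pow]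

theorem link (m g : ℕ) {G : (ZMod (m + 1))[X]} (hG : G.Monic) {x : ZMod (m + 1)} (hx : G.eval x = 0)
    (i : ℕ) : (itp m g G i).1.eval x = (itz m g x i).1 ∧ (itp m g G i).2 = (itz m g x i).2 := by
  induction i with
  | zero => exact ⟨by simp [itp, itz, ev hG hx], rfl⟩
  | succ i ih =>
    simp only [itp, itz, Function.iterate_succ_apply'] at ih ⊢
    generalize (sp m G)^[i] _ = s at *
    generalize (sz1 m)^[i] _ = t at *
    obtain ⟨u, e⟩ := s
    obtain ⟨v, e'⟩ := t
    obtain ⟨h1, h2⟩ := ih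
    simp only at h1 h2
    subst h2
    unfold sp sz1
    split_ifs with c
    · refine ⟨?_, rfl⟩
      simp only [ev hG hx, eval_mul, eval_add, eval_sub, eval_C, h1, pow_one, Nat.cast_one]
    · exact ⟨h1, rfl⟩

theorem odd (m g : ℕ) (x : ZMod (m + 1)) (i : ℕ) :
    (itz m g (-x) i).1 = -(itz m g x i).1 ∧ (itz m g (-x) i).2 = (itz m g x i).2 := by
  induction i with
  | zero => exact ⟨rfl, rfl⟩
  | succ i ih =>
    simp only [itz, Function.iterate_succ_apply'] at ih ⊢
    generalize (sz1 m)^[i] (-x, _) = s at *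
    generalize (sz1 m)^[i] (x, _) = t at *
    obtain ⟨u, e⟩ := s
    obtain ⟨v, e'⟩ := t
    obtain ⟨h1, h2⟩ := ih
    simp only at h1 h2
    subst h2 h1
    unfold sz1
    split_ifs with c
    · refine ⟨?_, rfl⟩
      simp only at c ⊢
      rw [Even.neg_pow (Nat.even_iff.2 c), neg_mul]
    · exact ⟨rfl, rfl⟩

theorem inv (m g : ℕ) (hp : (m + 1).Prime) (h2 : m + 1 ≠ 2) (hg : ¬ IsSquare (g : ZMod (m + 1)))
    (x : ZMod (m + 1)) (i : ℕ) :
    (x ≠ 0 → (itz m g x i).1 ^ (2 * (itz m g x i).2.1) = 1) ∧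
    ((itz m g x i).2.2 : ZMod (m + 1)) ^ (itz m g x i).2.1 = -1 ∧ 0 < (itz m g x i).2.1 ∧
    ((itz m g x i).2.1 % 2 = 1 ∨ 2 ^ i * (itz m g x i).2.1 ≤ m) := by
  haveI := Fact.mk hp
  have o := hp.eq_two_or_odd.resolve_left h2
  have p2 := hp.two_le
  have hm : (m : ZMod (m + 1)) = -1 := eq_neg_of_add_eq_zero_left (by
    exact_mod_cast ZMod.natCast_self (m + 1))
  have i2 : (minv m 2 : ZMod (m + 1)) * 2 = 1 := by
    have := cast_minv m 2
    rw [if_neg (by
      rw [ZMod.natCast_eq_zero_iff]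
      exact fun k => h2 ((Nat.prime_dvd_prime_iff_eq hp Nat.prime_two).1 k))] at this
    exact_mod_cast this
  induction i with
  | zero =>
    refine ⟨fun h => ?_, ?_, by simp only [itz, Function.iterate_zero, id]; omega,
      Or.inr (by simp only [itz, Function.iterate_zero, id]; omega)⟩
    · simp only [itz, Function.iterate_zero, id]
      rw [show 2 * (m / 2) = m + 1 - 1 by omega]
      exact ZMod.pow_card_sub_one_eq_one h
    · simp only [itz, Function.iterate_zero, id, ZMod.natCast_mod]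
      have g0 : (g : ZMod (m + 1)) ≠ 0 := fun h => hg (h ▸ IsSquare.zero)
      have e0 : (m + 1) / 2 = m / 2 := by omega
      rw [← e0]
      exact (ZMod.pow_div_two_eq_neg_one_or_one (m + 1) g0).resolve_left
        fun h => hg ((ZMod.euler_criterion (m + 1) g0).2 h)
  | succ i ih =>
    simp only [itz, Function.iterate_succ_apply'] at ih ⊢
    generalize (sz1 m)^[i] _ = t at *
    obtain ⟨v, e, η⟩ := t
    obtain ⟨i1, i3, i4, i5⟩ := ih
    simp only at i1 i3 i4 i5
    unfold sz1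
    split_ifs with c
    · simp only at c ⊢
      obtain ⟨k, rfl⟩ : 2 ∣ e := by omega
      rw [Nat.mul_div_cancel_left k two_pos]
      refine ⟨fun h => ?_, ?_, by omega, Or.inr ?_⟩
      · have := i1 h
        rw [mul_comm, pow_mul] at this
        rcases sq_eq_one_iff.1 this with k1 | k1
        · rw [k1, sub_self, zero_mul, add_zero, mul_one, k1]
        · have e1 : 1 + (1 - v ^ (2 * k)) * ((minv m 2 * (η + m) : ℕ) : ZMod (m + 1)) = η := by
            push_cast
            rw [k1, hm]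
            linear_combination ((η : ZMod (m + 1)) - 1) * i2
          rw [e1, mul_pow, k1, i3]
          ring
      · rw [ZMod.natCast_mod, Nat.cast_mul, ← sq, ← pow_mul, i3]
      · have := i5.resolve_left (by omega)
        rw [pow_succ, mul_assoc]
        exact this
    · exact ⟨i1, i3, i4, Or.inl (by simp only at c ⊢; omega)⟩

theorem bnd (m g : ℕ) (G : (ZMod (m + 1))[X]) (i : ℕ) : (itp m g G i).1.natDegree ≤ G.natDegree ∧
    (itp m g G i).2.1 ≤ m ∧ (itp m g G i).2.2 ≤ m := by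
  induction i with
  | zero => exact ⟨PWm.deg _ _ _, Nat.div_le_self _ _, Nat.le_of_lt_succ (Nat.mod_lt _ m.succ_pos)⟩
  | succ i ih =>
    simp only [itp, Function.iterate_succ_apply'] at ih ⊢
    generalize (sp m G)^[i] _ = s at *
    unfold sp
    split_ifs with c
    · exact ⟨PWm.deg _ _ _, (Nat.div_le_self _ _).trans ih.2.1,
        Nat.le_of_lt_succ (Nat.mod_lt _ m.succ_pos)⟩
    · exact ih

theorem pp_sg {α : Type} [Enc α] (m g : α → ℕ) (G : (a : α) → (ZMod (m a + 1))[X]) (hm : PT m)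
    (hg : PT g) (hG : PP m G) : PP m fun a => sg (m a) (g a) (G a) := by
  have h := pa1S
  have hW := pwS pa1S (pa2S pa1S)
  let H : α → List ℕ × ℕ × ℕ → List ℕ × ℕ × ℕ := fun a s =>
    (rep (sp (m a) (G a) (toPoly (m a + 1) s.1, s.2)).1,
      (sp (m a) (G a) (toPoly (m a + 1) s.1, s.2)).2)
  have hm' : PT fun p : α × List ℕ × ℕ × ℕ => m p.1 := hm.comp PT.id.fst
  have hG' : PP (fun p : α × List ℕ × ℕ × ℕ => m p.1) fun p => G p.1 := PT.comp hG PT.id.fst
  have hu := h.ofl _ _ (fun p : α × List ℕ × ℕ × ℕ => p.2.1) hm' PT.id.snd.fst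
  have he : PT fun p : α × List ℕ × ℕ × ℕ => p.2.2.1 := PT.id.snd.snd.fst
  have hn : PT fun p : α × List ℕ × ℕ × ℕ => p.2.2.2 := PT.id.snd.snd.snd
  have o := h.cst _ _ _ hm' (PT.const 1)
  have c := h.cst _ _ _ hm' ((pt_minv hm' (PT.const 2)).mul (hn.add hm'))
  have w := hW _ _ _ _ _ hm' (PT.const 1) (h.mul _ _ _ _ hm' hu (h.add _ _ _ _ hm' o
    (h.mul _ _ _ _ hm' (h.sub _ _ _ _ hm' o (hW _ _ _ _ _ hm' he hu hG')) c))) hG'
  have hH : PT fun p : α × List ℕ × ℕ × ℕ => H p.1 p.2 := by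
    refine (PT.ite ((mod he (PT.const 2)).eq (PT.const 0))
      (PT.pair w (he.div2.pair (mod (hn.mul hn) hm'.succ)))
      (PT.pair hu PT.id.snd.snd)).of_eq fun p => ?_
    simp only [H, sp]
    split_ifs <;> rfl
  have key : ∀ a i, (H a)^[i] (rep (pwm X (G a) 1), m a / 2, g a % (m a + 1)) =
      (rep (itp (m a) (g a) (G a) i).1, (itp (m a) (g a) (G a) i).2) := by
    intro a i
    induction i with
    | zero => rfl
    | succ i ih =>
      rw [Function.iterate_succ_apply', ih, itp, itp, Function.iterate_succ_apply']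
      simp only [H, h.toP]
  have h0 : PT fun a => rep (pwm X (G a) 1) := hW _ _ _ _ _ hm (PT.const 1) (h.var _ _ hm) hG
  have hG2 : PT fun a => rep (G a) := hG
  have hI : PT fun a => (rep (itp (m a) (g a) (G a) (m a).bits.length).1,
      (itp (m a) (g a) (G a) (m a).bits.length).2) := by
    refine (PT.iterate (h := H) hH hm.bits (h0.pair (hm.div2.pair (mod hg hm.succ)))
      (fun a => (rep (G a)).length * (4 * sz (m a) + 2) + 8 * sz (m a) + 5) (by fun_prop)
      fun a i _ => ?_).of_eq fun a => by rw [key]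
    rw [key, sz_pair', PA2m.len_rep]
    obtain ⟨d1, d2, d3⟩ := bnd (m a) (g a) (G a) i
    have a1 := (h.szr _ (itp (m a) (g a) (G a) i).1).trans
      (Nat.add_le_add_right (Nat.mul_le_mul_right _ (Nat.add_le_add_right d1 1)) 1)
    have a2 := sz_nat_mono d2
    have a3 := sz_nat_mono d3
    rw [sz_pair' (itp (m a) (g a) (G a) i).2]
    simp only
    omega
  exact hW _ _ _ _ _ hm hI.snd.fst hI.fst hG

end SG14m

open SG14m in
theorem sgS14 : SGStmt := by
  refine ⟨sg, fun α _ => pp_sg, fun m g hp h2 hg => ?_⟩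
  haveI := Fact.mk hp
  obtain ⟨U, hU⟩ : ∃ U : ZMod (m + 1) → ZMod (m + 1), ∀ x,
      U x = (itz m g x m.bits.length).1 ^ (itz m g x m.bits.length).2.1 := ⟨_, fun _ => rfl⟩
  have od : ∀ x, (itz m g x m.bits.length).2.1 % 2 = 1 := fun x => by
    obtain ⟨-, -, i3, i4⟩ := inv m g hp h2 hg x m.bits.length
    refine i4.resolve_right fun k => ?_
    have : m < 2 ^ m.bits.length := by rw [Nat.size_eq_bits_len]; exact Nat.lt_size_self m
    have := Nat.mul_le_mul_left (2 ^ m.bits.length) (Nat.succ_le_of_lt i3)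
    omega
  have u1 : ∀ x, U (-x) = -U x := fun x => by
    rw [hU, hU, (odd m g x _).1, (odd m g x _).2, Odd.neg_pow (Nat.odd_iff.2 (od x))]
  have u2 : ∀ x, x ≠ 0 → U x = 1 ∨ U x = -1 := fun x hx => by
    refine sq_eq_one_iff.1 ?_
    rw [hU, ← pow_mul, mul_comm]
    exact (inv m g hp h2 hg x _).1 hx
  have n1 : (-1 : ZMod (m + 1)) ≠ 1 := by
    haveI : Fact (2 < m + 1) := ⟨lt_of_le_of_ne hp.two_le (Ne.symm h2)⟩
    exact ZMod.neg_one_ne_one
  have u0 : U 0 = 0 := by
    have := u1 0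
    rw [neg_zero] at this
    by_contra k
    exact n1 (mul_right_cancel₀ k (by linear_combination -this))
  refine ⟨fun x => if x = 0 then 0 else if U x = 1 then 1 else -1, by simp, fun x => ?_,
    fun x hx => ?_, fun G hG x hx => ?_⟩
  · by_cases hx : x = 0
    · simp [hx]
    · simp only [neg_eq_zero, if_neg hx, u1]
      rcases u2 x hx with k | k
      · rw [k, if_neg n1, if_pos rfl]
      · rw [k, neg_neg, if_pos rfl, if_neg n1, neg_neg]
  · simp only [if_neg hx]
    split_ifs <;> simp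
  · rw [sg, ev hG hx, (link m g hG hx _).1, (link m g hG hx _).2, ← hU]
    by_cases h0 : x = 0
    · simp [h0, u0]
    · simp only [if_neg h0]
      rcases u2 x h0 with k | k
      · rw [if_pos k, k]; simp
      · rw [k, if_neg n1]; simp

end Vale.Agent.P319
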