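import Vale.Agent.P319.Spec4

/-! P319: a reducible polynomial with few factors of each degree is cut by a short list. -/

namespace Vale.Agent.P319

open Polynomial UniqueFactorizationMonoid

namespace SPLm

variable {p : ℕ} [hp : Fact p.Prime]

theorem tr (g : (ZMod p)[X]) (hg : Irreducible g) : ∃ τ : (ZMod p)[X] →ₗ[ZMod p] ZMod p,
    (∀ a, g ∣ ∑ i ∈ Finset.range g.natDegree, a ^ p ^ i - C (τ a)) ∧ (∃ a, τ a ≠ 0) ∧
      ∀ a, g ∣ a → τ a = 0 := by
  have := Fact.mk hg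
  have pb := AdjoinRoot.powerBasis hg.ne_zero
  have : Module.Finite (ZMod p) (AdjoinRoot g) := pb.finite
  have : Finite (AdjoinRoot g) := Module.finite_of_finite (ZMod p)
  refine ⟨(Algebra.trace (ZMod p) (AdjoinRoot g)).comp (AdjoinRoot.mkₐ g).toLinearMap,
    fun a => ?_, ?_, fun a ha => ?_⟩
  · rw [← AdjoinRoot.mk_eq_mk, map_sum, AdjoinRoot.mk_C]
    have e := FiniteField.algebraMap_trace_eq_sum_pow (ZMod p) (AdjoinRoot g) (AdjoinRoot.mk g a)
    rw [(AdjoinRoot.powerBasis hg.ne_zero).finrank, AdjoinRoot.powerBasis_dim, Nat.card_zmod] at e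
    simp only [map_pow]
    exact e.symm
  · obtain ⟨x, hx⟩ := Algebra.trace_surjective (ZMod p) (AdjoinRoot g) 1
    obtain ⟨a, rfl⟩ := AdjoinRoot.mk_surjective x
    exact ⟨a, fun h => one_ne_zero (hx.symm.trans h)⟩
  · show Algebra.trace (ZMod p) (AdjoinRoot g) (AdjoinRoot.mk g a) = 0
    rw [AdjoinRoot.mk_eq_zero.2 ha, map_zero]

theorem four {ι R : Type} [DecidableEq ι] [CommRing R] (S : Finset ι) (h : S.card ≤ 4) {a : ι}
    (ha : a ∈ S) (y : ι → R) : ∃ y2 y3 y4 : R, ∀ k : ℕ, 1 ≤ k →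
      ∑ g ∈ S, y g ^ k = y a ^ k + y2 ^ k + y3 ^ k + y4 ^ k := by
  have e : ∀ k : ℕ, ∑ g ∈ S, y g ^ k = y a ^ k + ((S.erase a).toList.map fun g => y g ^ k).sum :=
    fun k => by rw [Finset.sum_map_toList, Finset.add_sum_erase _ (fun g => y g ^ k) ha]
  have l : (S.erase a).toList.length ≤ 3 := by
    rw [Finset.length_toList, Finset.card_erase_of_mem ha]; omega
  simp only [e]
  generalize (S.erase a).toList = L at l
  rcases L with _ | ⟨b, _ | ⟨c, _ | ⟨d, _ | ⟨_, _⟩⟩⟩⟩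
  · exact ⟨0, 0, 0, fun k hk => by simp [zero_pow (show k ≠ 0 by omega)]⟩
  · exact ⟨y b, 0, 0, fun k hk => by simp [zero_pow (show k ≠ 0 by omega)]⟩
  · exact ⟨y b, y c, 0, fun k hk => by simp [zero_pow (show k ≠ 0 by omega), add_assoc]⟩
  · exact ⟨y b, y c, y d, fun k _ => by simp [add_assoc]⟩
  · simp only [List.length_cons] at l; omega

theorem psum (S : Finset (ZMod p)[X]) (d : ℕ) (hd : 1 ≤ d) (hS : ∀ g ∈ S, g.Monic ∧ g.natDegree = d)
    (t : (ZMod p)[X]) (y : (ZMod p)[X] → ZMod p) (hy : ∀ g ∈ S, g ∣ t - C (y g)) (k : ℕ) :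
    ((t ^ k * derivative (∏ g ∈ S, g)) %ₘ ∏ g ∈ S, g).coeff ((∏ g ∈ S, g).natDegree - 1) =
      d * ∑ g ∈ S, y g ^ k := by
  classical
  have hm : (∏ g ∈ S, g).Monic := monic_prod_of_monic _ _ fun g hg => (hS g hg).1
  have hm' : ∀ g, (∏ b ∈ S.erase g, b).Monic := fun g =>
    monic_prod_of_monic _ _ fun b hb => (hS b (Finset.mem_of_mem_erase hb)).1
  have e : ∀ g ∈ S, ∏ b ∈ S, b = (∏ b ∈ S.erase g, b) * g := fun g hg =>
    (Finset.prod_erase_mul _ (fun b => b) hg).symm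
  have dg : ∀ g ∈ S, (∏ b ∈ S, b).natDegree - 1 = (∏ b ∈ S.erase g, b).natDegree + (d - 1) :=
    fun g hg => by rw [e g hg, (hm' g).natDegree_mul (hS g hg).1, (hS g hg).2]; omega
  have dd : ∀ g ∈ S, (derivative g).natDegree ≤ d - 1 := fun g hg =>
    (hS g hg).2 ▸ natDegree_derivative_le g
  have h1 : (t ^ k * derivative (∏ g ∈ S, g)) %ₘ ∏ g ∈ S, g =
      ∑ g ∈ S, C (y g ^ k) * ((∏ b ∈ S.erase g, b) * derivative g) := by
    rw [← (modByMonic_eq_self_iff hm (p := ∑ g ∈ S, C (y g ^ k) *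
      ((∏ b ∈ S.erase g, b) * derivative g))).2]
    · refine modByMonic_eq_of_dvd_sub hm ?_
      rw [derivative_prod_finset, Finset.mul_sum, ← Finset.sum_sub_distrib]
      refine Finset.dvd_sum fun g hg => ?_
      rw [← sub_mul, e g hg, ← mul_assoc, mul_comm (_ - _), map_pow]
      exact (mul_dvd_mul_left _ ((hy g hg).trans (sub_dvd_pow_sub_pow _ _ k))).mul_right _
    · refine (degree_sum_le _ _).trans_lt ((Finset.sup_lt_iff (bot_lt_iff_ne_bot.2
        (degree_ne_bot.2 hm.ne_zero))).2 fun g hg => ?_)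
      refine (degree_le_natDegree.trans (Nat.cast_le.2 ((natDegree_C_mul_le _ _).trans
        (natDegree_mul_le.trans (Nat.add_le_add_left (dd g hg) _))))).trans_lt ?_
      rw [degree_eq_natDegree hm.ne_zero, Nat.cast_lt, e g hg, (hm' g).natDegree_mul (hS g hg).1,
        (hS g hg).2]
      omega
  rw [h1, finsetSum_coeff, Finset.mul_sum]
  refine Finset.sum_congr rfl fun g hg => ?_
  rw [coeff_C_mul, dg g hg, coeff_mul_add_eq_of_natDegree_le le_rfl (dd g hg), coeff_derivative,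
    (hm' g).coeff_natDegree, show d - 1 + 1 = g.natDegree by rw [(hS g hg).2]; omega,
    (hS g hg).1.coeff_natDegree, ← Nat.cast_succ, show (d - 1).succ = d by omega]
  ring

end SPLm

open SPLm in
theorem splS : SPLStmt := by
  intro p hp f hf h0 hi hF
  classical
  have := Fact.mk hp
  have f0 := hf.ne_zero
  set S := (normalizedFactors f).toFinset with hS
  have mem : ∀ g, g ∈ S ↔ Irreducible g ∧ g.Monic ∧ g ∣ f := fun g => by
    rw [hS, Multiset.mem_toFinset, Polynomial.mem_normalizedFactors_iff f0]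
  have ne : S.Nonempty := by
    obtain ⟨g, g1, g2, g3⟩ := exists_monic_irreducible_factor f (not_isUnit_of_natDegree_pos f h0)
    exact ⟨g, (mem g).2 ⟨g2, g1, g3⟩⟩
  obtain ⟨g0, m0, hmin⟩ := S.exists_min_image natDegree ne
  obtain ⟨i0, -, d0⟩ := (mem g0).1 m0
  set d := g0.natDegree with hd
  have d1 : 1 ≤ d := i0.natDegree_pos
  refine ⟨d, d1, natDegree_le_of_dvd d0 f0, ?_⟩
  by_cases hc : f ∣ X ^ p ^ d - X
  swap
  · refine Or.inl ⟨⟨g0, i0, d0, ?_⟩, hc⟩
    have := i0.natDegree_dvd_iff_dvd_X_pow_card_pow_sub_X.1 (dvd_refl d)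
    rwa [Nat.card_zmod] at this
  right
  have sq : Squarefree f := Squarefree.squarefree_of_dvd hc
    (galois_poly_separable p _ (dvd_pow_self p (by omega))).squarefree
  have dg : ∀ g ∈ S, g.natDegree = d := fun g hg => by
    obtain ⟨g1, -, g3⟩ := (mem g).1 hg
    refine le_antisymm (Nat.le_of_dvd d1 (g1.natDegree_dvd_of_dvd_X_pow_card_pow_sub_X ?_)) (hmin g hg)
    rw [Nat.card_zmod]; exact g3.trans hc
  have pr : f = ∏ g ∈ S, g := by
    have e := prod_normalizedFactors_eq f0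
    rw [hf.normalize_eq_self] at e
    rw [Finset.prod_eq_multiset_prod, Multiset.map_id', hS, Multiset.toFinset_val,
      ((squarefree_iff_nodup_normalizedFactors f0).1 sq).dedup, e]
  have c4 : S.card ≤ 4 := by
    have h1 := hF d
    have h2 : (S : Set (ZMod p)[X]) ⊆ {g | g.Monic ∧ Irreducible g ∧ g ∣ f ∧ g.natDegree = d} :=
      fun g hg => ⟨((mem g).1 hg).2.1, ((mem g).1 hg).1, ((mem g).1 hg).2.2, dg g hg⟩
    have h3 := (Set.encard_le_encard h2).trans h1
    rw [Set.encard_coe_eq_coe_finsetCard] at h3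
    exact_mod_cast h3
  obtain ⟨g1, m1, n1⟩ : ∃ g ∈ S, g ≠ g0 := by
    by_contra h
    push Not at h
    have : S = {g0} := Finset.eq_singleton_iff_unique_mem.2 ⟨m0, h⟩
    rw [this, Finset.prod_singleton] at pr
    exact hi (pr ▸ i0)
  obtain ⟨i1, mo1, d1'⟩ := (mem g1).1 m1
  have hτ := fun g : S => tr (p := p) g ((mem g).1 g.2).1
  choose τ t1 t2 t3 using hτ
  have cop : IsCoprime g0 g1 := i0.coprime_iff_not_dvd.2 fun h => n1
    (eq_of_monic_of_associated mo1 ((mem g0).1 m0).2.1 (i0.associated_of_dvd i1 h).symm)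
  obtain ⟨j, hj, hne⟩ : ∃ j < f.natDegree, τ ⟨g0, m0⟩ (X ^ j) ≠ τ ⟨g1, m1⟩ (X ^ j) := by
    by_contra h
    push Not at h
    obtain ⟨b, hb⟩ := t2 ⟨g0, m0⟩
    obtain ⟨u, v, huv⟩ := cop
    have f1 : f ≠ 1 := fun e => by rw [e] at h0; simp at h0
    have e1 : τ ⟨g0, m0⟩ ((b * v * g1) %ₘ f) = τ ⟨g1, m1⟩ ((b * v * g1) %ₘ f) := by
      rw [as_sum_range' _ _ (natDegree_modByMonic_lt (b * v * g1) hf f1), map_sum, map_sum]
      refine Finset.sum_congr rfl fun i hi => ?_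
      rw [← smul_X_eq_monomial, map_smul, map_smul, h i (Finset.mem_range.1 hi)]
    have e2 : f ∣ (b * v * g1) %ₘ f - b * v * g1 := by
      rw [modByMonic_eq_sub_mul_div]; simp
    have e3 := t3 ⟨g1, m1⟩ ((b * v * g1) %ₘ f) (by
      simpa using (d1'.trans e2).add (dvd_mul_left g1 (b * v)))
    have e4 := t3 ⟨g0, m0⟩ ((b * v * g1) %ₘ f - b) (by
      have := (d0.trans e2).sub (dvd_mul_left g0 (b * u))
      convert this using 1
      linear_combination b * huv)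
    rw [map_sub, e1, e3, zero_sub, neg_eq_zero] at e4
    exact hb e4
  set y : (ZMod p)[X] → ZMod p := fun g => if h : g ∈ S then τ ⟨g, h⟩ (X ^ j) else 0 with hy
  have hd2 : ∀ g ∈ S, g ∣ ∑ i ∈ Finset.range d, X ^ (j * p ^ i) - C (y g) := fun g hg => by
    have := t1 ⟨g, hg⟩ (X ^ j)
    simp only [dg g hg, ← pow_mul] at this
    simpa only [hy, dif_pos hg] using this
  obtain ⟨y2, y3, y4, h4⟩ := four S c4 m0 y
  refine ⟨j, hj, y g0, y2, y3, y4, ⟨⟨g0, i0, d0, hd2 g0 m0⟩, fun h => ?_⟩, fun k hk => ?_⟩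
  · have := (d1'.trans h).sub (hd2 g1 m1)
    rw [sub_sub_sub_cancel_left, ← map_sub] at this
    refine i1.not_isUnit (isUnit_of_dvd_unit this (isUnit_C.2 (IsUnit.mk0 _ ?_)))
    simp only [hy, dif_pos m0, dif_pos m1]
    exact sub_ne_zero.2 hne.symm
  · rw [← h4 k hk]
    have := psum S d d1 (fun g hg => ⟨((mem g).1 hg).2.1, dg g hg⟩) _ y hd2 k
    rwa [← pr] at this

end Vale.Agent.P319
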