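import Vale.Agent.P319.Spec4
import Vale.Agent.P319.NonRes

/-! P319 wave 2: a short list of square root candidates. -/

namespace Vale.Agent.P319

open Vale.Agent.Lib.H24.T Vale.Agent.P338.PTX Polynomial

namespace SQm

/-- the list of candidate nonresidues -/
def gs (A m : ℕ) : List ℕ := List.range (false :: un (false :: false :: (m + 1).bits) A).length

/-- the list of candidates -/
def sl (A : ℕ) (w : ℕ × ℕ) : List ℕ :=
  0 :: (gs A w.1).flatMap fun g => [sqr w.1 w.2 g, w.1 * sqr w.1 w.2 g]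

theorem pt_gs {α : Type} [Enc α] (A : ℕ) {m : α → ℕ} (hm : PT m) : PT fun x => gs A (m x) :=
  PT.range_length ((PT.const false).cons
    (pt_un ((PT.const false).cons ((PT.const false).cons hm.succ.bits)) A))

theorem mem_gs (A m g : ℕ) (h : g ≤ ((m + 1).size + 2) ^ A) : g ∈ gs A m := by
  simpa [gs, length_un, Nat.size_eq_bits_len, Nat.lt_succ_iff] using h

theorem pt_sl (A : ℕ) : PT (sl A) := by
  have h1 : PT fun q : (ℕ × ℕ) × ℕ => sqr q.1.1 q.1.2 q.2 :=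
    pt_sqr PT.id.fst.fst PT.id.fst.snd PT.id.snd
  exact (PT.const 0).cons (PT.flatMap
    (g := fun (w : ℕ × ℕ) g => [sqr w.1 w.2 g, w.1 * sqr w.1 w.2 g]) (pt_gs A PT.id.fst)
    (pt_l2 h1 (PT.id.fst.fst.mul h1)))

end SQm

open SQm in
theorem sqS : SQStmt := by
  obtain ⟨A, hA⟩ := nonres
  refine ⟨sl A, pt_sl A, fun m a hp h3 y hy => ?_⟩
  have := Fact.mk hp
  have hm : (m : ZMod (m + 1)) = -1 := eq_neg_of_add_eq_zero_left (by
    exact_mod_cast ZMod.natCast_self (m + 1))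
  by_cases d0 : (a : ZMod (m + 1)) = 0
  · refine ⟨0, by simp [sl], ?_⟩
    rw [d0] at hy
    simpa using (pow_eq_zero_iff (n := 2) (by norm_num)).1 hy.symm |>.symm
  obtain ⟨g, g1, g2⟩ : ∃ g ∈ gs A m, (m + 1) % 4 = 1 → ¬ IsSquare (g : ZMod (m + 1)) := by
    by_cases h4 : (m + 1) % 4 = 1
    · obtain ⟨g, g1, g2⟩ := hA (m + 1) hp h4
      exact ⟨g, mem_gs A m g g1, fun _ => g2⟩
    · exact ⟨0, mem_gs A m 0 (Nat.zero_le _), fun h => absurd h h4⟩
  have hs := sqr_spec m a g (by omega) d0 ⟨y, by rw [hy, sq]⟩ g2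
  rw [hy] at hs
  rcases sq_eq_sq_iff_eq_or_eq_neg.1 hs with h | h
  · exact ⟨sqr m a g, List.mem_cons_of_mem _ (List.mem_flatMap.2 ⟨g, g1, by simp⟩), h⟩
  · refine ⟨m * sqr m a g, List.mem_cons_of_mem _ (List.mem_flatMap.2 ⟨g, g1, by simp⟩), ?_⟩
    push_cast
    rw [hm, h]
    ring

end Vale.Agent.P319
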