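import Vale.Agent.P319.Alg

/-! P319 wave 2: statements of the modules. -/

namespace Vale.Agent.P319

open Vale.Agent.Lib.H24.T Polynomial

/-- a small element that is not a cube in the field with `p ^ 2` elements -/
def NCStmt : Prop := ∃ A : ℕ, ∀ p : ℕ, p.Prime → 3 < p → ∀ (K : Type) [Field K] [CharP K p] (w : K),
  w ^ 2 + w + 1 = 0 → ∃ a b c : ℕ, a ≤ (p.size + 2) ^ A ∧ b ≤ (p.size + 2) ^ A ∧
    c ≤ (p.size + 2) ^ A ∧ (a : K) + b * w + c * w ^ 2 ≠ 0 ∧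
    ((a : K) + b * w + c * w ^ 2) ^ ((p ^ 2 - 1) / 3) ≠ 1

/-- value of a pair -/
def evK {K : Type} [Field K] (θ : K) (x : ℕ × ℕ) : K := x.1 + x.2 * θ

/-- cube roots in the field with `(m + 1) ^ 2` elements from a non cube -/
def CBStmt : Prop := ∃ cb : (ℕ × ℕ) × (ℕ × ℕ) × (ℕ × ℕ) → ℕ × ℕ, PT cb ∧
  ∀ (m n : ℕ) (u g : ℕ × ℕ) (K : Type) [Field K] [Fintype K] [CharP K (m + 1)] (θ : K),
    (m + 1).Prime → 3 < m + 1 → Fintype.card K = (m + 1) ^ 2 → θ ^ 2 = n →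
    (∀ a b : ℤ, (a : K) + b * θ = 0 → (b : K) = 0) →
    (∃ y : K, y ^ 3 = evK θ u) → evK θ g ≠ 0 → evK θ g ^ (((m + 1) ^ 2 - 1) / 3) ≠ 1 →
    evK θ (cb ((m, n), u, g)) ^ 3 = evK θ u

/-- from the first four power sums of four residues to a short list that holds them -/
def RTStmt : Prop := ∃ R : ℕ × ℕ × ℕ × ℕ × ℕ → List ℕ, PT R ∧
  ∀ (m s1 s2 s3 s4 : ℕ), (m + 1).Prime → 3 < m + 1 → ∀ y1 y2 y3 y4 : ZMod (m + 1),
    (s1 : ZMod (m + 1)) = y1 + y2 + y3 + y4 →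
    (s2 : ZMod (m + 1)) = y1 ^ 2 + y2 ^ 2 + y3 ^ 2 + y4 ^ 2 →
    (s3 : ZMod (m + 1)) = y1 ^ 3 + y2 ^ 3 + y3 ^ 3 + y4 ^ 3 →
    (s4 : ZMod (m + 1)) = y1 ^ 4 + y2 ^ 4 + y3 ^ 4 + y4 ^ 4 →
    ∃ c ∈ R (m, s1, s2, s3, s4), (c : ZMod (m + 1)) = y1

/-- from the symmetric functions of three residues to a short list that holds them -/
def R3Stmt : Prop := ∃ R : ℕ × ℕ × ℕ × ℕ → List ℕ, PT R ∧
  ∀ (m e1 e2 e3 : ℕ), (m + 1).Prime → 3 < m + 1 → ∀ z1 z2 z3 : ZMod (m + 1),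
    (e1 : ZMod (m + 1)) = z1 + z2 + z3 → (e2 : ZMod (m + 1)) = z1 * z2 + z1 * z3 + z2 * z3 →
    (e3 : ZMod (m + 1)) = z1 * z2 * z3 → ∃ c ∈ R (m, e1, e2, e3), (c : ZMod (m + 1)) = z1

/-- a short list that holds a square root of every square -/
def SQStmt : Prop := ∃ S : ℕ × ℕ → List ℕ, PT S ∧ ∀ (m a : ℕ), (m + 1).Prime → 3 < m + 1 →
  ∀ y : ZMod (m + 1), (a : ZMod (m + 1)) = y ^ 2 → ∃ c ∈ S (m, a), (c : ZMod (m + 1)) = y

/-- canonical coefficient list -/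
noncomputable def rep {p : ℕ} (f : (ZMod p)[X]) : List ℕ :=
  (List.range (f.natDegree + 1)).map fun i => (f.coeff i).val

/-- a polynomial valued function whose coefficient list is computable in polynomial time -/
def PP {α : Type} [Enc α] (m : α → ℕ) (F : (a : α) → (ZMod (m a + 1))[X]) : Prop :=
  PT fun a => rep (F a)

/-- power modulo a monic polynomial -/
noncomputable def pwm {p : ℕ} (f g : (ZMod p)[X]) (e : ℕ) : (ZMod p)[X] := by
  classical exact if g.Monic then f ^ e %ₘ g else 0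

structure PA1Stmt : Prop where
  toP : ∀ (m : ℕ) (f : (ZMod (m + 1))[X]), toPoly (m + 1) (rep f) = f
  szr : ∀ (m : ℕ) (f : (ZMod (m + 1))[X]), sz (rep f) ≤ (f.natDegree + 1) * (4 * sz m + 2) + 1
  ofl : ∀ (α : Type) [Enc α] (m : α → ℕ) (l : α → List ℕ), PT m → PT l →
    PP m fun a => toPoly (m a + 1) (l a)
  add : ∀ (α : Type) [Enc α] (m : α → ℕ) (F G : (a : α) → (ZMod (m a + 1))[X]), PT m →
    PP m F → PP m G → PP m fun a => F a + G a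
  sub : ∀ (α : Type) [Enc α] (m : α → ℕ) (F G : (a : α) → (ZMod (m a + 1))[X]), PT m →
    PP m F → PP m G → PP m fun a => F a - G a
  mul : ∀ (α : Type) [Enc α] (m : α → ℕ) (F G : (a : α) → (ZMod (m a + 1))[X]), PT m →
    PP m F → PP m G → PP m fun a => F a * G a
  cst : ∀ (α : Type) [Enc α] (m c : α → ℕ), PT m → PT c → PP m fun a => C (c a : ZMod (m a + 1))
  var : ∀ (α : Type) [Enc α] (m : α → ℕ), PT m → PP m fun _ => X
  der : ∀ (α : Type) [Enc α] (m : α → ℕ) (F : (a : α) → (ZMod (m a + 1))[X]), PT m →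
    PP m F → PP m fun a => derivative (F a)
  coe : ∀ (α : Type) [Enc α] (m i : α → ℕ) (F : (a : α) → (ZMod (m a + 1))[X]), PT i →
    PP m F → PT fun a => ((F a).coeff (i a)).val
  deg : ∀ (α : Type) [Enc α] (m : α → ℕ) (F : (a : α) → (ZMod (m a + 1))[X]),
    PP m F → PT fun a => (F a).natDegree
  sum : ∀ (α β : Type) [Enc α] [Enc β] (m : α → ℕ) (l : α → List β)
    (F : (a : α) → β → (ZMod (m a + 1))[X]), PT m → PT l →
    PP (fun q : α × β => m q.1) (fun q => F q.1 q.2) → PP m fun a => ((l a).map (F a)).sum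

structure PA2Stmt : Prop where
  mod : ∀ (α : Type) [Enc α] (m : α → ℕ) (F G : (a : α) → (ZMod (m a + 1))[X]), PT m →
    PP m F → PP m G → PP m fun a => F a %ₘ G a
  div : ∀ (α : Type) [Enc α] (m : α → ℕ) (F G : (a : α) → (ZMod (m a + 1))[X]), PT m →
    PP m F → PP m G → PP m fun a => F a /ₘ G a

def PWStmt : Prop := ∀ (α : Type) [Enc α] (m e : α → ℕ) (F G : (a : α) → (ZMod (m a + 1))[X]),
  PT m → PT e → PP m F → PP m G → PP m fun a => pwm (F a) (G a) (e a)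

def GCStmt : Prop :=
  ∃ gc : (m : ℕ) → (ZMod (m + 1))[X] → (ZMod (m + 1))[X] → (ZMod (m + 1))[X],
    (∀ (α : Type) [Enc α] (m : α → ℕ) (F G : (a : α) → (ZMod (m a + 1))[X]), PT m →
      PP m F → PP m G → PP m fun a => gc (m a) (F a) (G a)) ∧
    ∀ m : ℕ, (m + 1).Prime → ∀ f g : (ZMod (m + 1))[X], f.Monic → (gc m f g).Monic ∧
      gc m f g ∣ f ∧ gc m f g ∣ g ∧ ∀ d, d ∣ f → d ∣ g → d ∣ gc m f g

/-- at most four monic irreducible divisors of each degree -/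
def Few {p : ℕ} (f : (ZMod p)[X]) : Prop :=
  ∀ d : ℕ, {g : (ZMod p)[X] | g.Monic ∧ Irreducible g ∧ g ∣ f ∧ g.natDegree = d}.encard ≤ 4

/-- `h` has a common factor with `f` and is not a multiple of it -/
def Cuts {p : ℕ} (f h : (ZMod p)[X]) : Prop := (∃ g, Irreducible g ∧ g ∣ f ∧ g ∣ h) ∧ ¬ f ∣ h

def SPLStmt : Prop := ∀ (p : ℕ), p.Prime → ∀ f : (ZMod p)[X], f.Monic → 0 < f.natDegree →
  ¬ Irreducible f → Few f → ∃ d : ℕ, 1 ≤ d ∧ d ≤ f.natDegree ∧ (Cuts f (X ^ p ^ d - X) ∨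
    ∃ j < f.natDegree, ∃ y1 y2 y3 y4 : ZMod p,
      Cuts f (∑ i ∈ Finset.range d, X ^ (j * p ^ i) - C y1) ∧ ∀ k : ℕ, 1 ≤ k →
        (((∑ i ∈ Finset.range d, X ^ (j * p ^ i)) ^ k * derivative f) %ₘ f).coeff (f.natDegree - 1) =
          d * (y1 ^ k + y2 ^ k + y3 ^ k + y4 ^ k))

end Vale.Agent.P319
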