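import Vale.Agent.P338.PTX

/-! P319: modular powers and square roots from a nonresidue. -/

namespace Vale.Agent.P319

open Vale.Agent.Lib.H24.T Vale.Agent.P338.PTX

variable {α : Type} [Enc α]

/-- modular power -/
def pm (p a e : ℕ) : ℕ := a ^ e % p

theorem sz_mod (p m : ℕ) (hm : p = 0 → m = 0) : sz (m % p) ≤ 4 * sz p + 1 := by
  rcases Nat.eq_zero_or_pos p with rfl | h
  · rw [hm rfl]; exact sz_nat_mono le_rfl
  · exact sz_nat_mono (Nat.mod_lt _ h).le

@[fun_prop] theorem pt_pm {p a e : α → ℕ} (hp : PT p) (ha : PT a) (he : PT e) :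
    PT fun x => pm (p x + 1) (a x) (e x) := by
  have h1 : PT (fun q : α × ℕ × Bool => p q.1) := by fun_prop
  have h2 : PT (fun q : α × ℕ × Bool => a q.1) := by fun_prop
  refine PT.binRec (φ := fun x m => a x ^ m % (p x + 1))
    (ψ := fun x y b => (y * y * (bif b then a x else 1)) % (p x + 1)) (by fun_prop)
    (by simp only [pow_zero]; fun_prop) he (fun x b m => ?_) (fun x => 4 * sz (p x + 1) + 1)
    (by fun_prop) fun x m _ => sz_mod _ _ (by omega)
  rw [Nat.bit_val, pow_add, pow_mul', sq, Nat.mul_mod, Nat.mul_mod (a x ^ m), Nat.mul_mod (_ * _) (cond _ _ _)]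
  cases b <;> simp

/-- one halving step; the modulus is `p + 1` -/
def hstep (p a g : ℕ) (s : ℕ × ℕ) : ℕ × ℕ :=
  if s.1 % 2 = 0 then
    (s.1 / 2, if pm (p + 1) a (s.1 / 2) * pm (p + 1) g (s.2 / 2) % (p + 1) = 1 then s.2 / 2
      else s.2 / 2 + p / 2)
  else s

/-- square root attempt modulo `p + 1` with auxiliary element `g` -/
def sqr (p a g : ℕ) : ℕ :=
  pm (p + 1) a ((((hstep p a g)^[p.bits.length] (p / 2, 0)).1 + 1) / 2) *
    pm (p + 1) g (((hstep p a g)^[p.bits.length] (p / 2, 0)).2 / 2) % (p + 1)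

theorem hstep_le (p a g i : ℕ) : ((hstep p a g)^[i] (p / 2, 0)).1 ≤ p ∧
    ((hstep p a g)^[i] (p / 2, 0)).2 ≤ p := by
  induction i with
  | zero => simp; omega
  | succ i ih =>
    rw [Function.iterate_succ_apply']
    generalize (hstep p a g)^[i] (p / 2, 0) = s at *
    unfold hstep
    split_ifs <;> omega

theorem pt_hstep {p a g : α → ℕ} {s : α → ℕ × ℕ} (hp : PT p) (ha : PT a) (hg : PT g) (hs : PT s) :
    PT fun x => hstep (p x) (a x) (g x) (s x) := by
  have h1 := pt_pm hp ha hs.fst.div2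
  have h2 := pt_pm hp hg hs.snd.div2
  exact PT.ite ((mod hs.fst (PT.const 2)).eq (PT.const 0)) (hs.fst.div2.pair
    (PT.ite ((mod (h1.mul h2) hp.succ).eq (PT.const 1)) hs.snd.div2 (hs.snd.div2.add hp.div2))) hs

@[fun_prop] theorem pt_sqr {p a g : α → ℕ} (hp : PT p) (ha : PT a) (hg : PT g) :
    PT fun x => sqr (p x) (a x) (g x) := by
  have h : PT fun x => (hstep (p x) (a x) (g x))^[(p x).bits.length] (p x / 2, 0) :=
    PT.iterate (h := fun x => hstep (p x) (a x) (g x))
      (pt_hstep (hp.comp PT.id.fst) (ha.comp PT.id.fst) (hg.comp PT.id.fst) PT.id.snd) hp.bits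
      (hp.div2.pair (PT.const 0)) (fun x => 8 * sz (p x) + 3) (by fun_prop) fun x i _ => by
        have := sz_nat_mono (hstep_le (p x) (a x) (g x) i).1
        have := sz_nat_mono (hstep_le (p x) (a x) (g x) i).2
        rw [sz_pair']; omega
  exact mod ((pt_pm hp ha h.fst.succ.div2).mul (pt_pm hp hg h.snd.div2)) hp.succ

theorem cast_pm (p a e : ℕ) : (pm p a e : ZMod p) = (a : ZMod p) ^ e := by simp [pm]

theorem sqr_spec (p a g : ℕ) [hp : Fact (p + 1).Prime] (h2 : p + 1 ≠ 2)
    (a0 : (a : ZMod (p + 1)) ≠ 0) (ha : IsSquare (a : ZMod (p + 1)))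
    (hg : (p + 1) % 4 = 1 → ¬ IsSquare (g : ZMod (p + 1))) :
    (sqr p a g : ZMod (p + 1)) ^ 2 = a := by
  have o := hp.out.eq_two_or_odd.resolve_left h2
  have p2 := hp.out.two_le
  have e0 : (p + 1) / 2 = p / 2 := by omega
  have key : ∀ i, ∀ s, s = (hstep p a g)^[i] (p / 2, 0) →
      (a : ZMod (p + 1)) ^ s.1 * g ^ s.2 = 1 ∧ s.1 ∣ p / 2 ∧
      (∀ t, 2 ^ t ∣ s.1 → 2 ^ (t + 1) ∣ s.2) ∧ (s.1 % 2 = 1 ∨ 2 ^ i * s.1 ≤ p / 2) := by
    intro i
    induction i with
    | zero =>
      rintro s rfl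
      simpa [← e0] using (ZMod.euler_criterion (p + 1) a0).1 ha
    | succ i ih =>
      rintro s' rfl
      rw [Function.iterate_succ_apply']
      obtain ⟨i1, i2, i3, i4⟩ := ih _ rfl
      generalize (hstep p a g)^[i] (p / 2, 0) = s at *
      obtain ⟨k, j⟩ := s
      simp only at i1 i2 i3 i4
      unfold hstep
      by_cases c : k % 2 = 0
      swap
      · rw [if_neg c]
        exact ⟨i1, i2, i3, Or.inl (by omega)⟩
      obtain ⟨k, rfl⟩ : 2 ∣ k := by omega
      obtain ⟨j, rfl⟩ : 2 ∣ j := by simpa using i3 0 (by simp)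
      rw [if_pos c]
      simp only [Nat.mul_div_cancel_left _ two_pos]
      have d1 : ∀ t, 2 ^ t ∣ k → 2 ^ (t + 1) ∣ j ∧ 2 ^ (t + 1) ∣ p / 2 := fun t ht => by
        have : 2 ^ (t + 1) ∣ 2 * k := by rw [pow_succ']; exact Nat.mul_dvd_mul_left 2 ht
        refine ⟨?_, this.trans i2⟩
        have := i3 _ this
        rw [pow_succ' 2 (t + 1)] at this
        exact Nat.dvd_of_mul_dvd_mul_left two_pos this
      refine ⟨?_, (Dvd.intro_left 2 rfl).trans i2, fun t ht => ?_, Or.inr ?_⟩
      · split_ifs with c'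
        · have := congrArg (Nat.cast : ℕ → ZMod (p + 1)) c'
          simpa [cast_pm] using this
        · have s1 : ((a : ZMod (p + 1)) ^ k * g ^ j) ^ 2 = 1 := by
            rw [← i1, mul_pow, ← pow_mul', ← pow_mul']
          have s2 : (a : ZMod (p + 1)) ^ k * g ^ j ≠ 1 := fun e => c' (by
            have := (ZMod.natCast_eq_natCast_iff' (pm (p + 1) a k * pm (p + 1) g j) 1 (p + 1)).1
              (by simpa [cast_pm] using e)
            rwa [Nat.mod_eq_of_lt (show 1 < p + 1 by omega)] at this)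
          have n4 : ¬ IsSquare (g : ZMod (p + 1)) := hg (by
            have := (Dvd.intro k rfl).trans i2
            omega)
          have g0 : (g : ZMod (p + 1)) ≠ 0 := fun e => n4 (e ▸ IsSquare.zero)
          have s3 := (ZMod.pow_div_two_eq_neg_one_or_one (p + 1) g0).resolve_left
            (mt (ZMod.euler_criterion (p + 1) g0).2 n4)
          rw [e0] at s3
          rw [pow_add, s3, ← mul_assoc, (sq_eq_one_iff.1 s1).resolve_left s2]
          simp
      · split_ifs
        · exact (d1 t ht).1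
        · exact dvd_add (d1 t ht).1 (d1 t ht).2
      · rw [pow_succ, mul_assoc]
        exact i4.resolve_left (by omega)
  obtain ⟨i1, i2, i3, i4⟩ := key p.bits.length _ rfl
  rw [sqr]
  generalize (hstep p a g)^[p.bits.length] (p / 2, 0) = s at *
  obtain ⟨k, j⟩ := s
  simp only at i1 i2 i3 i4 ⊢
  have k0 : 0 < k := Nat.pos_of_dvd_of_pos i2 (by omega)
  have ko : k % 2 = 1 := i4.resolve_right fun h => by
    have := Nat.lt_size_self p
    rw [← Nat.size_eq_bits_len] at this
    have := Nat.le_mul_of_pos_right (2 ^ p.bits.length) k0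
    omega
  obtain ⟨j, rfl⟩ : 2 ∣ j := by simpa using i3 0 (by simp)
  simp only [ZMod.natCast_mod, Nat.cast_mul, cast_pm, Nat.mul_div_cancel_left _ two_pos]
  rw [mul_pow, ← pow_mul, ← pow_mul', show (k + 1) / 2 * 2 = k + 1 by omega, pow_succ,
    mul_right_comm, i1, one_mul]

end Vale.Agent.P319
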